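import Mathlib

/-!
# Row 291 (S0440): basic vocabulary

A clause is recorded by its *falsifying pattern* `c : V → Option Bool`; `c` is falsified by the
assignment `y` when `y` agrees with `c` on every variable of `c`.
-/

set_option autoImplicit false
set_option linter.unusedSectionVars false

namespace Crest.Agent.R291

open Finset

/-- A falsifying pattern. -/
abbrev Pat (V : Type) := V → Option Bool

section
variable {V : Type} [Fintype V] [DecidableEq V]

/-- The variables of a pattern. -/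
def vars (c : Pat V) : Finset V := univ.filter fun v => c v ≠ none

@[simp, grind =] theorem mem_vars {c : Pat V} {v : V} : v ∈ vars c ↔ c v ≠ none := by
  simp [vars]

/-- `x` with the bits in `J` flipped. -/
def flip (x : V → Bool) (J : Finset V) : V → Bool := fun v => if v ∈ J then !x v else x v

@[grind =] theorem flip_apply (x : V → Bool) (J : Finset V) (v : V) :
    flip x J v = if v ∈ J then !x v else x v := rfl

@[simp] theorem flip_empty (x : V → Bool) : flip x (∅ : Finset V) = x := by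
  funext v; simp [flip]

/-- `y` does not satisfy the clause `c` at the variable `v`. -/
def Ag (c : Pat V) (y : V → Bool) (v : V) : Prop := c v = none ∨ c v = some (y v)

@[grind =] theorem ag_iff {c : Pat V} {y : V → Bool} {v : V} :
    Ag c y v ↔ c v = none ∨ c v = some (y v) := Iff.rfl

instance (c : Pat V) (y : V → Bool) (v : V) : Decidable (Ag c y v) := by
  unfold Ag; infer_instance

/-- `y` falsifies the clause `c`. -/
def Fals (c : Pat V) (y : V → Bool) : Prop := ∀ v, Ag c y v

instance (c : Pat V) (y : V → Bool) : Decidable (Fals c y) := by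
  unfold Fals; infer_instance

/-- The variables at which `x` satisfies `c`. -/
def dis (c : Pat V) (x : V → Bool) : Finset V := univ.filter fun v => ¬ Ag c x v

@[simp, grind =] theorem mem_dis {c : Pat V} {x : V → Bool} {v : V} :
    v ∈ dis c x ↔ ¬ Ag c x v := by simp [dis]

/-- Remove the variables of `W` from `c`. -/
def erase (c : Pat V) (W : Finset V) : Pat V := fun v => if v ∈ W then none else c v

@[grind =] theorem erase_apply (c : Pat V) (W : Finset V) (v : V) :
    erase c W v = if v ∈ W then none else c v := rfl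

theorem vars_erase (c : Pat V) (W : Finset V) : vars (erase c W) = vars c \ W := by
  ext v; simp only [mem_vars, erase_apply, mem_sdiff]; grind

/-- `y` satisfies the CNF `F`. -/
def Sat (F : Finset (Pat V)) (y : V → Bool) : Prop := ∀ c ∈ F, ¬ Fals c y

instance (F : Finset (Pat V)) (y : V → Bool) : Decidable (Sat F y) := by
  unfold Sat; infer_instance

/-- The solutions of `F`. -/
def satSet (F : Finset (Pat V)) : Finset (V → Bool) := univ.filter fun y => Sat F y

@[simp] theorem mem_satSet {F : Finset (Pat V)} {y : V → Bool} : y ∈ satSet F ↔ Sat F y := by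
  simp [satSet]

/-- `y` satisfies the CNF `G` written with literal sets. -/
def Hits (G : Finset (Finset (V × Bool))) (y : V → Bool) : Prop :=
  ∀ c ∈ G, ∃ l ∈ c, y l.1 = l.2

instance (G : Finset (Finset (V × Bool))) (y : V → Bool) : Decidable (Hits G y) := by
  unfold Hits; infer_instance

/-- The points equal to `ρ` off `T` that satisfy `G`. -/
def fib (T : Finset V) (ρ : V → Bool) (G : Finset (Finset (V × Bool))) : Finset (V → Bool) :=
  univ.filter fun y => (∀ v, v ∉ T → y v = ρ v) ∧ Hits G y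

@[simp] theorem mem_fib {T : Finset V} {ρ y : V → Bool} {G : Finset (Finset (V × Bool))} :
    y ∈ fib T ρ G ↔ (∀ v, v ∉ T → y v = ρ v) ∧ Hits G y := by
  simp [fib]

/-- The union of `W ν` over `a ≤ ν < b`. -/
def U (W : ℕ → Finset V) (a b : ℕ) : Finset V := (Finset.Ico a b).biUnion W

omit [Fintype V] in
@[grind =] theorem mem_U {W : ℕ → Finset V} {a b : ℕ} {v : V} :
    v ∈ U W a b ↔ ∃ ν, a ≤ ν ∧ ν < b ∧ v ∈ W ν := by
  simp [U, and_assoc]

omit [Fintype V] in
theorem U_congr {W W' : ℕ → Finset V} {a b : ℕ} (h : ∀ ν, a ≤ ν → ν < b → W ν = W' ν) :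
    U W a b = U W' a b := by
  ext v; simp only [mem_U]
  constructor
  · rintro ⟨ν, h1, h2, h3⟩; exact ⟨ν, h1, h2, h ν h1 h2 ▸ h3⟩
  · rintro ⟨ν, h1, h2, h3⟩; exact ⟨ν, h1, h2, (h ν h1 h2).symm ▸ h3⟩

omit [Fintype V] in
theorem U_of_le (W : ℕ → Finset V) {a b : ℕ} (h : b ≤ a) : U W a b = ∅ := by
  ext v; simp only [mem_U, notMem_empty, iff_false]; rintro ⟨ν, h1, h2, -⟩; omega

omit [Fintype V] in
@[simp] theorem U_self (W : ℕ → Finset V) (a : ℕ) : U W a a = ∅ := U_of_le W le_rfl

omit [Fintype V] in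
theorem U_succ (W : ℕ → Finset V) {a b : ℕ} (h : a ≤ b) : U W a (b + 1) = U W a b ∪ W b := by
  ext v; simp only [mem_U, mem_union]
  constructor
  · rintro ⟨ν, h1, h2, h3⟩
    rcases Nat.lt_succ_iff_lt_or_eq.1 h2 with h | rfl
    · exact Or.inl ⟨ν, h1, h, h3⟩
    · exact Or.inr h3
  · rintro (⟨ν, h1, h2, h3⟩ | h3)
    · exact ⟨ν, h1, by omega, h3⟩
    · exact ⟨b, h, by omega, h3⟩

omit [Fintype V] in
theorem U_split (W : ℕ → Finset V) {a b c : ℕ} (h1 : a ≤ b) (h2 : b ≤ c) :
    U W a c = U W a b ∪ U W b c := by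
  ext v; simp only [mem_U, mem_union]
  constructor
  · rintro ⟨ν, h3, h4, h5⟩
    by_cases h : ν < b
    · exact Or.inl ⟨ν, h3, h, h5⟩
    · exact Or.inr ⟨ν, by omega, h4, h5⟩
  · rintro (⟨ν, h3, h4, h5⟩ | ⟨ν, h3, h4, h5⟩)
    · exact ⟨ν, h3, by omega, h5⟩
    · exact ⟨ν, by omega, h4, h5⟩

omit [Fintype V] in
theorem U_mono (W : ℕ → Finset V) {a b a' b' : ℕ} (h1 : a' ≤ a) (h2 : b ≤ b') :
    U W a b ⊆ U W a' b' := by
  intro v; simp only [mem_U]; rintro ⟨ν, h3, h4, h5⟩; exact ⟨ν, by omega, by omega, h5⟩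

omit [Fintype V] in
theorem subset_U (W : ℕ → Finset V) {a b ν : ℕ} (h1 : a ≤ ν) (h2 : ν < b) : W ν ⊆ U W a b :=
  fun _ hv => mem_U.2 ⟨ν, h1, h2, hv⟩

omit [Fintype V] in
theorem card_U_le (W : ℕ → Finset V) (a b : ℕ) :
    (U W a b).card ≤ ∑ ν ∈ Finset.Ico a b, (W ν).card := card_biUnion_le

omit [Fintype V] in
theorem card_U_eq (W : ℕ → Finset V) (a b : ℕ)
    (h : ∀ ν ν', a ≤ ν → ν < ν' → ν' < b → Disjoint (W ν) (W ν')) :
    (U W a b).card = ∑ ν ∈ Finset.Ico a b, (W ν).card := by
  apply card_biUnion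
  intro ν hν ν' hν' hne
  simp only [coe_Ico, Set.mem_Ico] at hν hν'
  rcases lt_or_gt_of_ne hne with h' | h'
  · exact h ν ν' hν.1 h' hν'.2
  · exact (h ν' ν hν'.1 h' hν.2).symm

/-- A fixed injective ranking of patterns. -/
noncomputable def rk (c : Pat V) : ℕ := (Fintype.equivFin (Pat V) c : ℕ)

theorem rk_injective : Function.Injective (rk : Pat V → ℕ) := fun _ _ h =>
  (Fintype.equivFin (Pat V)).injective (Fin.ext h)

/-- `c` is the first pattern with property `P`. -/
def First (P : Pat V → Prop) (c : Pat V) : Prop := P c ∧ ∀ c', P c' → rk c ≤ rk c'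

theorem exists_first {P : Pat V → Prop} (h : ∃ c, P c) : ∃ c, First P c := by
  classical
  obtain ⟨c, hc⟩ := h
  obtain ⟨c₀, h0, h1⟩ := exists_min_image (univ.filter P) rk ⟨c, by simpa using hc⟩
  exact ⟨c₀, by simpa using h0, fun c' hc' => h1 c' (by simpa using hc')⟩

/-- Two-sided uniqueness of first elements. -/
theorem First.eq_of {P P' : Pat V → Prop} {c c' : Pat V} (h : First P c) (h' : First P' c')
    (h1 : P' c) (h2 : P c') : c = c' :=
  rk_injective (le_antisymm (h.2 _ h2) (h'.2 _ h1))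

end

/-- The combinatorial core: a `K m`-CNF on `n ≥ m²` variables with density at least `2^{-B m}`
contains, inside some subcube with at most `D m` free variables, the `≥ 2^m` solutions of a
sparse narrow CNF. -/
def CoreStmt : Prop :=
  ∀ B K : ℕ, ∃ D L w m₀ : ℕ, ∀ n m : ℕ, m₀ ≤ m → m ^ 2 ≤ n →
    ∀ F : Finset (Pat (Fin n)), (∀ c ∈ F, (vars c).card ≤ K * m) →
      2 ^ n ≤ 2 ^ (B * m) * (satSet F).card →
      ∃ (T : Finset (Fin n)) (ρ : Fin n → Bool) (G : Finset (Finset (Fin n × Bool))),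
        T.card ≤ D * m ∧ G.card ≤ L * m ∧ (∀ c ∈ G, c.card ≤ w ∧ ∀ l ∈ c, l.1 ∈ T) ∧
        (∀ y ∈ fib T ρ G, Sat F y) ∧ 2 ^ m ≤ (fib T ρ G).card

end Crest.Agent.R291
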