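import Crest.Agent.R291.Multi

/-!
# Row 291: transcripts exist
-/

set_option autoImplicit false
set_option linter.unusedSectionVars false

namespace Crest.Agent.R291

open Finset

variable {V : Type} [Fintype V] [LinearOrder V]

/-- RECIPE: strong induction on `(C.T \ Wc).card`; a candidate has a free variable outside `Wc`
(`Cand.big`, and it avoids `Wc`); keep `Jc ⊆ Wc` (`Cand.dis_subset`); `exists_first`. -/
theorem exists_chain (C : Ctx V) (x : V → Bool) (h1 : C.SW C.μ = ∅) (h2 : C.SJ C.μ = ∅)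
    (h3 : C.SA C.μ = ∅) (Wc Jc Ec : Finset V) (hJ : Jc ⊆ Wc) :
    ∃ Wf Jf Ef, Chain C x Wc Jc Ec Wf Jf Ef := by
  induction hn : (C.T \ Wc).card using Nat.strong_induction_on generalizing Wc Jc Ec with
  | _ n ih =>
    by_cases hc : ∃ c, Cand C x Wc Jc c
    · obtain ⟨c, hc⟩ := exists_first hc
      obtain ⟨v, hv⟩ := card_pos.1 (lt_of_le_of_lt (Nat.zero_le _) (hc.1.big hJ h1 h2 h3))
      have hvW : v ∉ Wc := dj hc.1.2.2.1 v (mem_inter.1 hv).1
      have hlt : (C.T \ (Wc ∪ vars c ∩ C.T)).card < n := by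
        rw [← hn]
        refine card_lt_card ⟨sdiff_subset_sdiff (Subset.refl _) subset_union_left, fun hsub => ?_⟩
        have := hsub (mem_sdiff.2 ⟨(mem_inter.1 hv).2, hvW⟩)
        exact (mem_sdiff.1 this).2 (mem_union_right _ hv)
      obtain ⟨Wf, Jf, Ef, h⟩ := ih _ hlt (Wc ∪ vars c ∩ C.T) (Jc ∪ dis c x) (Ec ∪ vars c ∩ C.SA 0)
        (union_subset_union hJ (hc.1.dis_subset.trans sdiff_subset)) rfl
      exact ⟨Wf, Jf, Ef, Chain.step c hc h⟩
    · exact ⟨Wc, Jc, Ec, Chain.done fun c h => hc ⟨c, h⟩⟩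

/-- RECIPE: strong induction on `(T \ Fc).card`. -/
theorem exists_greedy (X : Pat V → Prop) (T : Finset V) (hX : ∀ c, X c → (vars c ∩ T).Nonempty)
    (Fc : Finset V) : ∃ Ff, Greedy X T Fc Ff := by
  induction hn : (T \ Fc).card using Nat.strong_induction_on generalizing Fc with
  | _ n ih =>
    by_cases hc : ∃ c, X c ∧ Disjoint (vars c) Fc
    · obtain ⟨c, hc⟩ := exists_first hc
      obtain ⟨v, hv⟩ := hX c hc.1.1
      have hvW : v ∉ Fc := dj hc.1.2 v (mem_inter.1 hv).1
      have hlt : (T \ (Fc ∪ vars c ∩ T)).card < n := by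
        rw [← hn]
        refine card_lt_card ⟨sdiff_subset_sdiff (Subset.refl _) subset_union_left, fun hsub => ?_⟩
        have := hsub (mem_sdiff.2 ⟨(mem_inter.1 hv).2, hvW⟩)
        exact (mem_sdiff.1 this).2 (mem_union_right _ hv)
      obtain ⟨Ff, h⟩ := ih _ hlt (Fc ∪ vars c ∩ T) rfl
      exact ⟨Ff, Greedy.step c hc h⟩
    · exact ⟨Fc, Greedy.done fun c h h' => hc ⟨c, h, h'⟩⟩

/-- RECIPE: among the hitting subsets `A ⊆ F` take one minimal in colex order (`Finset.Colex`,
`toColex_lt_toColex_iff_exists_forall_lt`; or minimise `∑ e ∈ A, 2 ^ rank e`).  For `e ∈ A` the set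
`guard A F e ⊆ F` is colex-smaller, so it is not hitting; `exists_first`, `choose`. -/
theorem exists_hitSpec (X : Pat V → Prop) (F : Finset V) (hF : ∀ c, X c → ¬ Disjoint (vars c) F) :
    ∃ A Q, HitSpec X F A Q := by
  classical
  obtain ⟨A, hA, hmin⟩ := exists_min_image
    (F.powerset.filter fun A => ∀ c, X c → ¬ Disjoint (vars c) A) (fun A => toColex A)
    ⟨F, mem_filter.2 ⟨mem_powerset_self _, hF⟩⟩
  obtain ⟨hAF, hhit⟩ := mem_filter.1 hA
  rw [mem_powerset] at hAF
  have H : ∀ e ∈ A, ∃ c, First (fun d => X d ∧ Disjoint (vars d) (guard A F e)) c := by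
    intro e he
    refine exists_first ?_
    by_contra hc
    have h1 : guard A F e ∈ F.powerset.filter fun A => ∀ c, X c → ¬ Disjoint (vars c) A := by
      refine mem_filter.2 ⟨mem_powerset.2 fun v hv => ?_, fun c h h' => hc ⟨c, h, h'⟩⟩
      rcases mem_guard.1 hv with h | h
      · exact hAF h.1
      · exact h.1
    refine absurd (hmin _ h1) (not_le.2 ?_)
    rw [Colex.toColex_lt_toColex_iff_exists_forall_lt]
    refine ⟨e, he, by simp [mem_guard], fun v hv hv' => ?_⟩
    rcases mem_guard.1 hv with h | h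
    · exact (hv' h.1).elim
    · exact h.2
  choose! wit hw using H
  exact ⟨A, _, hAF, hhit, wit, hw, rfl⟩

/-- RECIPE: induction on `j`; extend the record at index `j` (`Function.update`), using
`exists_chain`, `Valid.inv_of_chain`, `exists_greedy`, `Greedy.hits`, `exists_hitSpec`; the contexts
`R.ctx Φ u b μ` for `μ ≤ j` do not change (`U_congr`). -/
theorem exists_valid (Φ : Finset (Pat V)) (x : V → Bool) (hs : Sat Φ x) (u b : ℕ) (T : Finset V)
    (j : ℕ) : ∃ R : Rec V, R.T 0 = T ∧ Valid Φ x u b R j := by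
  induction j with
  | zero => exact ⟨⟨fun _ => T, fun _ => ∅, fun _ => ∅, fun _ => ∅, fun _ => ∅, fun _ => ∅, fun _ => ∅⟩,
      rfl, fun μ hμ => absurd hμ (Nat.not_lt_zero _)⟩
  | succ j ih =>
    obtain ⟨R, h0, hR⟩ := ih
    obtain ⟨W, J, E, hc⟩ := exists_chain (R.ctx Φ u b j) x (U_self _ _) (U_self _ _) (U_self _ _)
      ∅ ∅ ∅ (Subset.refl _)
    obtain ⟨F, hF⟩ := exists_greedy (InX (R.ctx Φ u b j) x W J) (R.T j \ W)
      (hR.inv_of_chain hs hc) ∅
    obtain ⟨A, Q, hA⟩ := exists_hitSpec _ F hF.hits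
    let R' : Rec V := ⟨Function.update R.T (j + 1) (R.T j \ (W ∪ F ∪ Q)), Function.update R.W j W,
      Function.update R.J j J, Function.update R.E j E, Function.update R.F j F,
      Function.update R.A j A, Function.update R.Q j Q⟩
    have hU : ∀ (G : ℕ → Finset V) (Y : Finset V) (μ : ℕ), μ ≤ j →
        (fun m => U (Function.update G j Y) m μ) = fun m => U G m μ := fun G Y μ hμ =>
      funext fun m => U_congr fun ν _ h => Function.update_of_ne (by omega) _ _
    have hctx : ∀ μ ≤ j, R'.ctx Φ u b μ = R.ctx Φ u b μ := fun μ hμ => by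
      simp only [Rec.ctx, R', hU _ _ μ hμ, Function.update_of_ne (show μ ≠ j + 1 by omega)]
    refine ⟨R', by simp only [R', Function.update_of_ne (show 0 ≠ j + 1 by omega), h0], fun μ hμ => ?_⟩
    rw [hctx μ (by omega)]
    by_cases e : μ = j
    · subst e
      simp only [R', Function.update_self]
      exact ⟨hc, hF, hA, rfl⟩
    · simp only [R', Function.update_of_ne e, Function.update_of_ne (show μ + 1 ≠ j + 1 by omega)]
      exact hR μ (by omega)

/-- RECIPE: induction on `s` generalizing `Φ, T`: take the record of round `s` from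
`exists_valid`, apply the induction hypothesis to `nextF …` (`Valid.sat_next`, `wid_next`) and
`R.T (b s)`, and update the transcript at `Φ (s+1)`, `T (s+1)`, `R s`. -/
theorem exists_tr (u b : ℕ → ℕ) (k : ℕ) (x : V → Bool) (s : ℕ) (Φ : Finset (Pat V))
    (T : Finset V) (hs : Sat Φ x) (hk : ∀ c ∈ Φ, (vars c).card ≤ k) :
    ∃ τ : Tr V, TrValid u b k x s τ ∧ τ.Φ s = Φ ∧ τ.T s = T := by
  induction s generalizing Φ T with
  | zero =>
    exact ⟨⟨fun _ => Φ, fun _ => T, fun _ => ⟨fun _ => T, fun _ => ∅, fun _ => ∅, fun _ => ∅,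
      fun _ => ∅, fun _ => ∅, fun _ => ∅⟩⟩, ⟨by simp, by simp, by simp, by simp, hs, hk⟩, rfl, rfl⟩
  | succ s ih =>
    obtain ⟨R, h0, hR⟩ := exists_valid Φ x hs (u s) (b s) T (b s)
    obtain ⟨τ, hτ, h1, h2⟩ := ih (nextF Φ x (u s) (b s) R.W R.J R.A) (R.T (b s)) (hR.sat_next hs)
      (wid_next hk _ _ _)
    refine ⟨⟨Function.update τ.Φ (s + 1) Φ, Function.update τ.T (s + 1) T, Function.update τ.R s R⟩,
      ⟨fun i hi => ?_, fun i hi => ?_, fun i hi => ?_, fun i hi => ?_, by simpa using hs,
        by simpa using hk⟩, by simp, by simp⟩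
    all_goals
      by_cases e : i = s
      · subst e
        simp only [Function.update_self, Function.update_of_ne (show i ≠ i + 1 by omega)]
        first | exact hR | exact h0 | exact h2 | exact h1
      · simp only [Function.update_of_ne e, Function.update_of_ne (show i + 1 ≠ s + 1 by omega),
          Function.update_of_ne (show i ≠ s + 1 by omega)]
        first
          | exact hτ.round i (by omega)
          | exact hτ.start i (by omega)
          | exact hτ.stop i (by omega)
          | exact hτ.next i (by omega)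

end Crest.Agent.R291
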