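import Mathlib

/-!
# Row 291: product weights, Kraft steps and Jensen
-/

set_option autoImplicit false
set_option linter.unusedSectionVars false

namespace Crest.Agent.R291

open Finset

/-- One Kraft step: every outcome is compatible with some answer `a`, whose weight pays. -/
theorem kraft_step {ι α : Type} (O : Finset ι) (𝒜 : Finset α) (C : α → ι → Prop) (w : α → ℝ)
    (pot : ι → ℝ) (pot' : α → ι → ℝ) (hw : ∀ a ∈ 𝒜, 0 ≤ w a) (hsum : ∑ a ∈ 𝒜, w a ≤ 1)
    (hnext : ∀ a ∈ 𝒜, ∀ O' ⊆ O, (∀ o ∈ O', C a o) → ∑ o ∈ O', pot' a o ≤ 1)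
    (hstep : ∀ o ∈ O, ∃ a ∈ 𝒜, C a o ∧ pot o ≤ w a * pot' a o) :
    ∑ o ∈ O, pot o ≤ 1 := by
  classical
  rcases O.eq_empty_or_nonempty with rfl | ⟨o₀, ho₀⟩
  · simp
  have : Nonempty α := ⟨(hstep o₀ ho₀).choose⟩
  choose! f hf using hstep
  calc ∑ o ∈ O, pot o = ∑ a ∈ 𝒜, ∑ o ∈ O with f o = a, pot o :=
        (sum_fiberwise_of_maps_to (fun o ho => (hf o ho).1) _).symm
    _ ≤ ∑ a ∈ 𝒜, w a * ∑ o ∈ O with f o = a, pot' a o := by
        refine sum_le_sum fun a _ => ?_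
        rw [mul_sum]
        refine sum_le_sum fun o ho => ?_
        obtain ⟨h1, rfl⟩ := mem_filter.1 ho
        exact (hf o h1).2.2
    _ ≤ ∑ a ∈ 𝒜, w a := by
        refine sum_le_sum fun a ha => ?_
        refine mul_le_of_le_one_right (hw a ha) (hnext a ha _ (filter_subset _ _) fun o ho => ?_)
        obtain ⟨h1, rfl⟩ := mem_filter.1 ho
        exact (hf o h1).2.1
    _ ≤ 1 := hsum

/-- `E e^Z ≤ e^β` gives `E Z ≤ β`. -/
theorem jensen_exp {ι : Type} (O : Finset ι) (μ Z : ι → ℝ) (M β : ℝ) (hμ : ∀ o ∈ O, 0 ≤ μ o)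
    (hM : ∑ o ∈ O, μ o = M) (h : ∑ o ∈ O, μ o * Real.exp (Z o) ≤ M * Real.exp β) :
    ∑ o ∈ O, μ o * Z o ≤ M * β := by
  have h1 : ∀ o ∈ O, μ o * Z o ≤ μ o * β + (μ o * Real.exp (Z o) * Real.exp (-β) - μ o) := by
    intro o ho
    have h2 := Real.add_one_le_exp (Z o - β)
    rw [sub_eq_add_neg (Z o) β, Real.exp_add] at h2
    nlinarith [mul_le_mul_of_nonneg_left h2 (hμ o ho)]
  refine (sum_le_sum h1).trans ?_
  rw [sum_add_distrib, sum_sub_distrib, ← sum_mul, ← sum_mul, hM]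
  have h3 := mul_le_mul_of_nonneg_right h (Real.exp_pos (-β)).le
  rw [mul_assoc, ← Real.exp_add] at h3
  simp at h3
  linarith

variable {V : Type} [Fintype V] [DecidableEq V]

/-- The probability weight of `T` on the coordinates outside `K`. -/
noncomputable def pw (p : ℝ) (K T : Finset V) : ℝ :=
  ∏ v ∈ univ \ K, if v ∈ T then p else 1 - p

/-- The probability that a `p`-random set meets `Q` exactly in `Y ⊆ Q`. -/
noncomputable def qw (p : ℝ) (Q Y : Finset V) : ℝ := ∏ v ∈ Q, if v ∈ Y then p else 1 - p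

theorem qw_nonneg {p : ℝ} (h0 : 0 ≤ p) (h1 : p ≤ 1) (Q Y : Finset V) : 0 ≤ qw p Q Y :=
  prod_nonneg fun v _ => by split_ifs <;> linarith

theorem pw_nonneg {p : ℝ} (h0 : 0 ≤ p) (h1 : p ≤ 1) (K T : Finset V) : 0 ≤ pw p K T :=
  qw_nonneg h0 h1 _ _

theorem qw_empty (p : ℝ) (Q : Finset V) : qw p Q ∅ = (1 - p) ^ Q.card := by simp [qw]

theorem qw_eq (p : ℝ) {Q Y : Finset V} (h : Y ⊆ Q) :
    qw p Q Y = p ^ Y.card * (1 - p) ^ (Q \ Y).card := by
  unfold qw
  rw [prod_ite, prod_const, prod_const]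
  congr 3
  · ext v; simp only [mem_filter]; exact ⟨fun h => h.2, fun h' => ⟨h h', h'⟩⟩
  · ext v; simp

theorem sum_qw_pow (p y : ℝ) (Q : Finset V) :
    ∑ Y ∈ Q.powerset, qw p Q Y * y ^ Y.card = (1 + p * (y - 1)) ^ Q.card := by
  have h := Finset.prod_add (fun _ : V => p * y) (fun _ => 1 - p) Q
  rw [prod_const] at h
  rw [show 1 + p * (y - 1) = p * y + (1 - p) by ring, h]
  refine sum_congr rfl fun Y hY => ?_
  rw [qw_eq p (mem_powerset.1 hY), prod_const, prod_const, mul_pow]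
  ring

theorem sum_qw (p : ℝ) (Q : Finset V) : ∑ Y ∈ Q.powerset, qw p Q Y = 1 := by
  simpa using sum_qw_pow p 1 Q

theorem pw_split (p : ℝ) {K Q : Finset V} (h : Disjoint Q K) (T : Finset V) :
    pw p K T = qw p Q (T ∩ Q) * pw p (K ∪ Q) T := by
  unfold pw qw
  have : univ \ K = Q ∪ univ \ (K ∪ Q) := by
    ext v; have : v ∈ Q → v ∉ K := fun hv => disjoint_left.1 h hv; grind
  rw [this, prod_union (by rw [disjoint_left]; intro v; grind)]
  congr 1
  refine prod_congr rfl fun v hv => ?_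
  simp [hv]

theorem pw_of_subset (p : ℝ) {K T : Finset V} (h : K ⊆ T) :
    pw p ∅ T = p ^ K.card * pw p K T := by
  rw [pw_split p (disjoint_empty_right K) T, inter_eq_right.2 h, qw_eq p (Subset.refl _)]
  simp

theorem sum_pw_pow (p y : ℝ) :
    ∑ T : Finset V, pw p ∅ T * y ^ T.card = (1 + p * (y - 1)) ^ Fintype.card V := by
  have := sum_qw_pow p y (univ : Finset V)
  simpa [pw, qw] using this

theorem sum_pw (p : ℝ) : ∑ T : Finset V, pw p ∅ T = 1 := by
  simpa using sum_pw_pow (V := V) p 1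

theorem sum_pw_le {p : ℝ} (h0 : 0 ≤ p) (h1 : p ≤ 1) (O : Finset (Finset V)) (K G : Finset V)
    (h : ∀ T ∈ O, T ∩ K = G) : ∑ T ∈ O, pw p K T ≤ 1 := by
  rw [← sum_qw p (univ \ K)]
  have e : ∀ T ∈ O, pw p K T = qw p (univ \ K) (T \ K) := by
    intro T _
    unfold pw qw
    refine prod_congr rfl fun v hv => ?_
    have : v ∉ K := (mem_sdiff.1 hv).2
    simp [this]
  rw [sum_congr rfl e]
  have hinj : Set.InjOn (fun T : Finset V => T \ K) O := by
    intro T hT T' hT' heq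
    have h2 := h T hT
    have h3 := h T' hT'
    rw [← sdiff_union_inter T K, ← sdiff_union_inter T' K, h2, h3]
    simp only at heq
    rw [heq]
  rw [← sum_image (f := fun Y => qw p (univ \ K) Y) hinj]
  refine sum_le_sum_of_subset_of_nonneg ?_ fun Y _ _ => qw_nonneg h0 h1 _ _
  intro Y hY
  obtain ⟨T, -, rfl⟩ := mem_image.1 hY
  exact mem_powerset.2 (sdiff_subset_sdiff (subset_univ _) (Subset.refl _))

/-- One oracle query `Q` (disjoint from the known set `K`) with outcome weights `w`. -/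
theorem query_step {p : ℝ} (h0 : 0 ≤ p) (h1 : p ≤ 1) (O : Finset (Finset V)) {K Q : Finset V}
    (hQ : Disjoint Q K) (w : Finset V → ℝ) (pot : Finset V → ℝ) (pot' : Finset V → Finset V → ℝ)
    (hw : ∀ Y ⊆ Q, 0 ≤ w Y) (hsum : ∑ Y ∈ Q.powerset, qw p Q Y * w Y ≤ 1)
    (hnext : ∀ Y ⊆ Q, ∀ O' ⊆ O, (∀ T ∈ O', T ∩ Q = Y) →
      ∑ T ∈ O', pw p (K ∪ Q) T * pot' Y T ≤ 1)
    (hstep : ∀ T ∈ O, pot T ≤ w (T ∩ Q) * pot' (T ∩ Q) T) :
    ∑ T ∈ O, pw p K T * pot T ≤ 1 := by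
  refine kraft_step O Q.powerset (fun Y T => T ∩ Q = Y) (fun Y => qw p Q Y * w Y) _
    (fun Y T => pw p (K ∪ Q) T * pot' Y T)
    (fun Y hY => mul_nonneg (qw_nonneg h0 h1 _ _) (hw Y (mem_powerset.1 hY))) hsum
    (fun Y hY => hnext Y (mem_powerset.1 hY)) fun T hT => ?_
  refine ⟨T ∩ Q, mem_powerset.2 inter_subset_right, rfl, ?_⟩
  rw [pw_split p hQ T]
  have := mul_le_mul_of_nonneg_left (hstep T hT)
    (mul_nonneg (qw_nonneg h0 h1 Q (T ∩ Q)) (pw_nonneg h0 h1 (K ∪ Q) T))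
  linarith

theorem sum_pw_card (p : ℝ) :
    ∑ T : Finset V, pw p ∅ T * (T.card : ℝ) = p * Fintype.card V := by
  have h1 : ∀ T : Finset V, (T.card : ℝ) = ∑ v : V, if v ∈ T then 1 else 0 := by
    intro T; simp
  simp_rw [h1, mul_sum]
  rw [sum_comm]
  have h2 : ∀ v : V, ∑ T : Finset V, pw p ∅ T * (if v ∈ T then (1 : ℝ) else 0) = p := by
    intro v
    have h3 := Finset.prod_add (fun _ : V => p) (fun w => if w = v then 0 else 1 - p) univ
    have h4 : ∏ w : V, (p + if w = v then 0 else 1 - p) = p := by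
      rw [prod_eq_single v] <;> simp +contextual
    rw [h4, powerset_univ] at h3
    rw [h3]
    refine sum_congr rfl fun T _ => ?_
    rw [← h3]
    by_cases hv : v ∈ T
    · rw [if_pos hv, mul_one, show pw p ∅ T = qw p univ T by simp [pw, qw], qw_eq p (subset_univ _),
        prod_const, ← prod_const (1 - p)]
      congr 1
      refine prod_congr rfl fun w hw => ?_
      rw [if_neg]
      rintro rfl
      exact (mem_sdiff.1 hw).2 hv
    · rw [if_neg hv, mul_zero, prod_eq_zero (i := v) (s := univ \ T) (by simp [hv]) (by simp),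
        mul_zero]
  rw [sum_congr rfl fun v _ => h2 v]
  simp [mul_comm]

end Crest.Agent.R291
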