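import Crest.Agent.R291.Basic
import Crest.Agent.R291.Weights

/-!
# Row 291: a big leaf exists
-/

set_option autoImplicit false
set_option linter.unusedSectionVars false

namespace Crest.Agent.R291

open Finset

variable {V : Type} [Fintype V] [DecidableEq V]

/-- The class of `x` for the free set function `Z`. -/
def cls (S : Finset (V → Bool)) (Z : (V → Bool) → Finset V) (x : V → Bool) :
    Finset (V → Bool) :=
  S.filter fun x' => Z x' = Z x ∧ ∀ v, v ∉ Z x → x' v = x v

theorem leaf_cube_card (Y : Finset V) (x : V → Bool) :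
    (univ.filter fun y : V → Bool => ∀ v, v ∉ Y → y v = x v).card = 2 ^ Y.card := by
  have h : (univ.filter fun y : V → Bool => ∀ v, v ∉ Y → y v = x v) =
      Fintype.piFinset fun v => if v ∈ Y then univ else {x v} := by
    ext y
    simp only [mem_filter, mem_univ, true_and, Fintype.mem_piFinset]
    refine forall_congr' fun v => ?_
    by_cases hv : v ∈ Y <;> simp [hv]
  rw [h, Fintype.card_piFinset]
  have h2 : ∀ v, (if v ∈ Y then (univ : Finset Bool) else {x v}).card =
      if v ∈ Y then 2 else 1 := fun v => by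
    split_ifs <;> simp
  simp only [h2]
  rw [prod_ite]
  simp

theorem mem_cls {S : Finset (V → Bool)} {Z : (V → Bool) → Finset V} {x y : V → Bool} :
    y ∈ cls S Z x ↔ y ∈ S ∧ Z y = Z x ∧ ∀ v, v ∉ Z x → y v = x v := mem_filter

theorem self_mem_cls {S : Finset (V → Bool)} (Z : (V → Bool) → Finset V) {x : V → Bool}
    (hx : x ∈ S) : x ∈ cls S Z x := mem_filter.2 ⟨hx, rfl, fun _ _ => rfl⟩

theorem card_cls_le (S : Finset (V → Bool)) (Z : (V → Bool) → Finset V) (x : V → Bool) :
    (cls S Z x).card ≤ 2 ^ (Z x).card := by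
  rw [← leaf_cube_card (Z x) x]
  refine card_le_card fun y hy => ?_
  exact mem_filter.2 ⟨mem_univ _, (mem_filter.1 hy).2.2⟩

theorem leaf_sum_fiber (S : Finset (V → Bool)) (Z : (V → Bool) → Finset V) (Y : Finset V) :
    ∑ x ∈ S with Z x = Y, 1 / ((cls S Z x).card : ℝ) ≤ 2 ^ Fintype.card V * (1 / 2) ^ Y.card := by
  have hmaps : ∀ x ∈ S.filter (fun x => Z x = Y), (fun v => if v ∈ Y then false else x v) ∈
      univ.filter fun y : V → Bool => ∀ v, v ∉ Yᶜ → y v = (fun _ => false) v := by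
    intro x _
    refine mem_filter.2 ⟨mem_univ _, fun v hv => ?_⟩
    have : v ∈ Y := by simpa using hv
    simp [this]
  rw [← sum_fiberwise_of_maps_to hmaps]
  refine (sum_le_card_nsmul _ _ 1 fun g _ => ?_).trans ?_
  · set A := (S.filter fun x => Z x = Y).filter
      fun x => (fun v => if v ∈ Y then false else x v) = g with hA
    have h1 : ∀ x ∈ A, cls S Z x = A := by
      intro x hx
      obtain ⟨hx1, hx3⟩ := mem_filter.1 hx
      obtain ⟨-, hx2⟩ := mem_filter.1 hx1
      ext x'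
      simp only [cls, hA, mem_filter, hx2, and_assoc, ← hx3, funext_iff]
      refine and_congr_right fun _ => and_congr_right fun _ => forall_congr' fun v => ?_
      by_cases hv : v ∈ Y <;> simp [hv]
    rw [sum_congr rfl (g := fun _ => 1 / (A.card : ℝ)) fun x hx => by rw [h1 x hx], sum_const,
      nsmul_eq_mul, mul_one_div]
    exact div_self_le_one _
  · rw [leaf_cube_card, card_compl, nsmul_eq_mul, mul_one]
    have hY : Y.card ≤ Fintype.card V := card_le_univ Y
    rw [Nat.cast_pow, Nat.cast_ofNat, pow_sub₀ _ two_ne_zero hY, one_div, inv_pow]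

theorem leaf_sum (S : Finset (V → Bool)) (Z : (V → Bool) → Finset V) (T : Finset V)
    (hZ : ∀ x ∈ S, Z x ⊆ T) :
    ∑ x ∈ S, (1 / 4 : ℝ) ^ (T \ Z x).card * (1 / ((cls S Z x).card : ℝ)) ≤
      2 ^ Fintype.card V * (3 / 4) ^ T.card := by
  rw [← sum_fiberwise_of_maps_to (t := T.powerset) (g := Z) fun x hx => mem_powerset.2 (hZ x hx)]
  have h := Finset.prod_add (fun _ : V => (1 / 2 : ℝ)) (fun _ => (1 / 4 : ℝ)) T
  rw [prod_const] at h
  rw [show (3 / 4 : ℝ) = 1 / 2 + 1 / 4 by norm_num, h, mul_sum]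
  refine sum_le_sum fun Y _ => ?_
  rw [sum_congr rfl (g := fun x => (1 / 4 : ℝ) ^ (T \ Y).card * (1 / ((cls S Z x).card : ℝ)))
    fun x hx => by rw [(mem_filter.1 hx).2], ← mul_sum, prod_const, prod_const]
  calc _ ≤ (1 / 4 : ℝ) ^ (T \ Y).card * (2 ^ Fintype.card V * (1 / 2) ^ Y.card) :=
        mul_le_mul_of_nonneg_left (leaf_sum_fiber S Z Y) (by positivity)
    _ = _ := by ring

/-- RECIPE.  `t = p n`, `N x T = |cls S (Z · T) x| ≥ 1`, `H = T \ Z x T`.  For fixed `T`,
`∑_{x ∈ S} (1/4)^{|H|} / N ≤ ∑_{Y ⊆ T} (1/4)^{|T \ Y|} 2^{n - |Y|} = 2^n (3/4)^{|T|}` (group by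
the class; a class is determined by `Y = Z x T` and `x` off `Y`), and
`∑_T pw p ∅ T (3/4)^{|T|} = (1 - p/4)^n ≤ exp (-t/4)` (`sum_pw_pow`).  `jensen_exp` with
`Z = -|H| log 4 - log N`, exponent `β - t/4`, gives `E log N ≥ (t/4 - t/16 - t/16)|S| = t|S|/8`.
If every outcome with `|T| ≤ 4t` had `N < exp (t/16)`, then always
`log N ≤ t/16 + exp (|T| - 2t)` (`N ≤ 2^{|Z x T|} ≤ 2^{|T|}`; for `a > 4t`,
`a ≤ exp (a/2) ≤ exp (a - 2t)`), and `∑_T pw p ∅ T exp |T| = (1 + p(e-1))^n ≤ exp (2t)`, so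
`t/8 ≤ t/16 + 1`, contradicting `t > 16`. -/
theorem exists_big_leaf (S : Finset (V → Bool)) (Z : (V → Bool) → Finset V → Finset V)
    (p β : ℝ) (hp0 : 0 ≤ p) (hp1 : p ≤ 1) (hZ : ∀ x ∈ S, ∀ T, Z x T ⊆ T)
    (hβ : (2 : ℝ) ^ Fintype.card V ≤ S.card * Real.exp β)
    (hβt : β ≤ p * Fintype.card V / 16) (ht : 16 < p * Fintype.card V)
    (hH : ∑ x ∈ S, ∑ T : Finset V, pw p ∅ T * ((T \ Z x T).card : ℝ) ≤
      S.card * (1 / 32 * (p * Fintype.card V))) :
    ∃ x ∈ S, ∃ T : Finset V, (T.card : ℝ) ≤ 4 * (p * Fintype.card V) ∧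
      Real.exp (p * Fintype.card V / 16) ≤ (cls S (fun y => Z y T) x).card := by
  by_contra hcon
  push Not at hcon
  set t : ℝ := p * Fintype.card V with htdef
  have hS : (0 : ℝ) < S.card := by
    have h1 : (0 : ℝ) < 2 ^ Fintype.card V := by positivity
    exact (mul_pos_iff_of_pos_right (Real.exp_pos β)).1 (h1.trans_le hβ)
  have hN : ∀ x ∈ S, ∀ T, (1 : ℝ) ≤ (cls S (fun y => Z y T) x).card := fun x hx T => by
    exact_mod_cast card_pos.2 ⟨x, self_mem_cls _ hx⟩
  have hpw : ∀ T : Finset V, 0 ≤ pw p ∅ T := fun T => pw_nonneg hp0 hp1 _ _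
  have hpow : ∀ a : ℝ, 0 ≤ 1 + p * a → (1 + p * a) ^ Fintype.card V ≤ Real.exp (a * t) := by
    intro a ha
    calc (1 + p * a) ^ Fintype.card V ≤ Real.exp (p * a) ^ Fintype.card V :=
          pow_le_pow_left₀ ha (by linarith [Real.add_one_le_exp (p * a)]) _
      _ = _ := by rw [← Real.exp_nat_mul, htdef]; congr 1; ring
  -- Jensen
  have hJ := jensen_exp (S ×ˢ (univ : Finset (Finset V))) (fun o => pw p ∅ o.2)
    (fun o => -(((o.2 \ Z o.1 o.2).card : ℝ) * Real.log 4) -
      Real.log (cls S (fun y => Z y o.2) o.1).card) S.card (β - t / 4) (fun o _ => hpw o.2)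
    (by rw [sum_product]; simp [sum_pw]) (by
      rw [sum_product_right]
      have h1 : ∀ T : Finset V, ∑ x ∈ S, pw p ∅ T * Real.exp (-(((T \ Z x T).card : ℝ) *
          Real.log 4) - Real.log (cls S (fun y => Z y T) x).card) ≤
          2 ^ Fintype.card V * (pw p ∅ T * (3 / 4) ^ T.card) := by
        intro T
        rw [← mul_sum, mul_left_comm]
        refine mul_le_mul_of_nonneg_left (le_trans (le_of_eq ?_)
          (leaf_sum S (fun y => Z y T) T fun x hx => hZ x hx T)) (hpw T)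
        refine sum_congr rfl fun x hx => ?_
        rw [Real.exp_sub, Real.exp_log (by linarith [hN x hx T]), Real.exp_neg,
          Real.exp_nat_mul, Real.exp_log (by norm_num), one_div, inv_pow, mul_one_div]
      refine (sum_le_sum fun T _ => h1 T).trans ?_
      rw [← mul_sum, sum_pw_pow]
      have h2 := hpow (3 / 4 - 1) (by linarith)
      calc (2 : ℝ) ^ Fintype.card V * (1 + p * (3 / 4 - 1)) ^ Fintype.card V
          ≤ (S.card * Real.exp β) * Real.exp ((3 / 4 - 1) * t) :=
            mul_le_mul hβ h2 (pow_nonneg (by linarith) _) (by positivity)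
        _ = _ := by rw [mul_assoc, ← Real.exp_add]; congr 2; ring)
  rw [sum_product] at hJ
  simp only at hJ
  -- the pointwise upper bound
  have hup : ∀ x ∈ S, ∀ T : Finset V, Real.log (cls S (fun y => Z y T) x).card ≤
      t / 16 + Real.exp (-(2 * t)) * Real.exp 1 ^ T.card := by
    intro x hx T
    have hpos : (0 : ℝ) < (cls S (fun y => Z y T) x).card := by linarith [hN x hx T]
    have he : 0 < Real.exp (-(2 * t)) * Real.exp 1 ^ T.card := by positivity
    by_cases hT : (T.card : ℝ) ≤ 4 * t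
    · have := (Real.log_lt_iff_lt_exp hpos).2 (hcon x hx T hT)
      linarith
    · have h1 : ((cls S (fun y => Z y T) x).card : ℝ) ≤ 2 ^ T.card := by
        exact_mod_cast (card_cls_le S _ x).trans
          (Nat.pow_le_pow_right (by norm_num) (card_le_card (hZ x hx T)))
      have h2 := Real.log_le_log hpos h1
      rw [Real.log_pow] at h2
      have h3 : Real.log 2 ≤ 1 := by linarith [Real.log_two_lt_d9]
      have ha : (0 : ℝ) ≤ T.card := Nat.cast_nonneg _
      have h4 : (T.card : ℝ) ≤ Real.exp (-(2 * t)) * Real.exp 1 ^ T.card := by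
        rw [← Real.exp_nat_mul, ← Real.exp_add, mul_one]
        have h5 := Real.add_one_le_exp ((T.card : ℝ) / 4)
        calc (T.card : ℝ) ≤ ((T.card : ℝ) / 4 + 1) ^ 2 := by
              linarith [sq_nonneg ((T.card : ℝ) / 4 - 1)]
          _ ≤ Real.exp ((T.card : ℝ) / 4) ^ 2 := pow_le_pow_left₀ (by linarith) h5 _
          _ = Real.exp (T.card / 2) := by rw [← Real.exp_nat_mul]; congr 1; push_cast; ring
          _ ≤ _ := Real.exp_le_exp.2 (by linarith [not_le.1 hT])
      have h6 := mul_le_mul_of_nonneg_left h3 ha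
      linarith
  have hsum : ∀ x ∈ S, ∑ T : Finset V, pw p ∅ T * Real.log (cls S (fun y => Z y T) x).card ≤
      t / 16 + 1 := by
    intro x hx
    refine (sum_le_sum fun T _ => mul_le_mul_of_nonneg_left (hup x hx T) (hpw T)).trans ?_
    simp only [mul_add, mul_left_comm _ (Real.exp (-(2 * t)))]
    rw [sum_add_distrib, ← sum_mul, sum_pw, ← mul_sum, sum_pw_pow, one_mul]
    have he1 : 1 ≤ Real.exp 1 := Real.one_le_exp zero_le_one
    have he3 : Real.exp 1 ≤ 3 := Real.exp_one_lt_d9.le.trans (by norm_num)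
    have h1 := hpow (Real.exp 1 - 1) (by nlinarith)
    have h2 : Real.exp ((Real.exp 1 - 1) * t) ≤ Real.exp (2 * t) :=
      Real.exp_le_exp.2 (by nlinarith)
    have h3 := mul_le_mul_of_nonneg_left (h1.trans h2) (Real.exp_pos (-(2 * t))).le
    rw [← Real.exp_add, neg_add_cancel, Real.exp_zero] at h3
    linarith
  have hsum2 := sum_le_card_nsmul _ _ _ hsum
  rw [nsmul_eq_mul] at hsum2
  have hsplit : ∑ x ∈ S, ∑ T : Finset V, pw p ∅ T * (-(((T \ Z x T).card : ℝ) * Real.log 4) -
      Real.log (cls S (fun y => Z y T) x).card) =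
      -((∑ x ∈ S, ∑ T : Finset V, pw p ∅ T * ((T \ Z x T).card : ℝ)) * Real.log 4) -
      ∑ x ∈ S, ∑ T : Finset V, pw p ∅ T * Real.log (cls S (fun y => Z y T) x).card := by
    rw [sum_mul, ← sum_neg_distrib, ← sum_sub_distrib]
    refine sum_congr rfl fun x _ => ?_
    rw [sum_mul, ← sum_neg_distrib, ← sum_sub_distrib]
    refine sum_congr rfl fun T _ => ?_
    ring
  rw [hsplit] at hJ
  have hl4 : Real.log 4 ≤ 2 := by
    rw [show (4 : ℝ) = 2 ^ 2 by norm_num, Real.log_pow]
    have := Real.log_two_lt_d9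
    push_cast
    linarith
  have hl0 : 0 ≤ Real.log 4 := Real.log_nonneg (by norm_num)
  have h1 := mul_le_mul hH hl4 hl0 (by positivity)
  have h2 : (S.card : ℝ) * (t / 16 - 1) ≤ 0 := by
    have := mul_le_mul_of_nonneg_left hβt hS.le
    linarith
  have h3 : 0 < (S.card : ℝ) * (t / 16 - 1) := mul_pos hS (by linarith)
  linarith

end Crest.Agent.R291
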