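import Crest.Agent.R291.Multi

/-!
# Row 291: determinism and two-sided simulation
-/

set_option autoImplicit false
set_option linter.unusedSectionVars false

namespace Crest.Agent.R291

open Finset

variable {V : Type} [Fintype V] [LinearOrder V]

theorem HitSpec.not_top {X X' : Pat V → Prop} {F A Q A' Q' : Finset V} (h : HitSpec X F A Q)
    (h' : HitSpec X' F A' Q') (h1 : ∀ c, X c → vars c ⊆ Q → X' c) {e : V} (he : e ∈ A) (he' : e ∉ A')
    (hmax : ∀ v ∈ A', v ∉ A → v ≤ e) : False := by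
  obtain ⟨-, -, wit, hw, rfl⟩ := h
  have hX := h1 _ (hw e he).1.1 (subset_biUnion_of_mem (fun e => vars (wit e)) he)
  obtain ⟨v, hv1, hv2⟩ := not_disjoint_iff.1 (h'.2.1 _ hX)
  refine dj (hw e he).1.2 v hv1 (mem_guard.2 ?_)
  rcases lt_trichotomy v e with hlt | rfl | hlt
  · exact Or.inr ⟨h'.1 hv2, hlt⟩
  · exact (he' hv2).elim
  · refine Or.inl ⟨?_, hlt⟩
    by_contra hA
    exact absurd (hmax v hv2 hA) (not_le.2 hlt)

/-- RECIPE: let `e` be the largest element of the symmetric difference of `A`, `A'`, say `e ∈ A`;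
its witness lies in `X'` and avoids `guard A F e ⊇ A'`, contradiction.  Then the witnesses agree
by `First.eq_of`. -/
theorem HitSpec.unique {X X' : Pat V → Prop} {F A Q A' Q' : Finset V} (h : HitSpec X F A Q)
    (h' : HitSpec X' F A' Q') (h1 : ∀ c, X c → vars c ⊆ Q → X' c)
    (h2 : ∀ c, X' c → vars c ⊆ Q' → X c) : A = A' ∧ Q = Q' := by
  have hA : A = A' := by
    by_contra hne
    have hne' : (A \ A' ∪ A' \ A).Nonempty := by
      rw [nonempty_iff_ne_empty]
      intro h0
      rw [union_eq_empty, sdiff_eq_empty_iff_subset, sdiff_eq_empty_iff_subset] at h0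
      exact hne (Subset.antisymm h0.1 h0.2)
    obtain ⟨e, he, hmax⟩ := exists_max_image _ (fun v => v) hne'
    rcases mem_union.1 he with he | he
    · exact h.not_top h' h1 (mem_sdiff.1 he).1 (mem_sdiff.1 he).2
        fun v a b => hmax v (mem_union_right _ (mem_sdiff.2 ⟨a, b⟩))
    · exact h'.not_top h h2 (mem_sdiff.1 he).1 (mem_sdiff.1 he).2
        fun v a b => hmax v (mem_union_left _ (mem_sdiff.2 ⟨a, b⟩))
  subst hA
  refine ⟨rfl, ?_⟩
  obtain ⟨-, -, wit, hw, rfl⟩ := h
  obtain ⟨-, -, wit', hw', rfl⟩ := h'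
  refine biUnion_congr rfl fun e he => ?_
  rw [(hw e he).eq_of (hw' e he)
    ⟨h1 _ (hw e he).1.1 (subset_biUnion_of_mem (fun e => vars (wit e)) he), (hw e he).1.2⟩
    ⟨h2 _ (hw' e he).1.1 (subset_biUnion_of_mem (fun e => vars (wit' e)) he), (hw' e he).1.2⟩]

/-- RECIPE: induction on the first derivation, cases on the second; a greedy clause `c` has
`vars c ∩ T ⊆ Ff` (`Greedy.sub`), so it lies in the other family; `First.eq_of`. -/
theorem Greedy.unique {X X' : Pat V → Prop} {T Fc Ff Ff' : Finset V} (h : Greedy X T Fc Ff)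
    (h' : Greedy X' T Fc Ff') (h1 : ∀ c, X c → vars c ∩ T ⊆ Ff → X' c)
    (h2 : ∀ c, X' c → vars c ∩ T ⊆ Ff' → X c) : Ff = Ff' := by
  induction h with
  | done hd =>
    cases h' with
    | done _ => rfl
    | step c hc hg =>
      exact (hd c (h2 c hc.1.1 (subset_union_right.trans hg.sub)) hc.1.2).elim
  | step c hc hg ih =>
    have hc' := h1 c hc.1.1 (subset_union_right.trans hg.sub)
    cases h' with
    | done hd => exact (hd c hc' hc.1.2).elim
    | step c' hc2 hg' =>
      obtain rfl := hc.eq_of hc2 ⟨hc', hc.1.2⟩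
        ⟨h2 c' hc2.1.1 (subset_union_right.trans hg'.sub), hc2.1.2⟩
      exact ih hg' h1

theorem Cand.of_eq {C : Ctx V} {x x' : V → Bool} {Wc Jc : Finset V} {c : Pat V} (h : Cand C x Wc Jc c)
    (hx : ∀ v, v ∉ C.T \ Wc → x v = x' v) : Cand C x' Wc Jc c := by
  obtain ⟨a1, a2, a3, a4, a5⟩ := h
  refine ⟨a1, fun v hv => ?_, a3, a4, fun c' m ⟨b1, b2, b3, b4⟩ => a5 c' m ⟨b1, b2, fun v hv => ?_, b4⟩⟩
  · have := a2 v hv
    have := hx v (fun h => hv (mem_sdiff.1 h).1)
    grind
  · have := b3 v hv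
    have := hx v hv
    grind

/-- RECIPE: `Cand C x Wc Jc c ↔ Cand C x' Wc Jc c` as soon as `x = x'` off `C.T \ Wc`; and
`dis c x = dis c x'` because `dis c x, dis c x' ⊆ vars c ∩ C.T ⊆ Wf` avoids `Z`. -/
theorem Chain.unique {C : Ctx V} {x x' : V → Bool} {Z Wc Jc Ec Wf Jf Ef Wf' Jf' Ef' : Finset V}
    (h : Chain C x Wc Jc Ec Wf Jf Ef) (h' : Chain C x' Wc Jc Ec Wf' Jf' Ef')
    (hZ : Z ⊆ C.T \ Wf) (hx : ∀ v, v ∉ Z → x v = x' v) : Wf = Wf' ∧ Jf = Jf' ∧ Ef = Ef' := by
  induction h with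
  | @done Wc Jc Ec hd =>
    cases h' with
    | done _ => exact ⟨rfl, rfl, rfl⟩
    | step c hc hg =>
      exact (hd c (hc.1.of_eq fun v hv => (hx v fun hz => hv (hZ hz)).symm)).elim
  | @step Wc Jc Ec Wf Jf Ef c hc hg ih =>
    have hsub : Wc ∪ vars c ∩ C.T ⊆ Wf := hg.W_sub
    have hx' : ∀ v, v ∉ C.T \ Wc → x v = x' v := fun v hv => hx v fun hz =>
      hv (sdiff_subset_sdiff (Subset.refl _) (subset_union_left.trans hsub) (hZ hz))
    cases h' with
    | done hd => exact (hd c (hc.1.of_eq hx')).elim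
    | step c' hc2 hg' =>
      obtain rfl := hc.eq_of hc2 (hc.1.of_eq hx') (hc2.1.of_eq fun v hv => (hx' v hv).symm)
      have : dis c x' = dis c x := by
        ext v
        have := hx v
        have := @hZ v
        have := @hsub v
        grind
      rw [this] at hg'
      exact ih hg' hZ

theorem InX.of_eq {C : Ctx V} {x x' : V → Bool} {W J : Finset V} {c : Pat V} (h : InX C x W J c)
    (hx : ∀ v ∈ vars c, x v = x' v) : InX C x' W J c := by
  obtain ⟨a1, m, a2, a3, a4⟩ := h
  refine ⟨a1, m, a2, fun v => ?_, a4⟩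
  have := a3 v
  have := hx v
  grind

/-- RECIPE: induction on `μ` (contexts equal by `U_congr`); `InX C x W J c ↔ InX C x' W J c` when
`vars c` avoids `Z`; `Z ⊆ R.T b ⊆ R.T (μ+1)` avoids `W μ, F μ, Q μ` and `Z ⊆ R.T μ \ R.W μ`. -/
theorem Valid.sim {Φ : Finset (Pat V)} {x x' : V → Bool} {u b : ℕ} {R R' : Rec V} {Z : Finset V}
    (h : Valid Φ x u b R b) (h' : Valid Φ x' u b R' b) (h0 : R.T 0 = R'.T 0) (hZ : Z ⊆ R.T b)
    (hZ' : Z ⊆ R'.T b) (hx : ∀ v, v ∉ Z → x v = x' v) :
    R.T b = R'.T b ∧ ∀ ν < b, R.W ν = R'.W ν ∧ R.J ν = R'.J ν ∧ R.A ν = R'.A ν := by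
  have key : ∀ μ ≤ b, R.T μ = R'.T μ ∧ ∀ ν < μ, R.W ν = R'.W ν ∧ R.J ν = R'.J ν ∧ R.A ν = R'.A ν := by
    intro μ
    induction μ with
    | zero => exact fun _ => ⟨h0, fun ν hν => absurd hν (Nat.not_lt_zero _)⟩
    | succ μ ih =>
      intro hμ
      obtain ⟨e1, e2⟩ := ih (by omega)
      have hctx : R'.ctx Φ u b μ = R.ctx Φ u b μ := by
        have a1 : (fun m => U R'.W m μ) = fun m => U R.W m μ :=
          funext fun m => U_congr fun ν _ h => (e2 ν h).1.symm
        have a2 : (fun m => U R'.J m μ) = fun m => U R.J m μ :=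
          funext fun m => U_congr fun ν _ h => (e2 ν h).2.1.symm
        have a3 : (fun m => U R'.A m μ) = fun m => U R.A m μ :=
          funext fun m => U_congr fun ν _ h => (e2 ν h).2.2.symm
        simp only [Rec.ctx, a1, a2, a3, e1]
      have m1 := h μ hμ
      have m2 := h' μ hμ
      rw [hctx] at m2
      have z1 : Z ⊆ R.T μ \ (R.W μ ∪ R.F μ ∪ R.Q μ) := by
        rw [← h.T_succ hμ]; exact hZ.trans (h.T_anti hμ le_rfl)
      have z2 : Z ⊆ R.T μ \ (R'.W μ ∪ R'.F μ ∪ R'.Q μ) := by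
        rw [e1, ← h'.T_succ hμ]; exact hZ'.trans (h'.T_anti hμ le_rfl)
      obtain ⟨c1, c2, c3⟩ := m1.chain.unique m2.chain (Z := Z)
        (z1.trans (sdiff_subset_sdiff (Subset.refl _) (subset_union_left.trans subset_union_left))) hx
      have g2 := m2.greedy
      have t2 := m2.hit
      have n2 := m2.next
      rw [← c1] at z2
      rw [← c1, ← c2] at g2 t2
      have c4 : R.F μ = R'.F μ := m1.greedy.unique g2
        (fun c hc hs => hc.of_eq fun v hv => hx v fun hz => by
          have := z1 hz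
          have := @hs v
          simp only [Rec.ctx] at this
          grind)
        (fun c hc hs => hc.of_eq fun v hv => (hx v fun hz => by
          have := z2 hz
          have := @hs v
          simp only [Rec.ctx] at this
          grind).symm)
      rw [← c4] at t2
      obtain ⟨c5, c6⟩ := m1.hit.unique t2
        (fun c hc hs => hc.of_eq fun v hv => hx v fun hz => by
          have := z1 hz
          have := hs hv
          grind)
        (fun c hc hs => hc.of_eq fun v hv => (hx v fun hz => by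
          have := z2 hz
          have := hs hv
          grind).symm)
      refine ⟨by rw [m1.next, n2, c1, c4, c6], fun ν hν => ?_⟩
      by_cases e : ν = μ
      · subst e; exact ⟨c1, c2, c5⟩
      · exact e2 ν (by omega)
  exact key b le_rfl

/-- **Simulation.** RECIPE: induction on `s` (`TrValid.pred`, `Valid.sim` with `Z = τ.T 0`,
`nextF_congr`, `TrValid.T_mono`). -/
theorem TrValid.sim {u b : ℕ → ℕ} {k s : ℕ} {x x' : V → Bool} {τ τ' : Tr V}
    (h : TrValid u b k x s τ) (h' : TrValid u b k x' s τ') (hΦ : τ.Φ s = τ'.Φ s)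
    (hT : τ.T s = τ'.T s) (h0 : τ.T 0 = τ'.T 0) (hx : ∀ v, v ∉ τ.T 0 → x v = x' v) :
    τ.Φ 0 = τ'.Φ 0 := by
  induction s with
  | zero => exact hΦ
  | succ s ih =>
    have r1 := h.round s (by omega)
    have r2 := h'.round s (by omega)
    rw [← hΦ] at r2
    obtain ⟨e1, e2⟩ := r1.sim r2 (Z := τ.T 0) (by rw [h.start s (by omega), h'.start s (by omega), hT])
      (by rw [← h.stop s (by omega)]; exact h.T_mono (Nat.zero_le _) (by omega))
      (by rw [← h'.stop s (by omega), h0]; exact h'.T_mono (Nat.zero_le _) (by omega)) hx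
    refine ih h.pred h'.pred ?_ (by rw [h.stop s (by omega), h'.stop s (by omega), e1])
    rw [h.next s (by omega), h'.next s (by omega), ← hΦ]
    refine nextF_congr (fun ν hν => (e2 ν hν).1) (fun ν hν => (e2 ν hν).2.1) (fun ν hν => (e2 ν hν).2.2)
      fun v hv => hx v fun h0 => ?_
    exact (mem_sdiff.1 (h.Wr_sub (show s < s + 1 by omega) hv)).2
      (h.T_mono (Nat.zero_le _) (by omega) h0)

end Crest.Agent.R291
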