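import Mathlib

/-!
# Row 291: the Impagliazzo–Paturi–Zane sparsification lemma, single-path form
-/

set_option autoImplicit false

namespace Crest.Agent.R291

open Finset

section SparsifyAux

variable {ι κ : Type} [DecidableEq ι]

/-- Number of members of `F` of card `j` containing `H`. -/
def spCnt (F : Finset (Finset ι)) (j : ℕ) (H : Finset ι) : ℕ :=
  (F.filter fun c => c.card = j ∧ H ⊆ c).card

theorem spCnt_mono {F F' : Finset (Finset ι)} (h : F ⊆ F') (j : ℕ) (H : Finset ι) :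
    spCnt F j H ≤ spCnt F' j H :=
  card_le_card (filter_subset_filter _ h)

theorem spCnt_self (F : Finset (Finset ι)) (H : Finset ι) : spCnt F H.card H ≤ 1 := by
  unfold spCnt
  refine card_le_one.mpr ?_
  intro a ha b hb
  rw [mem_filter] at ha hb
  rw [← eq_of_subset_of_card_le ha.2.2 ha.2.1.le, ← eq_of_subset_of_card_le hb.2.2 hb.2.1.le]

theorem spCnt_union (F F' : Finset (Finset ι)) (j : ℕ) (H : Finset ι) :
    spCnt (F ∪ F') j H ≤ spCnt F j H + spCnt F' j H := by
  unfold spCnt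
  rw [filter_union]
  exact card_union_le _ _

theorem sp_sum_sup (F : Finset (Finset ι)) (H : Finset ι) (J : Finset ℕ) (f : ℕ → ℝ)
    (h : ∀ c ∈ F, H ⊆ c → c.card ∈ J) :
    ∑ c ∈ F.filter (fun c => H ⊆ c), f c.card = ∑ j ∈ J, f j * spCnt F j H := by
  rw [← sum_fiberwise_of_maps_to (s := F.filter (fun c => H ⊆ c)) (t := J) (g := fun c => c.card)
    (fun c hc => h c (mem_filter.mp hc).1 (mem_filter.mp hc).2)]
  refine sum_congr rfl fun j _ => ?_
  rw [filter_filter, sum_congr rfl (g := fun _ => f j)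
    (fun c hc => by rw [(mem_filter.mp hc).2.2]), sum_const, nsmul_eq_mul, mul_comm]
  unfold spCnt
  congr 3
  exact filter_congr fun c _ => and_comm

theorem sp_union_bound {β : Type} (A : Finset β) (φ : β → Finset ι) (F D : Finset (Finset ι))
    (hD : D ⊆ F) (h : ∀ c ∈ D, ∃ a ∈ A, φ a ⊆ c) (f : ℕ → ℝ) (hf : ∀ j, 0 ≤ f j) :
    ∑ c ∈ D, f c.card ≤ ∑ a ∈ A, ∑ c ∈ F.filter (fun c => φ a ⊆ c), f c.card := by
  have h1 : ∑ a ∈ A, ∑ c ∈ F.filter (fun c => φ a ⊆ c), f c.card =
      ∑ c ∈ F, ∑ a ∈ A, if φ a ⊆ c then f c.card else 0 := by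
    rw [sum_comm]
    exact sum_congr rfl fun a _ => sum_filter _ _
  rw [h1]
  have hn : ∀ c : Finset ι, ∀ a : β, 0 ≤ (if φ a ⊆ c then f c.card else 0) := fun c a => by
    split_ifs
    · exact hf _
    · exact le_rfl
  calc ∑ c ∈ D, f c.card ≤ ∑ c ∈ D, ∑ a ∈ A, if φ a ⊆ c then f c.card else 0 := by
        refine sum_le_sum fun c hc => ?_
        obtain ⟨a, ha, hac⟩ := h c hc
        have := single_le_sum (f := fun a => if φ a ⊆ c then f c.card else 0)
          (fun a _ => hn c a) ha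
        simpa [hac] using this
    _ ≤ _ := sum_le_sum_of_subset_of_nonneg hD fun c _ _ => sum_nonneg fun a _ => hn c a

/-- Weighted count of a family of nonempty sets through the degrees of the points. -/
theorem sp_total (Λ : Finset ι) (w : ℕ) (F : Finset (Finset ι))
    (hF : ∀ c ∈ F, c.Nonempty ∧ c ⊆ Λ ∧ c.card ≤ w) (f B : ℕ → ℝ) (hf : ∀ j, 0 ≤ f j)
    (hB : ∀ x : ι, ∀ j ∈ Icc 1 w, (spCnt F j {x} : ℝ) ≤ B j) :
    ∑ c ∈ F, f c.card ≤ Λ.card * ∑ j ∈ Icc 1 w, f j * B j := by
  refine (sp_union_bound Λ (fun x => {x}) F F Subset.rfl ?_ f hf).trans ?_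
  · intro c hc
    obtain ⟨⟨x, hx⟩, h2, -⟩ := hF c hc
    exact ⟨x, h2 hx, singleton_subset_iff.mpr hx⟩
  · rw [← nsmul_eq_mul, ← sum_const]
    refine sum_le_sum fun x _ => ?_
    rw [sp_sum_sup F {x} (Icc 1 w) f fun c hc _ =>
      mem_Icc.mpr ⟨(hF c hc).1.card_pos, (hF c hc).2.2⟩]
    exact sum_le_sum fun j hj => mul_le_mul_of_nonneg_left (hB x j hj) (hf j)

/-- The state of the sparsification process. -/
structure SpState (w : ℕ) (T : ℕ → ℕ) (g : ℕ → ℝ) (Λ : Finset ι) (G : Finset (Finset ι))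
    (O : Finset κ) (e : κ → Finset ι) (S N : Finset (Finset ι)) (O' : Finset κ) : Prop where
  sub : ∀ c ∈ S, c ⊆ Λ ∧ c.card ≤ w
  anti : ∀ c ∈ S, ∀ d ∈ S, c ⊆ d → c = d
  ref : ∀ c ∈ G, ∃ c' ∈ S, c' ⊆ c
  new : N ⊆ S
  osub : O' ⊆ O
  hit : ∀ y ∈ O', ∀ c ∈ S, ¬ Disjoint c (e y)
  inv : ∀ H : Finset ι, H.Nonempty → ∀ i, H.card < i → spCnt N i H ≤ 2 * T (i - H.card)
  pot : (O.card : ℝ) ≤ Real.exp (∑ c ∈ N, 2 * g c.card) * O'.card

/-- The size of the up-closure, a strictly increasing measure. -/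
def spUp (Λ : Finset ι) (S : Finset (Finset ι)) : ℕ :=
  (Λ.powerset.filter fun c => ∃ s ∈ S, s ⊆ c).card

theorem spUp_le (Λ : Finset ι) (S : Finset (Finset ι)) : spUp Λ S ≤ 2 ^ Λ.card := by
  unfold spUp
  rw [← card_powerset]
  exact card_filter_le _ _

/-- One step: add the family `A` of sets of card `i`. -/
theorem SpState.step {w : ℕ} {T : ℕ → ℕ} {g : ℕ → ℝ} {Λ : Finset ι} {G : Finset (Finset ι)}
    {O : Finset κ} {e : κ → Finset ι} {S N : Finset (Finset ι)} {O' : Finset κ}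
    (hg : ∀ j, 0 ≤ g j)
    (hK : ∀ i, 1 ≤ i → ∑ j ∈ Ioc i w, 2 * g j * (2 * T (j - i) : ℕ) ≤ g i)
    (h : SpState w T g Λ G O e S N O') (A : Finset (Finset ι)) (i : ℕ) (hi : 1 ≤ i) (hiw : i ≤ w)
    (hA : ∀ a ∈ A, a ⊆ Λ ∧ a.card = i) (hne : A.Nonempty) (hS : ∀ a ∈ A, ∀ s ∈ S, ¬ s ⊆ a)
    (O'' : Finset κ) (hO : O'' ⊆ O') (hhit : ∀ y ∈ O'', ∀ a ∈ A, ¬ Disjoint a (e y))
    (hinv : ∀ H : Finset ι, H.Nonempty → H.card < i →
      spCnt S i H + spCnt A i H ≤ 2 * T (i - H.card))
    (hpot : (O'.card : ℝ) ≤ Real.exp (A.card * g i) * O''.card) :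
    ∃ S' N', SpState w T g Λ G O e S' N' O'' ∧ spUp Λ S < spUp Λ S' := by
  classical
  refine ⟨A ∪ S.filter (fun s => ¬ ∃ a ∈ A, a ⊆ s), A ∪ N.filter (fun s => ¬ ∃ a ∈ A, a ⊆ s),
    ⟨?_, ?_, ?_, ?_, hO.trans h.osub, ?_, ?_, ?_⟩, ?_⟩
  · intro c hc
    rcases mem_union.mp hc with hc | hc
    · exact ⟨(hA c hc).1, (hA c hc).2.le.trans hiw⟩
    · exact h.sub c (mem_filter.mp hc).1
  · intro c hc d hd hcd
    rcases mem_union.mp hc with hc | hc <;> rcases mem_union.mp hd with hd | hd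
    · exact eq_of_subset_of_card_le hcd (by rw [(hA c hc).2, (hA d hd).2])
    · exact absurd ⟨c, hc, hcd⟩ (mem_filter.mp hd).2
    · exact absurd hcd (hS d hd c (mem_filter.mp hc).1)
    · exact h.anti c (mem_filter.mp hc).1 d (mem_filter.mp hd).1 hcd
  · intro c hc
    obtain ⟨s, hs, hsc⟩ := h.ref c hc
    by_cases hx : ∃ a ∈ A, a ⊆ s
    · obtain ⟨a, ha, has⟩ := hx
      exact ⟨a, mem_union_left _ ha, has.trans hsc⟩
    · exact ⟨s, mem_union_right _ (mem_filter.mpr ⟨hs, hx⟩), hsc⟩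
  · exact union_subset_union Subset.rfl (filter_subset_filter _ h.new)
  · intro y hy c hc
    rcases mem_union.mp hc with hc | hc
    · exact hhit y hy c hc
    · exact h.hit y (hO hy) c (mem_filter.mp hc).1
  · intro H hH j hj
    refine (spCnt_union _ _ _ _).trans ?_
    by_cases hji : j = i
    · subst hji
      have h1 := spCnt_mono ((filter_subset (fun s => ¬ ∃ a ∈ A, a ⊆ s) N).trans h.new) j H
      have h2 := hinv H hH hj
      omega
    · have h0 : spCnt A j H = 0 := by
        unfold spCnt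
        rw [card_eq_zero, filter_eq_empty_iff]
        intro a ha hh
        exact hji (hh.1.symm.trans (hA a ha).2)
      have h1 := spCnt_mono (filter_subset (fun s => ¬ ∃ a ∈ A, a ⊆ s) N) j H
      have h2 := h.inv H hH j hj
      omega
  · have hdis : Disjoint A (N.filter (fun s => ¬ ∃ a ∈ A, a ⊆ s)) := by
      rw [disjoint_left]
      intro a ha hn
      exact (mem_filter.mp hn).2 ⟨a, ha, Subset.rfl⟩
    have hsplit := sum_filter_add_sum_filter_not N (fun s => ∃ a ∈ A, a ⊆ s)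
      (fun c => 2 * g c.card)
    have hAs : ∑ c ∈ A, 2 * g c.card = A.card * (2 * g i) := by
      rw [sum_congr rfl (g := fun _ => 2 * g i) (fun a ha => by rw [(hA a ha).2]), sum_const,
        nsmul_eq_mul]
    have hdel : ∑ c ∈ N.filter (fun s => ∃ a ∈ A, a ⊆ s), 2 * g c.card ≤ A.card * g i := by
      refine (sp_union_bound A (fun a => a) N _ (filter_subset _ _)
        (fun c hc => (mem_filter.mp hc).2) (fun j => 2 * g j)
        (fun j => mul_nonneg zero_le_two (hg j))).trans ?_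
      rw [← nsmul_eq_mul, ← sum_const]
      refine sum_le_sum fun a ha => ?_
      rw [sp_sum_sup N a (Ioc i w) (fun j => 2 * g j) ?_]
      · refine le_trans (sum_le_sum fun j hj => ?_) (hK i hi)
        refine mul_le_mul_of_nonneg_left ?_ (mul_nonneg zero_le_two (hg j))
        have hane : a.Nonempty := card_pos.mp (by rw [(hA a ha).2]; exact hi)
        have := h.inv a hane j (by rw [(hA a ha).2]; exact (mem_Ioc.mp hj).1)
        rw [(hA a ha).2] at this
        exact_mod_cast this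
      · intro c hc hac
        refine mem_Ioc.mpr ⟨?_, (h.sub c (h.new hc)).2⟩
        rw [← (hA a ha).2]
        refine card_lt_card ⟨hac, hS a ha c (h.new hc)⟩
    rw [sum_union hdis, hAs]
    refine h.pot.trans ?_
    calc Real.exp (∑ c ∈ N, 2 * g c.card) * O'.card
        ≤ Real.exp (∑ c ∈ N, 2 * g c.card) * (Real.exp (A.card * g i) * O''.card) :=
          mul_le_mul_of_nonneg_left hpot (Real.exp_pos _).le
      _ = Real.exp (∑ c ∈ N, 2 * g c.card + A.card * g i) * O''.card := by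
          rw [Real.exp_add, mul_assoc]
      _ ≤ _ := by
          refine mul_le_mul_of_nonneg_right (Real.exp_le_exp.mpr ?_) (Nat.cast_nonneg _)
          linarith
  · unfold spUp
    refine card_lt_card ⟨?_, ?_⟩
    · intro c hc
      obtain ⟨hc, s, hs, hsc⟩ := mem_filter.mp hc
      refine mem_filter.mpr ⟨hc, ?_⟩
      by_cases hx : ∃ a ∈ A, a ⊆ s
      · obtain ⟨a, ha, has⟩ := hx
        exact ⟨a, mem_union_left _ ha, has.trans hsc⟩
      · exact ⟨s, mem_union_right _ (mem_filter.mpr ⟨hs, hx⟩), hsc⟩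
    · intro hsub
      obtain ⟨a, ha⟩ := hne
      have : a ∈ Λ.powerset.filter fun c => ∃ s ∈ S, s ⊆ c :=
        hsub (mem_filter.mpr ⟨mem_powerset.mpr (hA a ha).1, a, mem_union_left _ ha, Subset.rfl⟩)
      obtain ⟨-, s, hs, hsa⟩ := mem_filter.mp this
      exact hS a ha s hs hsa

/-- If there is a flower, the process can make a step. -/
theorem SpState.flower {w : ℕ} {T : ℕ → ℕ} {g : ℕ → ℝ} {lam : ℝ} {Λ : Finset ι}
    {G : Finset (Finset ι)} {O : Finset κ} {e : κ → Finset ι} {S N : Finset (Finset ι)}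
    {O' : Finset κ} (hT : ∀ j, 1 ≤ T j) (hg : ∀ j, 0 ≤ g j)
    (hK : ∀ i, 1 ≤ i → ∑ j ∈ Ioc i w, 2 * g j * (2 * T (j - i) : ℕ) ≤ g i)
    (hgT : ∀ j, lam ≤ T j * g j)
    (hq : ∀ i, i ≤ w → Real.exp (-lam) + Real.exp (-g i) ≤ 1)
    (h : SpState w T g Λ G O e S N O')
    (hfl : ∃ j, ∃ H : Finset ι, H.Nonempty ∧ H.card < j ∧ T (j - H.card) ≤ spCnt S j H) :
    ∃ S' N' O'', SpState w T g Λ G O e S' N' O'' ∧ spUp Λ S < spUp Λ S' := by
  classical
  let j := Nat.find hfl
  have hjmin : ∀ i < j, ∀ H : Finset ι, H.Nonempty → H.card < i →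
      spCnt S i H < T (i - H.card) := fun i hi H h1 h2 => by
    by_contra hc
    exact Nat.find_min hfl hi ⟨H, h1, h2, not_lt.mp hc⟩
  have hex : ∃ d, ∃ H : Finset ι, H.Nonempty ∧ H.card < j ∧ T (j - H.card) ≤ spCnt S j H ∧
      j - H.card = d := by
    obtain ⟨H, h1, h2, h3⟩ := Nat.find_spec hfl
    exact ⟨_, H, h1, h2, h3, rfl⟩
  obtain ⟨H, hH, hHj, hHT, hHd⟩ := Nat.find_spec hex
  have hHmax : ∀ H' : Finset ι, H.card < H'.card → H'.card < j →
      spCnt S j H' < T (j - H'.card) := fun H' h1 h2 => by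
    by_contra hc
    refine Nat.find_min hex (m := j - H'.card) (by omega)
      ⟨H', card_pos.mp (by omega), h2, not_lt.mp hc, rfl⟩
  have hpos : (S.filter fun c => c.card = j ∧ H ⊆ c).Nonempty :=
    card_pos.mp (lt_of_lt_of_le (hT _) hHT)
  obtain ⟨c₀, hc₀⟩ := hpos
  obtain ⟨hc₀S, hc₀j, hHc₀⟩ := mem_filter.mp hc₀
  have hjw : j ≤ w := hc₀j ▸ (h.sub c₀ hc₀S).2
  have hsplit : ((O'.filter fun y => Disjoint H (e y)).card : ℝ) +
      (O'.filter fun y => ¬ Disjoint H (e y)).card = O'.card := by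
    exact_mod_cast card_filter_add_card_filter_not (s := O') (fun y => Disjoint H (e y))
  by_cases hheart : (O'.card : ℝ) ≤
      Real.exp (g H.card) * (O'.filter fun y => ¬ Disjoint H (e y)).card
  · obtain ⟨S', N', h1, h2⟩ := h.step hg hK {H} H.card hH.card_pos (by omega)
      (fun a ha => by rw [mem_singleton.mp ha]; exact ⟨hHc₀.trans (h.sub c₀ hc₀S).1, rfl⟩)
      (singleton_nonempty _)
      (fun a ha s hs hsa => by
        rw [mem_singleton.mp ha] at hsa
        have := h.anti s hs c₀ hc₀S (hsa.trans hHc₀)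
        have := card_le_card hsa
        subst s
        omega)
      (O'.filter fun y => ¬ Disjoint H (e y)) (filter_subset _ _)
      (fun y hy a ha => by rw [mem_singleton.mp ha]; exact (mem_filter.mp hy).2)
      (fun H' h1 h2 => by
        have h3 := hjmin H.card hHj H' h1 h2
        have h4 : spCnt {H} H.card H' ≤ 1 := (card_filter_le _ _).trans (card_singleton H).le
        have := hT (H.card - H'.card)
        omega)
      (by simpa using hheart)
    exact ⟨S', N', _, h1, h2⟩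
  · set P := S.filter fun c => c.card = j ∧ H ⊆ c with hP
    have hinj : Set.InjOn (fun c => c \ H) (P : Set (Finset ι)) := by
      intro c hc d hd hcd
      have h1 := (mem_filter.mp (mem_coe.mp hc)).2.2
      have h2 := (mem_filter.mp (mem_coe.mp hd)).2.2
      have : c \ H = d \ H := hcd
      rw [← sdiff_union_of_subset h1, ← sdiff_union_of_subset h2, this]
    have hcardA : T (j - H.card) ≤ (P.image fun c => c \ H).card := by
      rw [card_image_of_injOn hinj]
      exact hHT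
    obtain ⟨S', N', h1, h2⟩ := h.step hg hK (P.image fun c => c \ H) (j - H.card) (by omega)
      (by omega)
      (fun a ha => by
        obtain ⟨c, hc, rfl⟩ := mem_image.mp ha
        obtain ⟨h1, h2, h3⟩ := mem_filter.mp hc
        exact ⟨sdiff_subset.trans (h.sub c h1).1, by rw [card_sdiff_of_subset h3, h2]⟩)
      ⟨_, mem_image_of_mem _ hc₀⟩
      (fun a ha s hs hsa => by
        obtain ⟨c, hc, rfl⟩ := mem_image.mp ha
        obtain ⟨h1, h2, h3⟩ := mem_filter.mp hc
        have := h.anti s hs c h1 (hsa.trans sdiff_subset)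
        subst s
        obtain ⟨x, hx⟩ := hH
        exact (mem_sdiff.mp (hsa (h3 hx))).2 hx)
      (O'.filter fun y => Disjoint H (e y)) (filter_subset _ _)
      (fun y hy a ha hd => by
        obtain ⟨c, hc, rfl⟩ := mem_image.mp ha
        obtain ⟨h1, h2, h3⟩ := mem_filter.mp hc
        obtain ⟨hy1, hy2⟩ := mem_filter.mp hy
        refine h.hit y hy1 c h1 ?_
        rw [← sdiff_union_of_subset h3, disjoint_union_left]
        exact ⟨hd, hy2⟩)
      (fun H' h1 h2 => by
        have hHpos := hH.card_pos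
        have h3 := hjmin (j - H.card) (by omega) H' h1 h2
        have h4 : spCnt (P.image fun c => c \ H) (j - H.card) H' ≤ T (j - H.card - H'.card) := by
          by_cases hd : Disjoint H H'
          · have hc : (H ∪ H').card = H.card + H'.card := card_union_of_disjoint hd
            have h5 := hHmax (H ∪ H') (by have := h1.card_pos; omega) (by omega)
            rw [hc, ← Nat.sub_sub] at h5
            refine le_trans ?_ h5.le
            unfold spCnt
            refine le_trans (card_le_card ?_) (card_image_le (f := fun c => c \ H))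
            intro a ha
            obtain ⟨ha1, -, ha3⟩ := mem_filter.mp ha
            obtain ⟨c, hc, rfl⟩ := mem_image.mp ha1
            obtain ⟨k1, k2, k3⟩ := mem_filter.mp hc
            exact mem_image_of_mem _ (mem_filter.mpr
              ⟨k1, k2, union_subset k3 (ha3.trans sdiff_subset)⟩)
          · refine le_trans (le_of_eq ?_) (Nat.zero_le _)
            unfold spCnt
            rw [card_eq_zero, filter_eq_empty_iff]
            rintro a ha ⟨-, ha3⟩
            obtain ⟨c, hc, rfl⟩ := mem_image.mp ha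
            exact hd (disjoint_of_subset_right ha3 disjoint_sdiff)
        omega)
      (by
        have hq' := hq H.card (by omega)
        have e1 : Real.exp (g H.card) * Real.exp (-g H.card) = 1 := by
          rw [← Real.exp_add, add_neg_cancel, Real.exp_zero]
        have e2 : Real.exp lam * Real.exp (-lam) = 1 := by
          rw [← Real.exp_add, add_neg_cancel, Real.exp_zero]
        set a : ℝ := ((O'.filter fun y => Disjoint H (e y)).card : ℝ)
        set b : ℝ := ((O'.filter fun y => ¬ Disjoint H (e y)).card : ℝ)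
        have ha : 0 ≤ a := Nat.cast_nonneg _
        have hO0 : (0 : ℝ) ≤ O'.card := Nat.cast_nonneg _
        have hb : b ≤ Real.exp (-g H.card) * O'.card := by
          have := mul_le_mul_of_nonneg_left (not_le.mp hheart).le (Real.exp_pos (-g H.card)).le
          calc b = Real.exp (-g H.card) * (Real.exp (g H.card) * b) := by
                rw [← mul_assoc, mul_comm (Real.exp (-g H.card)), e1, one_mul]
            _ ≤ _ := this
        have ha2 : Real.exp (-lam) * O'.card ≤ a := by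
          have := mul_le_mul_of_nonneg_right hq' hO0
          linarith
        have hl : lam ≤ (P.image fun c => c \ H).card * g (j - H.card) :=
          (hgT _).trans (mul_le_mul_of_nonneg_right (by exact_mod_cast hcardA) (hg _))
        calc (O'.card : ℝ) = Real.exp lam * (Real.exp (-lam) * O'.card) := by
              rw [← mul_assoc, e2, one_mul]
          _ ≤ Real.exp lam * a := mul_le_mul_of_nonneg_left ha2 (Real.exp_pos _).le
          _ ≤ _ := mul_le_mul_of_nonneg_right (Real.exp_le_exp.mpr hl) ha)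
    exact ⟨S', N', _, h1, h2⟩

/-- The process ends in a state without flowers. -/
theorem SpState.final {w : ℕ} {T : ℕ → ℕ} {g : ℕ → ℝ} {lam : ℝ} {Λ : Finset ι}
    {G : Finset (Finset ι)} {O : Finset κ} {e : κ → Finset ι}
    (hT : ∀ j, 1 ≤ T j) (hg : ∀ j, 0 ≤ g j)
    (hK : ∀ i, 1 ≤ i → ∑ j ∈ Ioc i w, 2 * g j * (2 * T (j - i) : ℕ) ≤ g i)
    (hgT : ∀ j, lam ≤ T j * g j)
    (hq : ∀ i, i ≤ w → Real.exp (-lam) + Real.exp (-g i) ≤ 1) (d : ℕ) :
    ∀ (S N : Finset (Finset ι)) (O' : Finset κ), SpState w T g Λ G O e S N O' →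
      2 ^ Λ.card - spUp Λ S ≤ d →
      ∃ S' N' O'', SpState w T g Λ G O e S' N' O'' ∧ ∀ j, ∀ H : Finset ι, H.Nonempty →
        H.card < j → spCnt S' j H < T (j - H.card) := by
  induction d with
  | zero =>
    intro S N O' h hd
    by_cases hfl : ∃ j, ∃ H : Finset ι, H.Nonempty ∧ H.card < j ∧ T (j - H.card) ≤ spCnt S j H
    · obtain ⟨S', N', O'', -, h2⟩ := h.flower hT hg hK hgT hq hfl
      have := spUp_le Λ S'
      omega
    · exact ⟨S, N, O', h, fun j H h1 h2 => not_le.mp fun h3 => hfl ⟨j, H, h1, h2, h3⟩⟩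
  | succ d ih =>
    intro S N O' h hd
    by_cases hfl : ∃ j, ∃ H : Finset ι, H.Nonempty ∧ H.card < j ∧ T (j - H.card) ≤ spCnt S j H
    · obtain ⟨S', N', O'', h1, h2⟩ := h.flower hT hg hK hgT hq hfl
      exact ih S' N' O'' h1 (by omega)
    · exact ⟨S, N, O', h, fun j H h1 h2 => not_le.mp fun h3 => hfl ⟨j, H, h1, h2, h3⟩⟩

end SparsifyAux

theorem sp_pow_key {α : ℕ} (hα : 1 ≤ α) {a b j : ℕ} (ha : a < j) (hb : b < j) :
    α * (α ^ 4 ^ a * α ^ 4 ^ b) ≤ α ^ 4 ^ j := by
  rw [← pow_add, ← pow_succ']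
  refine Nat.pow_le_pow_right hα ?_
  obtain ⟨k, rfl⟩ : ∃ k, j = k + 1 := ⟨j - 1, by omega⟩
  have h1 : 4 ^ a ≤ 4 ^ k := Nat.pow_le_pow_right (by norm_num) (by omega)
  have h2 : 4 ^ b ≤ 4 ^ k := Nat.pow_le_pow_right (by norm_num) (by omega)
  have h3 : 1 ≤ 4 ^ k := Nat.one_le_pow _ _ (by norm_num)
  rw [pow_succ]
  omega

/-- The choice of the constants. -/
theorem sp_constants (w : ℕ) (ε : ℝ) (hε : 0 < ε) :
    ∃ (T : ℕ → ℕ) (g : ℕ → ℝ) (lam : ℝ), (∀ j, 1 ≤ T j) ∧ Monotone T ∧ (∀ j, 0 ≤ g j) ∧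
      (∀ i, 1 ≤ i → ∑ j ∈ Ioc i w, 2 * g j * (2 * T (j - i) : ℕ) ≤ g i) ∧
      (∀ j, lam ≤ T j * g j) ∧ (∀ i, i ≤ w → Real.exp (-lam) + Real.exp (-g i) ≤ 1) ∧
      ∑ j ∈ Icc 1 w, 2 * g j * (2 * T (j - 1) : ℕ) ≤ ε := by
  -- choose `α` with `4 w (4^w + 1) log α ≤ ε α`, `4 w ≤ α`, `3 ≤ α`
  obtain ⟨α, hα3, hαw, hαl⟩ : ∃ α : ℕ, 3 ≤ α ∧ 4 * w ≤ α ∧
      (4 * w * (4 ^ w + 1) : ℝ) * Real.log α ≤ ε * α := by
    have hc : 0 < ε / (4 * w * (4 ^ w + 1) + 1 : ℝ) := by positivity
    have h1 := (Real.isLittleO_log_id_atTop.comp_tendsto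
      (tendsto_natCast_atTop_atTop (R := ℝ))).bound hc
    obtain ⟨α, h2, h3, h4⟩ := (h1.and ((Filter.eventually_ge_atTop 3).and
      (Filter.eventually_ge_atTop (4 * w)))).exists
    refine ⟨α, h3, h4, ?_⟩
    have hl : 0 ≤ Real.log α := Real.log_natCast_nonneg α
    simp only [Function.comp, id, Real.norm_eq_abs, abs_of_nonneg hl, Nat.abs_cast] at h2
    rw [div_mul_eq_mul_div, le_div_iff₀ (by positivity)] at h2
    nlinarith
  have hα1 : 1 ≤ α := by omega
  have hαR : (3 : ℝ) ≤ α := by exact_mod_cast hα3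
  set lam : ℝ := (4 ^ w + 1) * Real.log α with hlam
  have hlog : 1 ≤ Real.log α := by
    rw [Real.le_log_iff_exp_le (by linarith)]
    exact (Real.exp_one_lt_d9.le.trans (by norm_num)).trans hαR
  have hlam1 : 1 ≤ lam := by
    have : (1 : ℝ) ≤ 4 ^ w + 1 := by
      have : (0 : ℝ) ≤ 4 ^ w := by positivity
      linarith
    calc (1 : ℝ) = 1 * 1 := (mul_one 1).symm
      _ ≤ _ := mul_le_mul this hlog zero_le_one (by linarith)
  have hT1 : ∀ j, 1 ≤ α ^ 4 ^ j := fun j => Nat.one_le_pow _ _ hα1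
  have hTpos : ∀ j, (0 : ℝ) < (α ^ 4 ^ j : ℕ) := fun j => by exact_mod_cast hT1 j
  have hmono : Monotone fun j => α ^ 4 ^ j := fun a b hab =>
    Nat.pow_le_pow_right hα1 (Nat.pow_le_pow_right (by norm_num) hab)
  have hterm : ∀ a b j : ℕ, a < j → b < j →
      2 * (lam / (α ^ 4 ^ j : ℕ)) * (2 * α ^ 4 ^ a : ℕ) ≤ 4 / α * (lam / (α ^ 4 ^ b : ℕ)) := by
    intro a b j ha hb
    have hk : ((α : ℝ) * ((α ^ 4 ^ a : ℕ) * (α ^ 4 ^ b : ℕ))) ≤ (α ^ 4 ^ j : ℕ) := by
      exact_mod_cast sp_pow_key hα1 ha hb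
    have hj := hTpos j
    have hb' := hTpos b
    generalize ((α ^ 4 ^ j : ℕ) : ℝ) = x at hk hj ⊢
    generalize ((α ^ 4 ^ b : ℕ) : ℝ) = y at hk hb' ⊢
    rw [Nat.cast_mul]
    generalize ((α ^ 4 ^ a : ℕ) : ℝ) = z at hk ⊢
    have hα0 : (0 : ℝ) < α := by linarith
    have : z / x ≤ 1 / (α * y) := by
      rw [div_le_div_iff₀ hj (mul_pos hα0 hb')]
      linarith
    calc 2 * (lam / x) * ((2 : ℕ) * z) = 4 * lam * (z / x) := by push_cast; ring
      _ ≤ 4 * lam * (1 / (α * y)) := mul_le_mul_of_nonneg_left this (by linarith)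
      _ = _ := by field_simp
  refine ⟨fun j => α ^ 4 ^ j, fun j => lam / (α ^ 4 ^ j : ℕ), lam, hT1, hmono,
    fun j => div_nonneg (by linarith) (hTpos j).le, ?_, ?_, ?_, ?_⟩
  · intro i hi
    have hg0 : 0 ≤ lam / (α ^ 4 ^ i : ℕ) := div_nonneg (by linarith) (hTpos i).le
    calc _ ≤ ∑ _j ∈ Ioc i w, 4 / (α : ℝ) * (lam / (α ^ 4 ^ i : ℕ)) :=
          sum_le_sum fun j hj => hterm (j - i) i j (by have := (mem_Ioc.mp hj).1; omega)
            (mem_Ioc.mp hj).1
      _ = ((w - i : ℕ) * (4 / (α : ℝ))) * (lam / (α ^ 4 ^ i : ℕ)) := by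
          rw [sum_const, Nat.card_Ioc, nsmul_eq_mul, mul_assoc]
      _ ≤ 1 * (lam / (α ^ 4 ^ i : ℕ)) := by
          refine mul_le_mul_of_nonneg_right ?_ hg0
          rw [← mul_div_assoc, div_le_one (by linarith)]
          have : (w - i) * 4 ≤ α := by omega
          exact_mod_cast this
      _ = _ := one_mul _
  · intro j
    rw [mul_div_cancel₀ _ (hTpos j).ne']
  · intro i hi
    have h1 : Real.exp (-lam) = 1 / (α * (α ^ 4 ^ w : ℕ)) := by
      rw [Real.exp_neg, hlam, one_div]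
      congr 1
      rw [show ((4 : ℝ) ^ w + 1) = ((4 ^ w + 1 : ℕ) : ℝ) by push_cast; ring, ← Real.log_pow,
        Real.exp_log (by positivity)]
      push_cast
      ring
    have hiw : ((α ^ 4 ^ i : ℕ) : ℝ) ≤ (α ^ 4 ^ w : ℕ) := by exact_mod_cast hmono hi
    have hi1 : (1 : ℝ) ≤ (α ^ 4 ^ w : ℕ) := by exact_mod_cast hT1 w
    have hip := hTpos i
    rw [h1]
    beta_reduce
    generalize ((α ^ 4 ^ w : ℕ) : ℝ) = x at hiw hi1 ⊢
    generalize ((α ^ 4 ^ i : ℕ) : ℝ) = y at hiw hip ⊢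
    have h2 : 1 / x ≤ lam / y := by
      rw [div_le_div_iff₀ (by linarith) hip]
      nlinarith
    have h3 : Real.exp (-(lam / y)) ≤ x / (x + 1) := by
      rw [Real.exp_neg, inv_le_comm₀ (Real.exp_pos _) (by positivity), inv_div]
      have := Real.add_one_le_exp (lam / y)
      have h4 : (x + 1) / x = 1 / x + 1 := by field_simp; ring
      linarith
    have h4 : 1 / (α * x) ≤ 1 / (x + 1) := by
      refine one_div_le_one_div_of_le (by linarith) ?_
      nlinarith
    have h5 : 1 / (x + 1) + x / (x + 1) = 1 := by field_simp; ring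
    linarith
  · have hT0 : (1 : ℝ) ≤ (α ^ 4 ^ 0 : ℕ) := by exact_mod_cast hT1 0
    have hα0 : (0 : ℝ) < α := by linarith
    calc _ ≤ ∑ _j ∈ Icc 1 w, 4 / (α : ℝ) * (lam / (α ^ 4 ^ 0 : ℕ)) :=
          sum_le_sum fun j hj => hterm (j - 1) 0 j (by have := (mem_Icc.mp hj).1; omega)
            (mem_Icc.mp hj).1
      _ = w * (4 / (α : ℝ) * (lam / (α ^ 4 ^ 0 : ℕ))) := by
          rw [sum_const, Nat.card_Icc, nsmul_eq_mul, Nat.add_sub_cancel]
      _ ≤ w * (4 / (α : ℝ) * lam) := by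
          refine mul_le_mul_of_nonneg_left (mul_le_mul_of_nonneg_left ?_ (by positivity))
            (Nat.cast_nonneg _)
          exact div_le_self (by linarith) hT0
      _ = (4 * w * (4 ^ w + 1) : ℝ) * Real.log α / α := by rw [hlam]; ring
      _ ≤ ε := by rw [div_le_iff₀ hα0]; exact hαl

/-- **Sparsification (hitting-set form).**  `G` is a family of sets of size `≤ w` inside `Λ`,
every `e y` (`y ∈ O`) hits every member of `G`.  Then there is a sparse family `G'` refining `G`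
(every member of `G` contains a member of `G'`) still hit by an `exp (-ε |Λ|)` fraction of `O`.

RECIPE (IPZ 2001, followed along ONE branch, no tree).  Constants: `α : ℕ` large (chosen last),
`θ 0 = 2`, `β 1 = 1`, `θ j = α * β j` (`j ≥ 1`),
`β j = 2 * θ (j-1) + ∑ h ∈ Ico 1 j, β h * (2 * θ (j - h))` for `j ≥ 2` (a recursion; `θ` is monotone
for `α ≥ 2`; `β j ≤ (c α)^(2^j)`-type polynomial bound, or any bound giving
`log (∑_{j ≤ w} β j) / α → 0`).
State: an antichain `S` of nonempty sets `⊆ Λ` of card `≤ w` refining `G`; the subfamily `N ⊆ S`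
of *new* sets; counters `a j` = number of sets of card `j` ever added; the surviving `O' ⊆ O`
(all of whose points hit all of `S`); number of heart steps and petal steps.
Start: `S` = minimal members of `G` (nonempty because `O` is nonempty), `N = ∅`.
A *flower* is `(j, H)` with `1 ≤ |H| < j` and at least `θ (j - |H|)` members of `S` of card `j`
containing `H`.  If there is none, stop: each literal lies in `< θ (j-1)` members of card `j ≥ 2`
and `≤ 1` of card `1`, so `|S| ≤ L |Λ|`.  Otherwise take a flower with `j` minimal and then `|H|`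
maximal.  With `q ∈ (0,1)`: if at least `(1-q)|O'|` points hit `H` do a *heart step* (add `H`,
keep those points); otherwise at least `q|O'|` points miss `H`, they hit all *petals* `c \ H`
(`c ∈ S`, `|c| = j`, `H ⊆ c`): *petal step* (add all petals, at least `θ (j-|H|)` distinct sets).
After adding, delete the members of `S` containing an added set (added sets are not contained in /
do not contain old members wrongly because `S` is an antichain; all added sets have one size `i<j`).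
Invariant 1: for nonempty `H'` and `i > |H'|`, at most `2 θ (i-|H'|)` members of `N` of card `i`
contain `H'` (when sets of size `i` are added there is no flower of size `i < j`, so `< θ (i-|H'|)`
members of `S` of card `i` contain `H'`; the heart adds `1`; petals containing `H'` correspond to
`j`-sets containing `H ∪ H'`, `< θ (j - |H ∪ H'|) = θ (i-|H'|)` by maximality of `|H|`, the case
`|H ∪ H'| = j` giving at most one set and `θ 0 = 2`).
Invariant 2: `a i ≤ |N_i| + ∑ h ∈ Ico 1 i, a h * (2 θ (i-h))` (an added set of size `h` deletes at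
most `2 θ (i-h)` new sets of size `i`).  Hence `a i ≤ β i |Λ|` (`|N_1| ≤ |Λ|`,
`|N_i| ≤ 2 θ (i-1) |Λ|`), the number of steps is at most `β |Λ|`, `β = ∑_{i ≤ w} β i` (this gives
termination: induct on `β|Λ| - ∑ a i`), and petal steps of petal size `i` number at most
`a i / θ i ≤ |Λ| / α`, in total `≤ w |Λ| / α`.  So
`|O'| ≥ (1-q)^(β|Λ|) q^(w|Λ|/α) |O|`; take `q = ε / (4β)`-like and `α` large. -/
theorem sparsify (w : ℕ) (ε : ℝ) (hε : 0 < ε) :
    ∃ L : ℕ, ∀ {ι κ : Type} [DecidableEq ι] (Λ : Finset ι) (G : Finset (Finset ι))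
      (O : Finset κ) (e : κ → Finset ι), O.Nonempty →
      (∀ c ∈ G, c ⊆ Λ ∧ c.card ≤ w) → (∀ y ∈ O, ∀ c ∈ G, ¬ Disjoint c (e y)) →
      ∃ (G' : Finset (Finset ι)) (O' : Finset κ), (∀ c ∈ G', c ⊆ Λ ∧ c.card ≤ w) ∧
        G'.card ≤ L * Λ.card ∧ (∀ c ∈ G, ∃ c' ∈ G', c' ⊆ c) ∧ O' ⊆ O ∧
        (∀ y ∈ O', ∀ c ∈ G', ¬ Disjoint c (e y)) ∧
        (O.card : ℝ) ≤ Real.exp (ε * Λ.card) * O'.card := by
  obtain ⟨T, g, lam, hT, hmono, hg, hK, hgT, hq, hε'⟩ := sp_constants w ε hε
  refine ⟨w * T w, ?_⟩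
  intro ι κ _ Λ G O e hO hG hhit
  classical
  have h0 : SpState w T g Λ G O e (G.filter fun c => ∀ d ∈ G, d ⊆ c → d = c) ∅ O := by
    refine ⟨fun c hc => hG c (mem_filter.mp hc).1,
      fun c hc d hd hcd => (mem_filter.mp hd).2 c (mem_filter.mp hc).1 hcd, ?_, empty_subset _,
      Subset.rfl, fun y hy c hc => hhit y hy c (mem_filter.mp hc).1, ?_, by simp⟩
    · intro c hc
      obtain ⟨d, hd, hmin⟩ := exists_min_image (G.filter fun d => d ⊆ c) card
        ⟨c, mem_filter.mpr ⟨hc, Subset.rfl⟩⟩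
      obtain ⟨hd1, hd2⟩ := mem_filter.mp hd
      refine ⟨d, mem_filter.mpr ⟨hd1, fun d' hd' hdd => ?_⟩, hd2⟩
      exact eq_of_subset_of_card_le hdd (hmin d' (mem_filter.mpr ⟨hd', hdd.trans hd2⟩))
    · intro H _ i _
      simp [spCnt]
  obtain ⟨S, N, O', h, hno⟩ := SpState.final hT hg hK hgT hq _ _ _ _ h0 le_rfl
  have hO' : O'.Nonempty := by
    rw [nonempty_iff_ne_empty]
    rintro rfl
    have h1 := h.pot
    have h2 : (0 : ℝ) < O.card := by exact_mod_cast hO.card_pos
    simp only [card_empty, Nat.cast_zero, mul_zero] at h1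
    linarith
  have hS : ∀ c ∈ S, c.Nonempty ∧ c ⊆ Λ ∧ c.card ≤ w := fun c hc => by
    refine ⟨?_, h.sub c hc⟩
    obtain ⟨y, hy⟩ := hO'
    rw [nonempty_iff_ne_empty]
    rintro rfl
    exact h.hit y hy _ hc (disjoint_empty_left _)
  refine ⟨S, O', h.sub, ?_, h.ref, h.osub, h.hit, ?_⟩
  · have h1 := sp_total Λ w S hS (fun _ => 1) (fun _ => T w) (fun _ => zero_le_one) (by
      intro x j hj
      obtain ⟨hj1, hjw⟩ := mem_Icc.mp hj
      rcases hj1.eq_or_lt with rfl | hj1
      · have := spCnt_self S {x}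
        rw [card_singleton] at this
        exact_mod_cast this.trans (hT w)
      · have := hno j {x} (singleton_nonempty x) (by rwa [card_singleton])
        exact_mod_cast this.le.trans (hmono (by omega)))
    simp only [sum_const, nsmul_eq_mul, mul_one, one_mul, Nat.card_Icc, Nat.add_sub_cancel] at h1
    rw [mul_comm] at h1
    exact_mod_cast h1
  · have h1 := sp_total Λ w N (fun c hc => hS c (h.new hc)) (fun j => 2 * g j)
      (fun j => (2 * T (j - 1) : ℕ)) (fun j => mul_nonneg zero_le_two (hg j)) (by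
      intro x j hj
      obtain ⟨hj1, hjw⟩ := mem_Icc.mp hj
      rcases hj1.eq_or_lt with rfl | hj1
      · have := spCnt_self N {x}
        rw [card_singleton] at this
        have h2 := hT (1 - 1)
        exact_mod_cast this.trans (by omega)
      · have := h.inv {x} (singleton_nonempty x) j (by rwa [card_singleton])
        rw [card_singleton] at this
        exact_mod_cast this)
    refine h.pot.trans (mul_le_mul_of_nonneg_right (Real.exp_le_exp.mpr ?_) (Nat.cast_nonneg _))
    refine h1.trans ?_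
    rw [mul_comm]
    exact mul_le_mul_of_nonneg_right hε' (Nat.cast_nonneg _)

end Crest.Agent.R291
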