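import Crest.Agent.R291.Expect
import Crest.Agent.R291.Leaf
import Crest.Agent.R291.Exist
import Crest.Agent.R291.Sim
import Crest.Agent.R291.Sparsify

/-!
# Row 291: the combinatorial core
-/

set_option autoImplicit false

namespace Crest.Agent.R291

open Finset

/-- RECIPE.  `C = 32 (B+1)`, `Λ = C K + 1`, `w` from `expect_H Λ (1/32)`, `L₀` from
`sparsify w (1/256)`, `D = 4C`, `L = 8 C L₀`, `m₀ = 2C`.  For `n, m, F`: `t = C m`, `p = C m / n`
(`p n = t`, `p ≤ 1/2`), `k = K m + 1` (`p k ≤ Λ`), `s = k` (`k ≤ thr w s`), `β = B m log 2 ≤ t/16`;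
choose `τ x T` by `exists_tr`; `expect_H`; `exists_big_leaf` with `Z x T = (τ x T).T 0`
(`TrValid.T_mono`).  For the leaf `O = cls …` put `Tf = (τ x T).T 0`,
`G₀ = narrow ((τ x T).Φ 0) Tf x w`; every `x' ∈ O` hits `G₀` (`TrValid.sim`, `narrow_congr`,
`hits_narrow`, `(TrValid.mono _ (Nat.zero_le _)).sat`).  `sparsify` with ground set
`Tf ×ˢ univ` (card `≤ 8t`) and `e y = univ.image fun v => (v, y v)` gives `G'` and
`|O'| ≥ exp (t/16 - t/32) ≥ 2^m`, `O' ⊆ fib Tf x G'`; a point of `fib Tf x G'` hits `G₀`, hence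
satisfies `F` (`TrValid.narrow_sound`, `thr_succ`, `thr w 0 = w`). -/
theorem core : CoreStmt := by
  intro B K
  obtain ⟨w, hw8, hE⟩ := expect_H ((32 * (B + 1) * K + 32 * (B + 1) : ℕ) : ℝ) (1 / 32)
    (by positivity) (by norm_num)
  obtain ⟨L₀, hL⟩ := sparsify w (1 / 256) (by norm_num)
  set C : ℕ := 32 * (B + 1) with hC
  refine ⟨4 * C, 8 * C * L₀, w, 2 * C, ?_⟩
  intro n m hm hn F hF hdens
  have hC32 : 32 ≤ C := by omega
  have hm0 : 0 < m := by omega
  have hmn : 2 * C * m ≤ n := le_trans (by rw [sq]; exact Nat.mul_le_mul_right m hm) hn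
  have hn0 : 0 < n := lt_of_lt_of_le (by positivity) hmn
  have hnR : (0 : ℝ) < n := by exact_mod_cast hn0
  have hmR : (1 : ℝ) ≤ m := by exact_mod_cast hm0
  have hCR : (32 : ℝ) ≤ C := by exact_mod_cast hC32
  set p : ℝ := (C * m : ℝ) / n with hp
  have hpn : p * Fintype.card (Fin n) = C * m := by
    rw [Fintype.card_fin, hp, div_mul_cancel₀ _ hnR.ne']
  have hp0 : 0 < p := by positivity
  have hp2 : p ≤ 1 / 2 := by
    rw [hp, div_le_iff₀ hnR]
    have : ((2 * C * m : ℕ) : ℝ) ≤ n := by exact_mod_cast hmn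
    push_cast at this
    linarith
  have hpk : p * ((K * m + 1 : ℕ) : ℝ) ≤ ((C * K + C : ℕ) : ℝ) := by
    rw [hp, div_mul_eq_mul_div, div_le_iff₀ hnR]
    have h1 : C * m * (K * m + 1) ≤ (C * K + C) * n := by
      have h2 : m ≤ n := le_trans (Nat.le_self_pow two_ne_zero m) hn
      calc C * m * (K * m + 1) = C * K * m ^ 2 + C * m := by ring
        _ ≤ C * K * n + C * n := Nat.add_le_add (Nat.mul_le_mul_left _ hn)
            (Nat.mul_le_mul_left _ h2)
        _ = _ := by ring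
    exact_mod_cast h1
  have hl2 : Real.log 2 ≤ 1 := by linarith [Real.log_two_lt_d9]
  have hl0 : 0 ≤ Real.log 2 := Real.log_nonneg (by norm_num)
  have hβ : (2 : ℝ) ^ Fintype.card (Fin n) ≤
      (satSet F).card * Real.exp ((B * m : ℕ) * Real.log 2) := by
    rw [Real.exp_nat_mul, Real.exp_log (by norm_num), Fintype.card_fin, mul_comm]
    exact_mod_cast hdens
  have hβt : ((B * m : ℕ) : ℝ) * Real.log 2 ≤ p * Fintype.card (Fin n) / 16 := by
    rw [hpn, hC]
    have h1 : ((B * m : ℕ) : ℝ) * Real.log 2 ≤ (B * m : ℕ) :=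
      mul_le_of_le_one_right (Nat.cast_nonneg _) hl2
    have h2 : (0 : ℝ) ≤ B * m := by positivity
    push_cast at h1 ⊢
    linarith
  have ht : 16 < p * Fintype.card (Fin n) := by
    rw [hpn]
    have := mul_le_mul hCR hmR zero_le_one (by linarith)
    linarith
  have hex : ∀ (x : Fin n → Bool) (T : Finset (Fin n)), ∃ τ : Tr (Fin n), x ∈ satSet F →
      TrValid (thr w) (blk w) (K * m + 1) x (K * m + 1) τ ∧ τ.Φ (K * m + 1) = F ∧
        τ.T (K * m + 1) = T := by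
    intro x T
    by_cases hx : x ∈ satSet F
    · obtain ⟨τ, hτ⟩ := exists_tr (thr w) (blk w) (K * m + 1) x (K * m + 1) F T
        (mem_satSet.1 hx) fun c hc => (hF c hc).trans (Nat.le_succ _)
      exact ⟨τ, fun _ => hτ⟩
    · exact ⟨⟨fun _ => ∅, fun _ => ∅, fun _ => ⟨fun _ => ∅, fun _ => ∅, fun _ => ∅, fun _ => ∅,
        fun _ => ∅, fun _ => ∅, fun _ => ∅⟩⟩, fun h => absurd h hx⟩
  choose τ hτ using hex
  have hH := hE (Fin n) (K * m + 1) (K * m + 1) p ((B * m : ℕ) * Real.log 2) F τ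
    (Nat.succ_pos _) hp0 hp2 hpk (fun x hx T => hτ x T hx) hβ (by linarith)
  obtain ⟨x, hx, T, hT, hbig⟩ := exists_big_leaf (satSet F) (fun x T => (τ x T).T 0) p
    ((B * m : ℕ) * Real.log 2) hp0.le (by linarith)
    (fun x hx T => by
      obtain ⟨h1, -, h3⟩ := hτ x T hx
      have := h1.T_mono (Nat.zero_le _) le_rfl
      rwa [h3] at this) hβ hβt ht hH
  rw [hpn] at hT hbig
  obtain ⟨hv, hΦ, hTs⟩ := hτ x T hx
  set Tf := (τ x T).T 0 with hTf
  have hTfT : Tf ⊆ T := by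
    have := hv.T_mono (Nat.zero_le _) le_rfl
    rwa [hTs] at this
  have hTf4 : Tf.card ≤ 4 * C * m := by
    have h1 : (T.card : ℝ) ≤ ((4 * C * m : ℕ) : ℝ) := by push_cast; linarith
    exact (card_le_card hTfT).trans (by exact_mod_cast h1)
  set O := cls (satSet F) (fun y => (τ y T).T 0) x with hO
  set G₀ := narrow ((τ x T).Φ 0) Tf x w with hG₀
  have hOoff : ∀ y ∈ O, ∀ v, v ∉ Tf → y v = x v := fun y hy => (mem_cls.1 hy).2.2
  have hOhit : ∀ y ∈ O, Hits G₀ y := by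
    intro y hy
    obtain ⟨hyS, hy1, hy2⟩ := mem_cls.1 hy
    obtain ⟨hv', hΦ', hTs'⟩ := hτ y T hyS
    have hsim := hv.sim hv' (hΦ.trans hΦ'.symm) (hTs.trans hTs'.symm) hy1.symm
      fun v hv => (hy2 v hv).symm
    rw [hG₀, hsim, narrow_congr (x' := y) fun v hv => (hy2 v hv).symm]
    exact hits_narrow (hv'.mono (Nat.zero_le _)).sat
  have hiff : ∀ (c : Finset (Fin n × Bool)) (y : Fin n → Bool),
      ¬ Disjoint c (univ.image fun v => (v, y v)) ↔ ∃ l ∈ c, y l.1 = l.2 := by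
    intro c y
    rw [not_disjoint_iff]
    refine exists_congr fun l => and_congr_right fun _ => ?_
    simp only [mem_image, mem_univ, true_and]
    constructor
    · rintro ⟨v, rfl⟩
      rfl
    · intro h
      exact ⟨l.1, Prod.ext rfl h⟩
  obtain ⟨G', O', hG1, hG2, hG3, hO1, hO2, hO3⟩ := hL (Tf ×ˢ (univ : Finset Bool)) G₀ O
    (fun y => univ.image fun v => (v, y v)) ⟨x, self_mem_cls _ hx⟩
    (fun c hc => ⟨fun l hl => mem_product.2 ⟨(narrow_shape hc).2 l hl, mem_univ _⟩,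
      (narrow_shape hc).1⟩)
    (fun y hy c hc => (hiff c y).2 (hOhit y hy c hc))
  have hΛ : (Tf ×ˢ (univ : Finset Bool)).card ≤ 8 * C * m := by
    rw [card_product, card_univ, Fintype.card_bool]
    calc Tf.card * 2 ≤ 4 * C * m * 2 := Nat.mul_le_mul_right 2 hTf4
      _ = _ := by ring
  refine ⟨Tf, x, G', hTf4, ?_, fun c hc => ⟨(hG1 c hc).2,
    fun l hl => (mem_product.1 ((hG1 c hc).1 hl)).1⟩, ?_, ?_⟩
  · calc G'.card ≤ L₀ * (8 * C * m) := hG2.trans (Nat.mul_le_mul_left _ hΛ)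
      _ = _ := by ring
  · intro y hy
    obtain ⟨hy1, hy2⟩ := mem_fib.1 hy
    rw [← hΦ]
    refine hv.narrow_sound (fun i => (thr_succ w i).le)
      ((Nat.le_add_left _ w).trans (le_thr hw8 _)) hy1 ?_
    intro c hc
    obtain ⟨c', hc', hcc⟩ := hG3 c hc
    obtain ⟨l, hl, hyl⟩ := hy2 c' hc'
    exact ⟨l, hcc hl, hyl⟩
  · have hsub : O' ⊆ fib Tf x G' := fun y hy =>
      mem_fib.2 ⟨hOoff y (hO1 hy), fun c hc => (hiff c y).1 (hO2 y hy c hc)⟩
    refine le_trans ?_ (card_le_card hsub)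
    have hΛR : ((Tf ×ˢ (univ : Finset Bool)).card : ℝ) ≤ 8 * C * m := by exact_mod_cast hΛ
    have h1 : Real.exp (1 / 256 * ((Tf ×ˢ (univ : Finset Bool)).card : ℝ)) ≤
        Real.exp (C * m / 32) := Real.exp_le_exp.2 (by linarith)
    have h2 : Real.exp (C * m / 32) * Real.exp (C * m / 32) ≤
        Real.exp (C * m / 32) * O'.card := by
      rw [← Real.exp_add, show (C * m / 32 + C * m / 32 : ℝ) = C * m / 16 by ring]
      exact hbig.trans (hO3.trans (mul_le_mul_of_nonneg_right h1 (Nat.cast_nonneg _)))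
    have h3 := le_of_mul_le_mul_left h2 (Real.exp_pos _)
    have h4 : (2 : ℝ) ^ m ≤ Real.exp (C * m / 32) := by
      rw [← Real.exp_log (x := 2) (by norm_num), ← Real.exp_nat_mul]
      refine Real.exp_le_exp.2 ?_
      have h5 := mul_le_mul_of_nonneg_left hl2 (Nat.cast_nonneg (α := ℝ) m)
      have h6 := mul_le_mul_of_nonneg_right hCR (Nat.cast_nonneg (α := ℝ) m)
      linarith
    exact_mod_cast h4.trans h3

end Crest.Agent.R291
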