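import Crest.Agent.R291.DecU3

/-!
# Row 291: the uniform decoder (U)
-/

set_option autoImplicit false
set_option linter.unusedSectionVars false

namespace Crest.Agent.R291

open Finset

variable {V : Type} [Fintype V] [LinearOrder V]

/-- Kraft inequality for the outcomes with a given `z = x ⊕ J_all` and given labels. -/
theorem decU {ι : Type} (u b : ℕ → ℕ) (k : ℕ) (hk : 0 < k) (hu : ∀ i, i + 1 ≤ u i)
    (x : ι → V → Bool) (τ : ι → Tr V) (𝒜 : ℕ → Finset V) (ℰ : ℕ → ℕ → Finset V) (s : ℕ)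
    (O : Finset ι) (Φ : Finset (Pat V)) (z : V → Bool)
    (hv : ∀ o ∈ O, TrValid u b k (x o) s (τ o)) (hΦ : ∀ o ∈ O, (τ o).Φ s = Φ)
    (hz : ∀ o ∈ O, flip (x o) (U ((τ o).Jr b) 0 s) = z)
    (hA : ∀ o ∈ O, ∀ i < s, (τ o).Ar b i = 𝒜 i)
    (hE : ∀ o ∈ O, ∀ i < s, ∀ ν < b i, ((τ o).R i).A ν ∩ (τ o).Er b i = ℰ i ν)
    (hinj : ∀ o ∈ O, ∀ o' ∈ O, x o = x o' → U ((τ o).Wr b) 0 s = U ((τ o').Wr b) 0 s → o = o') :
    ∑ o ∈ O, ∏ i ∈ range s,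
      (((u i : ℝ) / (72 * k)) ^ ((τ o).Wr b i).card * (1 / 2) ^ (𝒜 i).card) ≤ 1 := by
  have := ustmt_all (b := b) (x := x) (τ := τ) (𝒜 := 𝒜) (ℰ := ℰ) hk hu s O Φ z (fun _ => ∅)
    (fun o ho => ⟨hv o ho, hΦ o ho, hz o ho, hA o ho, hE o ho, fun _ _ => empty_subset _⟩) hinj
  refine le_trans (le_of_eq (sum_congr rfl fun o _ => prod_congr rfl fun i _ => ?_)) this
  rw [sdiff_empty, ← mul_pow]
  congr 2
  ring

end Crest.Agent.R291
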