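import Crest.Agent.R291.Multi
import Crest.Agent.R291.Weights

/-!
# Row 291: the uniform decoder (U), part 1: weights, batches
-/

set_option autoImplicit false
set_option linter.unusedSectionVars false

namespace Crest.Agent.R291

open Finset

theorem kraft_half {ι : Type} (O : Finset ι) (C₁ C₂ : ι → Prop) (pot : ι → ℝ)
    (h1 : ∀ O' ⊆ O, (∀ o ∈ O', C₁ o) → ∑ o ∈ O', pot o ≤ 1 / 2)
    (h2 : ∀ O' ⊆ O, (∀ o ∈ O', C₂ o) → ∑ o ∈ O', pot o ≤ 1 / 2)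
    (h : ∀ o ∈ O, C₁ o ∨ C₂ o) : ∑ o ∈ O, pot o ≤ 1 := by
  classical
  rw [← sum_filter_add_sum_filter_not O C₁]
  have a := h1 _ (filter_subset C₁ O) fun o ho => (mem_filter.1 ho).2
  have b := h2 _ (filter_subset (fun o => ¬ C₁ o) O) fun o ho =>
    (h o (mem_filter.1 ho).1).resolve_left (mem_filter.1 ho).2
  linarith

theorem one_add_div_pow_le (u k : ℕ) (hk : 0 < k) : (1 + (u : ℝ) / k) ^ k ≤ 3 ^ u := by
  have hk' : (0 : ℝ) < k := by exact_mod_cast hk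
  have h1 : 1 + (u : ℝ) / k ≤ Real.exp (u / k) := by
    have := Real.add_one_le_exp ((u : ℝ) / k); linarith
  calc (1 + (u : ℝ) / k) ^ k ≤ Real.exp (u / k) ^ k := by gcongr
    _ = Real.exp 1 ^ u := by
        rw [← Real.exp_nat_mul, ← Real.exp_nat_mul]; congr 1; field_simp
    _ ≤ 3 ^ u := by
        have := Real.exp_one_lt_d9
        gcongr; linarith

theorem sum_powerset_pow_le {V : Type} [DecidableEq V] (S : Finset V) {k : ℕ} (hS : S.card ≤ k)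
    {y : ℝ} (hy : 0 ≤ y) : ∑ F ∈ S.powerset, y ^ F.card / (1 + y) ^ k ≤ 1 := by
  rw [← sum_div, div_le_one (by positivity)]
  have h := Finset.prod_add (fun _ : V => y) (fun _ => (1 : ℝ)) S
  simp only [prod_const, one_pow, mul_one] at h
  rw [← h, add_comm]
  exact pow_le_pow_right₀ (by linarith) hS

variable {V : Type} [Fintype V] [LinearOrder V] {ι : Type}

/-- The remaining gain of the rounds `< s` given the known batches `K`. -/
noncomputable def futPot (u b : ℕ → ℕ) (k : ℕ) (τ : Tr V) (𝒜 K : ℕ → Finset V) (s : ℕ) : ℝ :=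
  ∏ i ∈ range s, (((u i : ℝ) / (6 * k)) ^ (τ.Wr b i \ K i).card * (1 / 12) ^ (τ.Wr b i).card *
    (1 / 2) ^ (𝒜 i).card)

theorem futPot_nonneg (u b : ℕ → ℕ) (k : ℕ) (τ : Tr V) (𝒜 K : ℕ → Finset V) (s : ℕ) :
    0 ≤ futPot u b k τ 𝒜 K s := prod_nonneg fun _ _ => by positivity

theorem futPot_update (u b : ℕ → ℕ) (k : ℕ) (τ : Tr V) (𝒜 K : ℕ → Finset V) {s i : ℕ}
    (hi : i < s) {F : Finset V} (hF : F ⊆ τ.Wr b i) (hd : Disjoint F (K i)) :
    futPot u b k τ 𝒜 K s =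
      ((u i : ℝ) / (6 * k)) ^ F.card * futPot u b k τ 𝒜 (Function.update K i (K i ∪ F)) s := by
  unfold futPot
  rw [← mul_prod_erase _ _ (mem_range.2 hi), ← mul_prod_erase (range s) _ (mem_range.2 hi)]
  have h1 : (τ.Wr b i \ K i).card = F.card + (τ.Wr b i \ (K i ∪ F)).card := by
    rw [← card_union_of_disjoint (by rw [disjoint_left]; intro v; grind)]
    congr 1
    ext v; have := @hF v; have := dj hd v; grind
  rw [h1, Function.update_self, pow_add]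
  have h2 : ∏ j ∈ (range s).erase i, (((u j : ℝ) / (6 * k)) ^ (τ.Wr b j \ K j).card *
      (1 / 12) ^ (τ.Wr b j).card * (1 / 2) ^ (𝒜 j).card) =
      ∏ j ∈ (range s).erase i, (((u j : ℝ) / (6 * k)) ^
        (τ.Wr b j \ Function.update K i (K i ∪ F) j).card *
      (1 / 12) ^ (τ.Wr b j).card * (1 / 2) ^ (𝒜 j).card) :=
    prod_congr rfl fun j hj => by rw [Function.update_of_ne (ne_of_mem_erase hj)]
  rw [h2]
  ring

theorem U_update_union (K : ℕ → Finset V) {s i : ℕ} (hi : i < s) (F : Finset V) :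
    U (Function.update K i (K i ∪ F)) 0 s = U K 0 s ∪ F := by
  ext v
  simp only [mem_U, mem_union]
  constructor
  · rintro ⟨ν, h1, h2, h3⟩
    by_cases h : ν = i
    · subst h
      rw [Function.update_self, mem_union] at h3
      exact h3.imp (fun h => ⟨ν, h1, h2, h⟩) id
    · rw [Function.update_of_ne h] at h3
      exact Or.inl ⟨ν, h1, h2, h3⟩
  · rintro (⟨ν, h1, h2, h3⟩ | h3)
    · refine ⟨ν, h1, h2, ?_⟩
      by_cases h : ν = i
      · subst h; simp [h3]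
      · rwa [Function.update_of_ne h]
    · exact ⟨i, Nat.zero_le _, hi, by simp [h3]⟩

/-- A batch answer costs at most one half. -/
theorem batch_bound {u b : ℕ → ℕ} {k : ℕ} (hk : 0 < k) (hu : ∀ i, i + 1 ≤ u i) (τ : ι → Tr V)
    (𝒜 K : ℕ → Finset V) (s : ℕ) (S : Finset V) (hS : S.card ≤ k) (hSK : Disjoint S (U K 0 s))
    (O : Finset ι) (ρ : ι → ℝ) (hρ : ∀ o ∈ O, 0 ≤ ρ o)
    (hbig : ∀ o ∈ O, ∃ i < s, u i < (S ∩ (τ o).Wr b i).card)
    (ih : ∀ i < s, ∀ F ⊆ S, F.Nonempty → ∀ O' ⊆ O, (∀ o ∈ O', F ⊆ (τ o).Wr b i) →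
      ∑ o ∈ O', ρ o * futPot u b k (τ o) 𝒜 (Function.update K i (K i ∪ F)) s ≤ 1) :
    ∑ o ∈ O, ρ o * futPot u b k (τ o) 𝒜 K s ≤ 1 / 2 := by
  have hk' : (0 : ℝ) < k := by exact_mod_cast hk
  have key := kraft_step O (range s ×ˢ S.powerset)
    (fun a o => a.2.Nonempty ∧ a.2 ⊆ (τ o).Wr b a.1)
    (fun a => (1 / 2) ^ (a.1 + 1) * (((u a.1 : ℝ) / k) ^ a.2.card / (1 + (u a.1 : ℝ) / k) ^ k))
    (fun o => 2 * (ρ o * futPot u b k (τ o) 𝒜 K s))
    (fun a o => ρ o * futPot u b k (τ o) 𝒜 (Function.update K a.1 (K a.1 ∪ a.2)) s)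
    (fun a _ => by positivity) ?_ ?_ ?_
  · rw [← mul_sum] at key; linarith
  · rw [sum_product]
    calc _ ≤ ∑ i ∈ range s, (1 / 2 : ℝ) ^ (i + 1) := by
          refine sum_le_sum fun i _ => ?_
          simp only
          rw [← mul_sum]
          exact mul_le_of_le_one_right (by positivity)
            (sum_powerset_pow_le S hS (by positivity))
      _ ≤ 1 := by
          have : ∀ n, ∑ i ∈ range n, (1 / 2 : ℝ) ^ (i + 1) = 1 - (1 / 2) ^ n := by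
            intro n
            induction n with
            | zero => simp
            | succ n ih => rw [sum_range_succ, ih]; ring
          rw [this]
          have : (0 : ℝ) ≤ (1 / 2) ^ s := by positivity
          linarith
  · rintro ⟨i, F⟩ ha O' hO' hC
    obtain ⟨h1, h2⟩ := mem_product.1 ha
    rcases O'.eq_empty_or_nonempty with rfl | ⟨o, ho⟩
    · simp
    exact ih i (mem_range.1 h1) F (mem_powerset.1 h2) (hC o ho).1 O' hO' fun o ho => (hC o ho).2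
  · intro o ho
    obtain ⟨i, hi, hlt⟩ := hbig o ho
    refine ⟨(i, S ∩ (τ o).Wr b i),
      mem_product.2 ⟨mem_range.2 hi, mem_powerset.2 inter_subset_left⟩,
      ⟨card_pos.1 (by simp only; omega), inter_subset_right⟩, ?_⟩
    simp only
    rw [futPot_update u b k (τ o) 𝒜 K hi inter_subset_right
      ((hSK.mono_right (subset_U K (Nat.zero_le _) hi)).mono_left inter_subset_left)]
    set f := (S ∩ (τ o).Wr b i).card
    set y : ℝ := (u i : ℝ) / k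
    have hy : 0 ≤ y := by positivity
    have e1 : ((u i : ℝ) / (6 * k)) ^ f = y ^ f * (1 / 6) ^ f := by
      rw [← mul_pow]; congr 1; simp only [y]; field_simp
    have e2 : 2 * (1 / 6 : ℝ) ^ f ≤ (1 / 2) ^ (i + 1) / (1 + y) ^ k := by
      rw [le_div_iff₀ (by positivity)]
      have h3 := one_add_div_pow_le (u i) k hk
      have h4 : (3 : ℝ) ^ u i ≤ 3 ^ f := pow_le_pow_right₀ (by norm_num) hlt.le
      have h5 : (1 / 2 : ℝ) ^ f ≤ (1 / 2) ^ (i + 2) :=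
        pow_le_pow_of_le_one (by norm_num) (by norm_num) (by have := hu i; omega)
      have h6 : (1 / 6 : ℝ) ^ f * 3 ^ f = (1 / 2) ^ f := by rw [← mul_pow]; norm_num
      calc 2 * (1 / 6 : ℝ) ^ f * (1 + y) ^ k ≤ 2 * (1 / 6 : ℝ) ^ f * 3 ^ f := by
            gcongr; exact h3.trans h4
        _ = 2 * (1 / 2) ^ f := by rw [mul_assoc, h6]
        _ ≤ 2 * (1 / 2) ^ (i + 2) := by gcongr
        _ = (1 / 2) ^ (i + 1) := by ring
    have hP := mul_nonneg (hρ o ho)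
      (futPot_nonneg u b k (τ o) 𝒜 (Function.update K i (K i ∪ S ∩ (τ o).Wr b i)) s)
    rw [e1]
    calc _ = (2 * (1 / 6 : ℝ) ^ f) * (y ^ f * (ρ o * futPot u b k (τ o) 𝒜
          (Function.update K i (K i ∪ S ∩ (τ o).Wr b i)) s)) := by ring
      _ ≤ ((1 / 2) ^ (i + 1) / (1 + y) ^ k) * (y ^ f * (ρ o * futPot u b k (τ o) 𝒜
          (Function.update K i (K i ∪ S ∩ (τ o).Wr b i)) s)) := by gcongr
      _ = _ := by ring

/-- A derived clause falsified by the future makes the object big. -/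
theorem TrValid.big_of {u b : ℕ → ℕ} {k s : ℕ} {x : V → Bool} {τ : Tr V}
    (h : TrValid u b k x (s + 1) τ) {d : Pat V} (hd : d ∈ τ.Φ s)
    (hf : Fals d (flip x (U (τ.Jr b) 0 s))) {S : Finset V} (hS : vars d ∩ τ.T s ⊆ S)
    (hA : Disjoint S (U (τ.Ar b) 0 s)) : ∃ i < s, u i < (S ∩ τ.Wr b i).card := by
  have hAT := h.pred.UAr_sub (Nat.zero_le s) le_rfl
  obtain ⟨i, hi, hlt⟩ := h.pred.lemmaB hd hf (by
    rw [disjoint_left]; intro v hv hv'
    exact dj hA v (hS (mem_inter.2 ⟨hv, (mem_sdiff.1 (hAT hv')).1⟩)) hv')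
  refine ⟨i, hi, hlt.trans_le (card_le_card fun v hv => ?_)⟩
  have h1 := h.pred.UWr_sub (Nat.zero_le s) le_rfl (subset_U _ (Nat.zero_le i) hi (mem_inter.1 hv).2)
  exact mem_inter.2 ⟨hS (mem_inter.2 ⟨(mem_inter.1 hv).1, (mem_sdiff.1 h1).1⟩), (mem_inter.1 hv).2⟩

/-- The common knowledge at the start of round `s - 1`. -/
structure UH (u b : ℕ → ℕ) (k : ℕ) (𝒜 : ℕ → Finset V) (ℰ : ℕ → ℕ → Finset V) (s : ℕ)
    (Φ : Finset (Pat V)) (z : V → Bool) (K : ℕ → Finset V) (x : V → Bool) (τ : Tr V) : Prop where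
  tv : TrValid u b k x s τ
  phi : τ.Φ s = Φ
  z : flip x (U (τ.Jr b) 0 s) = z
  A : ∀ i < s, τ.Ar b i = 𝒜 i
  E : ∀ i < s, ∀ ν < b i, (τ.R i).A ν ∩ τ.Er b i = ℰ i ν
  K : ∀ i < s, K i ⊆ τ.Wr b i

theorem UH.update {u b : ℕ → ℕ} {k : ℕ} {𝒜 : ℕ → Finset V} {ℰ : ℕ → ℕ → Finset V} {s : ℕ}
    {Φ : Finset (Pat V)} {z : V → Bool} {K : ℕ → Finset V} {x : V → Bool} {τ : Tr V}
    (h : UH u b k 𝒜 ℰ s Φ z K x τ) {i : ℕ} {F : Finset V} (hF : F ⊆ τ.Wr b i) :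
    UH u b k 𝒜 ℰ s Φ z (Function.update K i (K i ∪ F)) x τ :=
  { h with
    K := fun j hj => by
      by_cases e : j = i
      · subst e; rw [Function.update_self]; exact union_subset (h.K j hj) hF
      · rw [Function.update_of_ne e]; exact h.K j hj }

theorem UH.UA {u b : ℕ → ℕ} {k : ℕ} {𝒜 : ℕ → Finset V} {ℰ : ℕ → ℕ → Finset V} {s : ℕ}
    {Φ : Finset (Pat V)} {z : V → Bool} {K : ℕ → Finset V} {x : V → Bool} {τ : Tr V}
    (h : UH u b k 𝒜 ℰ (s + 1) Φ z K x τ) : U 𝒜 0 s = U (τ.Ar b) 0 s :=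
  U_congr fun i _ hi => (h.A i (by omega)).symm

theorem UH.UK {u b : ℕ → ℕ} {k : ℕ} {𝒜 : ℕ → Finset V} {ℰ : ℕ → ℕ → Finset V} {s : ℕ}
    {Φ : Finset (Pat V)} {z : V → Bool} {K : ℕ → Finset V} {x : V → Bool} {τ : Tr V}
    (h : UH u b k 𝒜 ℰ (s + 1) Φ z K x τ) : U K 0 s ⊆ τ.T s := by
  intro v hv
  obtain ⟨i, h1, h2, h3⟩ := mem_U.1 hv
  exact (mem_sdiff.1 (h.tv.pred.UWr_sub (Nat.zero_le s) le_rfl
    (subset_U _ h1 h2 (h.K i (by omega) h3)))).1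

theorem UH.Jfut {u b : ℕ → ℕ} {k : ℕ} {𝒜 : ℕ → Finset V} {ℰ : ℕ → ℕ → Finset V} {s : ℕ}
    {Φ : Finset (Pat V)} {z : V → Bool} {K : ℕ → Finset V} {x : V → Bool} {τ : Tr V}
    (h : UH u b k 𝒜 ℰ (s + 1) Φ z K x τ) : U (τ.Jr b) 0 s ⊆ τ.T s :=
  ((h.tv.pred.UJr_sub le_rfl).trans (h.tv.pred.UWr_sub (Nat.zero_le s) le_rfl)).trans sdiff_subset

/-- Undoing part of the flips of the current round. -/
theorem UH.flip_z {u b : ℕ → ℕ} {k : ℕ} {𝒜 : ℕ → Finset V} {ℰ : ℕ → ℕ → Finset V} {s : ℕ}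
    {Φ : Finset (Pat V)} {z : V → Bool} {K : ℕ → Finset V} {x : V → Bool} {τ : Tr V}
    (h : UH u b k 𝒜 ℰ (s + 1) Φ z K x τ) {J₁ J₂ : Finset V} (h12 : J₁ ∪ J₂ = τ.Jr b s)
    (hd : Disjoint J₁ J₂) : flip z J₁ = flip x (J₂ ∪ U (τ.Jr b) 0 s) := by
  funext v
  have h1 := @h.Jfut _ _ _ _ _ _ _ _ _ _ _ _ _ _ v
  have h2 := @h.tv.Wr_sub _ _ _ _ _ _ _ _ _ s (by omega) v
  have h3 := @h.tv.Jr_sub _ _ _ _ _ _ _ _ _ s (by omega) v
  have h4 := dj hd v
  rw [← h.z, U_succ _ (Nat.zero_le s), ← h12] at *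
  cases hx : x v <;> grind

/-- Injectivity of the outcomes. -/
def UInj (b : ℕ → ℕ) (x : ι → V → Bool) (τ : ι → Tr V) (s : ℕ) (O : Finset ι) : Prop :=
  ∀ o ∈ O, ∀ o' ∈ O, x o = x o' → U ((τ o).Wr b) 0 s = U ((τ o').Wr b) 0 s → o = o'

theorem UInj.mono {b : ℕ → ℕ} {x : ι → V → Bool} {τ : ι → Tr V} {s : ℕ} {O O' : Finset ι}
    (h : UInj b x τ s O) (hO : O' ⊆ O) : UInj b x τ s O' :=
  fun o ho o' ho' => h o (hO ho) o' (hO ho')

/-- The statement proved by induction on the number of remaining rounds. -/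
def UStmt (u b : ℕ → ℕ) (k : ℕ) (x : ι → V → Bool) (τ : ι → Tr V) (𝒜 : ℕ → Finset V)
    (ℰ : ℕ → ℕ → Finset V) (s : ℕ) : Prop :=
  ∀ (O : Finset ι) (Φ : Finset (Pat V)) (z : V → Bool) (K : ℕ → Finset V),
    (∀ o ∈ O, UH u b k 𝒜 ℰ s Φ z K (x o) (τ o)) → UInj b x τ s O →
    ∑ o ∈ O, futPot u b k (τ o) 𝒜 K s ≤ 1

theorem ustmt_zero (u b : ℕ → ℕ) (k : ℕ) (x : ι → V → Bool) (τ : ι → Tr V) (𝒜 : ℕ → Finset V)
    (ℰ : ℕ → ℕ → Finset V) : UStmt u b k x τ 𝒜 ℰ 0 := by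
  intro O Φ z K h hinj
  have : O.card ≤ 1 := card_le_one.2 fun o ho o' ho' => hinj o ho o' ho' (by
    have h1 := (h o ho).z
    have h2 := (h o' ho').z
    rw [U_self, flip_empty] at h1 h2
    rw [h1, h2]) (by simp)
  simp only [futPot, range_zero, prod_empty, sum_const, nsmul_eq_mul, mul_one]
  exact_mod_cast this

end Crest.Agent.R291
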