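import Crest.Agent.R291.DecU1

/-!
# Row 291: the uniform decoder (U), part 2: the labelling pass
-/

set_option autoImplicit false
set_option linter.unusedSectionVars false

namespace Crest.Agent.R291

open Finset

variable {V : Type} [Fintype V] [LinearOrder V] {ι : Type}
variable {u b : ℕ → ℕ} {k : ℕ} {x : ι → V → Bool} {τ : ι → Tr V} {𝒜 : ℕ → Finset V}
  {ℰ : ℕ → ℕ → Finset V} {s : ℕ} {Φ : Finset (Pat V)} {z : V → Bool} {Wh Jh : ℕ → Finset V}

/-- Knowledge during the labelling pass of round `s`. -/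
structure LH (u b : ℕ → ℕ) (k : ℕ) (𝒜 : ℕ → Finset V) (ℰ : ℕ → ℕ → Finset V) (s : ℕ)
    (Φ : Finset (Pat V)) (z : V → Bool) (Wh Jh : ℕ → Finset V) (μ : ℕ) (Ah : ℕ → Finset V)
    (Lc : Finset V) (K : ℕ → Finset V) (x : V → Bool) (τ : Tr V) : Prop where
  uh : UH u b k 𝒜 ℰ (s + 1) Φ z K x τ
  W : ∀ ν < b s, (τ.R s).W ν = Wh ν
  J : ∀ ν < b s, (τ.R s).J ν = Jh ν
  A : ∀ ν < μ, (τ.R s).A ν = Ah ν
  L : μ < b s → Lc ⊆ (τ.R s).A μ

/-- The statement for the labelling pass at mini-round `μ`. -/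
def LStmt (u b : ℕ → ℕ) (k : ℕ) (x : ι → V → Bool) (τ : ι → Tr V) (𝒜 : ℕ → Finset V)
    (ℰ : ℕ → ℕ → Finset V) (s : ℕ) (Φ : Finset (Pat V)) (z : V → Bool) (Wh Jh : ℕ → Finset V)
    (μ : ℕ) : Prop :=
  ∀ (Ah : ℕ → Finset V) (Lc : Finset V) (K : ℕ → Finset V) (O : Finset ι),
    (∀ o ∈ O, LH u b k 𝒜 ℰ s Φ z Wh Jh μ Ah Lc K (x o) (τ o)) → UInj b x τ (s + 1) O →
    ∑ o ∈ O, (1 / 2) ^ (𝒜 s \ (U Ah 0 μ ∪ Lc)).card * futPot u b k (τ o) 𝒜 K s ≤ 1

theorem lstmt_end (hU : UStmt u b k x τ 𝒜 ℰ s) : LStmt u b k x τ 𝒜 ℰ s Φ z Wh Jh (b s) := by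
  intro Ah Lc K O h hinj
  rcases O.eq_empty_or_nonempty with rfl | ⟨o₀, ho₀⟩
  · simp
  have hJr : ∀ o ∈ O, (τ o).Jr b s = U Jh 0 (b s) := fun o ho =>
    U_congr fun ν _ hν => (h o ho).J ν hν
  have hWr : ∀ o ∈ O, (τ o).Wr b s = U Wh 0 (b s) := fun o ho =>
    U_congr fun ν _ hν => (h o ho).W ν hν
  have hz : ∀ o ∈ O, flip (x o) (U ((τ o).Jr b) 0 s) = flip z (U Jh 0 (b s)) := by
    intro o ho
    have := (h o ho).uh.flip_z (J₁ := U Jh 0 (b s)) (J₂ := ∅) (by rw [hJr o ho]; simp) (by simp)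
    rw [this, empty_union]
  have hx : ∀ o ∈ O, ∀ v ∈ U Wh 0 (b s), x o v = flip z (U Jh 0 (b s)) v := by
    intro o ho v hv
    rw [← hz o ho]
    have h1 := @(h o ho).uh.Jfut _ _ _ _ _ _ _ _ _ _ _ _ _ _ v
    have h2 := @(h o ho).uh.tv.Wr_sub _ _ _ _ _ _ _ _ _ s (by omega) v
    rw [hWr o ho] at h2
    grind
  refine le_trans (sum_le_sum fun o _ => ?_)
    (hU O ((τ o₀).Φ s) (flip z (U Jh 0 (b s))) K (fun o ho => ?_) ?_)
  · exact mul_le_of_le_one_left (futPot_nonneg _ _ _ _ _ _ _)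
      (pow_le_one₀ (by norm_num) (by norm_num))
  · have H := (h o ho).uh
    have H0 := (h o₀ ho₀).uh
    refine ⟨H.tv.pred, ?_, hz o ho, fun i hi => H.A i (by omega), fun i hi => H.E i (by omega),
      fun i hi => H.K i (by omega)⟩
    rw [H.tv.next s (by omega), H0.tv.next s (by omega), H.phi, H0.phi]
    refine nextF_congr (fun ν hν => ?_) (fun ν hν => ?_) (fun ν hν => ?_) fun v hv => ?_
    · rw [(h o ho).W ν hν, (h o₀ ho₀).W ν hν]
    · rw [(h o ho).J ν hν, (h o₀ ho₀).J ν hν]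
    · rw [(h o ho).A ν hν, (h o₀ ho₀).A ν hν]
    · have hv' : v ∈ U Wh 0 (b s) := hWr o ho ▸ hv
      rw [hx o ho v hv', hx o₀ ho₀ v hv']
  · intro o ho o' ho' h1 h2
    refine hinj o ho o' ho' h1 ?_
    rw [U_succ _ (Nat.zero_le s), U_succ _ (Nat.zero_le s), h2, hWr o ho, hWr o' ho']

/-- Objects of the labelling pass. -/
def LObj (u b : ℕ → ℕ) (𝒜 : ℕ → Finset V) (s : ℕ) (Φ : Finset (Pat V)) (z : V → Bool)
    (Wh Jh : ℕ → Finset V) (μ : ℕ) (Ah : ℕ → Finset V) (Lc : Finset V) (K : ℕ → Finset V)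
    (c : Pat V) (e : V) : Prop :=
  c ∈ Φ ∧ ∃ m, m ≤ μ ∧ Fals c (flip z (U Jh 0 (b s) \ U Jh m (μ + 1))) ∧
    (vars c ∩ U Wh m (μ + 1)).card ≤ u s ∧ Disjoint (vars c) (U Ah m μ) ∧ Disjoint (vars c) Lc ∧
    vars c ∩ (𝒜 s \ (U Ah 0 μ ∪ Lc)) = {e} ∧ Disjoint (vars c) (U 𝒜 0 s) ∧
    Disjoint (vars c) (U K 0 s)

section
variable {μ : ℕ} {Ah : ℕ → Finset V} {Lc : Finset V} {K : ℕ → Finset V} {y : V → Bool} {t : Tr V}

theorem LH.flip_z (h : LH u b k 𝒜 ℰ s Φ z Wh Jh μ Ah Lc K y t) (hμ : μ < b s) (m : ℕ) :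
    flip z (U Jh 0 (b s) \ U Jh m (μ + 1)) =
      flip y (U (t.R s).J m (μ + 1) ∪ U (t.Jr b) 0 s) := by
  have e1 : U Jh 0 (b s) = t.Jr b s := U_congr fun ν _ hν => (h.J ν hν).symm
  have e2 : U Jh m (μ + 1) = U (t.R s).J m (μ + 1) :=
    U_congr fun ν _ hν => (h.J ν (by omega)).symm
  rw [e1, e2]
  exact h.uh.flip_z (sdiff_union_of_subset (U_mono _ (Nat.zero_le _) hμ)) sdiff_disjoint

theorem LH.obj_of_mem (h : LH u b k 𝒜 ℰ s Φ z Wh Jh μ Ah Lc K y t) (hμ : μ < b s) {e : V}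
    (he : e ∈ (t.R s).A μ) (heL : e ∉ Lc) : ∃ c, LObj u b 𝒜 s Φ z Wh Jh μ Ah Lc K c e := by
  have hv := h.uh.tv.round s (by omega)
  obtain ⟨c, hc, m, hm, h1, h2, h3, h4, h5⟩ := hv.priv hμ he
  have hT : t.T s ⊆ (t.R s).T (μ + 1) := by
    rw [h.uh.tv.stop s (by omega)]; exact hv.T_anti hμ le_rfl
  have eW : U Wh m (μ + 1) = U (t.R s).W m (μ + 1) :=
    U_congr fun ν _ hν => (h.W ν (by omega)).symm
  have eA : ∀ m, U Ah m μ = U (t.R s).A m μ := fun m => U_congr fun ν _ hν => (h.A ν hν).symm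
  have e𝒜 : 𝒜 s = U (t.R s).A 0 μ ∪ (t.R s).A μ ∪ U (t.R s).A (μ + 1) (b s) := by
    rw [← h.uh.A s (by omega), ← U_succ _ (Nat.zero_le μ), ← U_split _ (Nat.zero_le _) hμ]; rfl
  have hL := h.L hμ
  have hAT := hv.UA_sub (a := μ + 1) le_rfl hμ
  have hA0 := hv.UA_sub hμ.le (Nat.zero_le μ)
  have hAμ := (hv.A_sub hμ).trans (hv.F_sub hμ)
  have h4' : ∀ v, v ∈ vars c ∩ (t.R s).A μ ↔ v = e := by intro v; rw [h4]; simp
  refine ⟨c, h.uh.phi ▸ hc, m, hm, ?_, eW ▸ h3, eA m ▸ h2, ?_, ?_, ?_, ?_⟩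
  · rw [h.flip_z hμ]
    intro v
    have := h1 v; have := dj h5 v; have := @hT v
    have := @h.uh.Jfut _ _ _ _ _ _ _ _ _ _ _ _ _ _ v
    grind
  · rw [disjoint_left]; intro v hv1 hv2
    have := h4' v; have := @hL v
    grind
  · ext v
    rw [e𝒜, eA]
    have := h4' v; have := h4' e; have := dj h5 v; have := @hAT v; have := @hA0 v
    have := @hAμ v
    grind
  · rw [h.uh.UA, disjoint_left]; intro v hv1 hv2
    exact dj h5 v hv1 (hT (mem_sdiff.1 (h.uh.tv.pred.UAr_sub (Nat.zero_le s) le_rfl hv2)).1)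
  · rw [disjoint_left]; intro v hv1 hv2
    exact dj h5 v hv1 (hT (h.uh.UK hv2))

theorem LH.big_of_obj (h : LH u b k 𝒜 ℰ s Φ z Wh Jh μ Ah Lc K y t) (hμ : μ < b s) {c : Pat V}
    {e : V} (hc : LObj u b 𝒜 s Φ z Wh Jh μ Ah Lc K c e) (he : e ∉ (t.R s).A μ) :
    ∃ i < s, u i < (vars c ∩ t.Wr b i).card := by
  obtain ⟨hc, m, hm, h1, h2, h3, h4, h5, h6, -⟩ := hc
  have hv := h.uh.tv.round s (by omega)
  have eW : U Wh m (μ + 1) = U (t.R s).W m (μ + 1) :=
    U_congr fun ν _ hν => (h.W ν (by omega)).symm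
  have eA : ∀ m, U Ah m μ = U (t.R s).A m μ := fun m => U_congr fun ν _ hν => (h.A ν hν).symm
  rw [h.flip_z hμ] at h1
  rw [eW] at h2
  rw [eA] at h3 h5
  have hAs : (t.R s).A μ ⊆ 𝒜 s := by
    rw [← h.uh.A s (by omega)]; exact subset_U _ (Nat.zero_le _) hμ
  have hA0 := hv.UA_sub hμ.le (Nat.zero_le μ)
  have hAμ := (hv.A_sub hμ).trans (hv.F_sub hμ)
  have hW := h.uh.tv.Wr_sub (Nat.lt_succ_self s)
  have hJW := (hv.UJ_sub (a := m) (c := μ + 1) hμ).trans (U_mono _ (Nat.zero_le m) hμ)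
  have h5' : ∀ v, v ∈ vars c ∩ (𝒜 s \ (U (t.R s).A 0 μ ∪ Lc)) ↔ v = e := by
    intro v; rw [h5]; simp
  refine h.uh.tv.big_of (d := erase c (t.Wr b s)) ?_ ?_ ?_ (h.uh.UA ▸ h6)
  · rw [h.uh.tv.next s (by omega), h.uh.phi]
    refine mem_nextF.2 ⟨c, hc, ⟨m, μ + 1, hμ, fun v hv' => ?_, ?_, h2⟩, rfl⟩
    · have := h1 v; have := @hW v
      have := @h.uh.Jfut _ _ _ _ _ _ _ _ _ _ _ _ _ _ v
      simp only [Tr.Wr] at *
      grind
    · rw [U_succ _ hm, disjoint_left]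
      intro v hv1 hv2
      have := dj h3 v; have := dj h4 v; have := h5' v; have := @hAs v; have := @hA0 v
      have := @hAμ v
      grind
  · intro v
    have := h1 v; have := @hJW v
    simp only [Tr.Wr] at *
    grind
  · rw [vars_erase]; intro v hv'; grind

end

theorem lstmt_step (hk : 0 < k) (hu : ∀ i, i + 1 ≤ u i) {μ : ℕ} (hμ : μ < b s)
    (hnext : LStmt u b k x τ 𝒜 ℰ s Φ z Wh Jh (μ + 1)) :
    LStmt u b k x τ 𝒜 ℰ s Φ z Wh Jh μ := by
  intro Ah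
  suffices H : ∀ N (Lc : Finset V) (K : ℕ → Finset V) (O : Finset ι),
      (univ \ U K 0 s).card + (univ \ Lc).card < N →
      (∀ o ∈ O, LH u b k 𝒜 ℰ s Φ z Wh Jh μ Ah Lc K (x o) (τ o)) → UInj b x τ (s + 1) O →
      ∑ o ∈ O, (1 / 2) ^ (𝒜 s \ (U Ah 0 μ ∪ Lc)).card * futPot u b k (τ o) 𝒜 K s ≤ 1 from
    fun Lc K O => H _ Lc K O (Nat.lt_succ_self _)
  intro N
  induction N with
  | zero => intro _ _ _ h; omega
  | succ N ih =>
    intro Lc K O hN h hinj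
    rcases O.eq_empty_or_nonempty with rfl | ⟨o₀, ho₀⟩
    · simp
    by_cases hobj : ∃ c e, LObj u b 𝒜 s Φ z Wh Jh μ Ah Lc K c e
    · obtain ⟨c, e, hc⟩ := hobj
      have hck : (vars c).card ≤ k := (h o₀ ho₀).uh.tv.wid c ((h o₀ ho₀).uh.phi ▸ hc.1)
      obtain ⟨m, -, -, -, -, -, h5, -, h7⟩ := hc.2
      have he : e ∈ 𝒜 s \ (U Ah 0 μ ∪ Lc) :=
        (mem_inter.1 (h5 ▸ mem_singleton_self e : e ∈ vars c ∩ _)).2
      refine kraft_half O (fun o => e ∈ ((τ o).R s).A μ)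
        (fun o => ∃ i < s, u i < (vars c ∩ (τ o).Wr b i).card) _ ?_ ?_ ?_
      · intro O' hO' hC
        have hcard : (𝒜 s \ (U Ah 0 μ ∪ Lc)).card =
            (𝒜 s \ (U Ah 0 μ ∪ insert e Lc)).card + 1 := by
          rw [← card_insert_of_notMem (a := e) (by simp)]
          congr 1
          ext v; grind
        have hlt : (univ \ insert e Lc).card < (univ \ Lc).card := by
          apply card_lt_card
          refine ⟨fun v => by grind, fun hh => ?_⟩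
          have := @hh e
          grind
        have := ih (insert e Lc) K O' (by omega) (fun o ho =>
          { h o (hO' ho) with
            L := fun hh => insert_subset (hC o ho) ((h o (hO' ho)).L hh) }) (hinj.mono hO')
        rw [hcard]
        simp only [pow_succ]
        have e2 : ∀ o, (1 / 2 : ℝ) ^ (𝒜 s \ (U Ah 0 μ ∪ insert e Lc)).card * (1 / 2) *
            futPot u b k (τ o) 𝒜 K s = (1 / 2) * ((1 / 2 : ℝ) ^
              (𝒜 s \ (U Ah 0 μ ∪ insert e Lc)).card * futPot u b k (τ o) 𝒜 K s) := by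
          intro o; ring
        rw [sum_congr rfl fun o _ => e2 o, ← mul_sum]
        linarith
      · intro O' hO' hC
        refine batch_bound hk hu τ 𝒜 K s (vars c) hck h7 O' _ (fun _ _ => by positivity) hC ?_
        intro i hi F hF hFne O'' hO'' hFW
        have hlt : (univ \ U (Function.update K i (K i ∪ F)) 0 s).card < (univ \ U K 0 s).card := by
          rw [U_update_union K hi]
          apply card_lt_card
          obtain ⟨f, hf⟩ := hFne
          refine ⟨fun v => by grind, fun hh => ?_⟩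
          have := @hh f
          have := dj h7 f (hF hf)
          grind
        exact ih Lc _ O'' (by omega) (fun o ho =>
          { h o (hO' (hO'' ho)) with uh := (h o (hO' (hO'' ho))).uh.update (hFW o ho) })
          (hinj.mono (hO''.trans hO'))
      · intro o ho
        by_cases hh : e ∈ ((τ o).R s).A μ
        · exact Or.inl hh
        · exact Or.inr ((h o ho).big_of_obj hμ hc hh)
    · have hA : ∀ o ∈ O, ((τ o).R s).A μ = Lc := by
        intro o ho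
        refine Subset.antisymm (fun e he => ?_) ((h o ho).L hμ)
        by_contra heL
        obtain ⟨c, hc⟩ := (h o ho).obj_of_mem hμ he heL
        exact hobj ⟨c, e, hc⟩
      have e1 : U (Function.update Ah μ Lc) 0 (μ + 1) ∪ ∅ = U Ah 0 μ ∪ Lc := by
        rw [U_succ _ (Nat.zero_le μ), Function.update_self, union_empty]
        congr 1
        exact U_congr fun ν _ hν => Function.update_of_ne (by omega) _ _
      have := hnext (Function.update Ah μ Lc) ∅ K O (fun o ho =>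
        { h o ho with
          A := fun ν hν => by
            by_cases e : ν = μ
            · subst e; rw [Function.update_self, hA o ho]
            · rw [Function.update_of_ne e]; exact (h o ho).A ν (by omega)
          L := fun _ => empty_subset _ }) hinj
      rwa [e1] at this

theorem lstmt_all (hk : 0 < k) (hu : ∀ i, i + 1 ≤ u i) (hU : UStmt u b k x τ 𝒜 ℰ s) :
    LStmt u b k x τ 𝒜 ℰ s Φ z Wh Jh 0 :=
  Nat.decreasingInduction (motive := fun μ _ => LStmt u b k x τ 𝒜 ℰ s Φ z Wh Jh μ)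
    (fun _ hμ ih => lstmt_step hk hu hμ ih) (lstmt_end hU) (Nat.zero_le (b s))

end Crest.Agent.R291
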