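import Crest.Agent.R291.DecU2

/-!
# Row 291: the uniform decoder (U), part 3: the first pass
-/

set_option autoImplicit false
set_option linter.unusedSectionVars false

namespace Crest.Agent.R291

open Finset

variable {V : Type} [Fintype V] [LinearOrder V] {ι : Type}
variable {u b : ℕ → ℕ} {k : ℕ} {x : ι → V → Bool} {τ : ι → Tr V} {𝒜 : ℕ → Finset V}
  {ℰ : ℕ → ℕ → Finset V} {s : ℕ} {Φ : Finset (Pat V)} {z : V → Bool}

/-- Knowledge during the first pass of round `s`. -/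
structure FH (u b : ℕ → ℕ) (k : ℕ) (𝒜 : ℕ → Finset V) (ℰ : ℕ → ℕ → Finset V) (s : ℕ)
    (Φ : Finset (Pat V)) (z : V → Bool) (μ : ℕ) (Wh Jh : ℕ → Finset V)
    (Wc Jc : Finset V) (K : ℕ → Finset V) (x : V → Bool) (τ : Tr V) : Prop where
  uh : UH u b k 𝒜 ℰ (s + 1) Φ z K x τ
  W : ∀ ν < μ, (τ.R s).W ν = Wh ν
  J : ∀ ν < μ, (τ.R s).J ν = Jh ν
  ch : μ < b s → ∃ Ec, Chain ((τ.R s).ctx Φ (u s) (b s) μ) x Wc Jc Ec
    ((τ.R s).W μ) ((τ.R s).J μ) ((τ.R s).E μ)
  JW : Jc ⊆ Wc

/-- The remaining gain of the current round during the first pass. -/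
noncomputable def curPot (u b : ℕ → ℕ) (k : ℕ) (τ : Tr V) (𝒜 : ℕ → Finset V) (s : ℕ)
    (Ks P : Finset V) : ℝ :=
  ((u s : ℝ) / (6 * k)) ^ (τ.Wr b s \ (Ks ∪ P)).card * (1 / 12) ^ (τ.Wr b s \ P).card *
    (1 / 2) ^ (𝒜 s).card

theorem curPot_nonneg (u b : ℕ → ℕ) (k : ℕ) (τ : Tr V) (𝒜 : ℕ → Finset V) (s : ℕ)
    (Ks P : Finset V) : 0 ≤ curPot u b k τ 𝒜 s Ks P := by unfold curPot; positivity

/-- The statement for the first pass at mini-round `μ`. -/
def FStmt (u b : ℕ → ℕ) (k : ℕ) (x : ι → V → Bool) (τ : ι → Tr V) (𝒜 : ℕ → Finset V)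
    (ℰ : ℕ → ℕ → Finset V) (s : ℕ) (Φ : Finset (Pat V)) (z : V → Bool) (μ : ℕ) : Prop :=
  ∀ (Wh Jh : ℕ → Finset V) (Wc Jc : Finset V) (K : ℕ → Finset V) (O : Finset ι),
    (∀ o ∈ O, FH u b k 𝒜 ℰ s Φ z μ Wh Jh Wc Jc K (x o) (τ o)) → UInj b x τ (s + 1) O →
    ∑ o ∈ O, curPot u b k (τ o) 𝒜 s (K s) (U Wh 0 μ ∪ Wc) * futPot u b k (τ o) 𝒜 K s ≤ 1

theorem fstmt_end (hk : 0 < k) (hu : ∀ i, i + 1 ≤ u i) (hU : UStmt u b k x τ 𝒜 ℰ s) :
    FStmt u b k x τ 𝒜 ℰ s Φ z (b s) := by
  intro Wh Jh Wc Jc K O h hinj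
  have := lstmt_all (Φ := Φ) (z := z) (Wh := Wh) (Jh := Jh) hk hu hU (fun _ => ∅) ∅ K O
    (fun o ho => ⟨(h o ho).uh, (h o ho).W, (h o ho).J, fun _ h => absurd h (by omega),
      fun _ => empty_subset _⟩) hinj
  refine le_trans (le_of_eq (sum_congr rfl fun o ho => ?_)) this
  have hW : (τ o).Wr b s = U Wh 0 (b s) := U_congr fun ν _ hν => (h o ho).W ν hν
  have e1 : (τ o).Wr b s \ (K s ∪ (U Wh 0 (b s) ∪ Wc)) = ∅ := by
    rw [hW]; ext v; grind
  have e2 : (τ o).Wr b s \ (U Wh 0 (b s) ∪ Wc) = ∅ := by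
    rw [hW]; ext v; grind
  simp [curPot, e1, e2]

/-- Objects of the first pass. -/
def FObj (b : ℕ → ℕ) (𝒜 : ℕ → Finset V) (ℰ : ℕ → ℕ → Finset V) (s : ℕ) (Φ : Finset (Pat V))
    (z : V → Bool) (μ : ℕ) (Jh : ℕ → Finset V) (Wc : Finset V) (K : ℕ → Finset V) (c : Pat V) :
    Prop :=
  c ∈ Φ ∧ Fals c (flip z (U Jh 0 μ)) ∧ Disjoint (vars c) Wc ∧
    Disjoint (vars c) (𝒜 s \ U (ℰ s) 0 μ) ∧ Disjoint (vars c) (U 𝒜 0 s) ∧
    Disjoint (vars c) (U K 0 s) ∧ (vars c ∩ U (ℰ s) 0 μ).card ≤ b s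

section
variable {μ : ℕ} {Wh Jh : ℕ → Finset V} {Wc Jc : Finset V} {K : ℕ → Finset V} {y : V → Bool}
  {t : Tr V}

theorem FH.valid (h : FH u b k 𝒜 ℰ s Φ z μ Wh Jh Wc Jc K y t) :
    Valid Φ y (u s) (b s) (t.R s) (b s) := h.uh.phi ▸ h.uh.tv.round s (by omega)

theorem FH.flip_z (h : FH u b k 𝒜 ℰ s Φ z μ Wh Jh Wc Jc K y t) (hμ : μ < b s) :
    flip z (U Jh 0 μ) = flip y (U (t.R s).J μ (b s) ∪ U (t.Jr b) 0 s) := by
  have e1 : U Jh 0 μ = U (t.R s).J 0 μ := U_congr fun ν _ hν => (h.J ν hν).symm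
  rw [e1]
  refine h.uh.flip_z (U_split _ (Nat.zero_le _) hμ.le).symm ?_
  rw [disjoint_left]; intro v h1 h2
  have := h.valid.UW_sub hμ.le (Nat.zero_le μ) (h.valid.UJ_sub hμ.le h1)
  have := h.valid.UW_sub le_rfl hμ.le (h.valid.UJ_sub le_rfl h2)
  grind

theorem FH.UE (h : FH u b k 𝒜 ℰ s Φ z μ Wh Jh Wc Jc K y t) (hμ : μ < b s) :
    U (ℰ s) 0 μ = U (t.R s).A 0 μ ∩ t.Er b s := by
  ext v
  simp only [mem_U, mem_inter]
  constructor
  · rintro ⟨ν, h1, h2, h3⟩
    rw [← h.uh.E s (by omega) ν (by omega), mem_inter] at h3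
    exact ⟨⟨ν, h1, h2, h3.1⟩, h3.2⟩
  · rintro ⟨⟨ν, h1, h2, h3⟩, h4⟩
    exact ⟨ν, h1, h2, by rw [← h.uh.E s (by omega) ν (by omega), mem_inter]; exact ⟨h3, h4⟩⟩

theorem FH.A_eq (h : FH u b k 𝒜 ℰ s Φ z μ Wh Jh Wc Jc K y t) (hμ : μ < b s) :
    𝒜 s = U (t.R s).A 0 μ ∪ U (t.R s).A μ (b s) := by
  rw [← h.uh.A s (by omega), ← U_split _ (Nat.zero_le _) hμ.le]; rfl

theorem FH.obj_of_step (h : FH u b k 𝒜 ℰ s Φ z μ Wh Jh Wc Jc K y t) (hμ : μ < b s) {c : Pat V}
    {Ec : Finset V} (hc : Cand ((t.R s).ctx Φ (u s) (b s) μ) y Wc Jc c)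
    (hch : Chain ((t.R s).ctx Φ (u s) (b s) μ) y (Wc ∪ vars c ∩ (t.R s).T μ) (Jc ∪ dis c y)
      (Ec ∪ vars c ∩ U (t.R s).A 0 μ) ((t.R s).W μ) ((t.R s).J μ) ((t.R s).E μ)) :
    FObj b 𝒜 ℰ s Φ z μ Jh Wc K c := by
  have hv := h.valid
  have hTs : t.T s = (t.R s).T (b s) := h.uh.tv.stop s (by omega)
  obtain ⟨h1, h2, h3, h4, h5, h6, -, -⟩ := hv.member hμ h.JW (hTs ▸ h.uh.Jfut) hc hch
  have hTb := hv.T_anti hμ.le le_rfl
  have hWT := hv.UW_sub le_rfl hμ.le
  have hWμ := subset_U (t.R s).W (le_refl μ) hμ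
  have hdT : Disjoint (vars c) (t.T s) := by
    rw [hTs, disjoint_left]; intro v hv1 hv2
    have := @h4 v; have := @hTb v; have := @hWT v; have := @hWμ v
    grind
  refine ⟨h1, by rw [h.flip_z hμ]; exact h2, h3, ?_, ?_, hdT.mono_right h.uh.UK, ?_⟩
  · rw [h.UE hμ, h.A_eq hμ, disjoint_left]
    intro v hv1 hv2
    have := @h4 v; have := @h5 v; have := @hWμ v
    have := @hv.UA_sub _ _ _ _ _ _ _ _ _ μ (b s) le_rfl hμ.le v
    have := dj (hv.UW_UA (a := μ) (a' := μ) le_rfl le_rfl) v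
    have := @subset_U _ _ (t.R s).E 0 (b s) μ (Nat.zero_le _) hμ v
    simp only [Tr.Er] at *
    grind
  · rw [h.uh.UA]
    exact hdT.mono_right ((h.uh.tv.pred.UAr_sub (Nat.zero_le s) le_rfl).trans sdiff_subset)
  · refine le_trans (card_le_card ?_) h6
    rw [h.UE hμ]
    intro v; grind

theorem FH.cand_or_big (h : FH u b k 𝒜 ℰ s Φ z μ Wh Jh Wc Jc K y t) (hμ : μ < b s) {c : Pat V}
    (hc : FObj b 𝒜 ℰ s Φ z μ Jh Wc K c) :
    Cand ((t.R s).ctx Φ (u s) (b s) μ) y Wc Jc c ∨ ∃ i < s, u i < (vars c ∩ t.Wr b i).card := by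
  have hv := h.valid
  have hTs : t.T s = (t.R s).T (b s) := h.uh.tv.stop s (by omega)
  obtain ⟨Ec, hch⟩ := h.ch hμ
  obtain ⟨h1, h2, h3, h4, h5, h6, h7⟩ := hc
  rw [h.flip_z hμ] at h2
  rw [h.UE hμ] at h4 h7
  rw [h.A_eq hμ] at h4
  have hA0 := hv.UA_sub hμ.le (Nat.zero_le μ)
  have hA1 := hv.UA_sub le_rfl hμ.le
  rcases hv.obj hμ hch.W_sub h.JW (fun v hv => hch.J_iff hv) (hTs ▸ h.uh.Jfut) h1 h2 h3
    (by
      rw [disjoint_left]; intro v hv1 hv2
      have := dj h4 v; have := @hA0 v; have := @hA1 v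
      grind)
    (le_trans (card_le_card fun v hv => by have := dj h4 v; grind) h7) with hc | ⟨d, hd, h8, h9⟩
  · exact Or.inl hc
  · right
    refine h.uh.tv.big_of (d := d) ?_ h8 (hTs ▸ h9) (h.uh.UA ▸ h5)
    rw [h.uh.tv.next s (by omega), h.uh.phi]
    exact hd

end

/-- The numerical inequality of a member step. -/
theorem member_ineq {u k f n : ℕ} (hk : 0 < k) (hn : u < n) :
    2 * (((u : ℝ) / (6 * k)) ^ f * (1 / 12) ^ n) ≤
      ((u : ℝ) / k) ^ f / (1 + (u : ℝ) / k) ^ k * (1 / 2) ^ n := by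
  have hk' : (0 : ℝ) < k := by exact_mod_cast hk
  set y : ℝ := (u : ℝ) / k
  have hy : 0 ≤ y := by positivity
  have e1 : ((u : ℝ) / (6 * k)) ^ f ≤ y ^ f := by
    gcongr
    simp only [y]
    gcongr
    linarith
  have e2 : 2 * (1 / 6 : ℝ) ^ n * (1 + y) ^ k ≤ 1 := by
    have h3 := one_add_div_pow_le u k hk
    obtain ⟨m, rfl⟩ : ∃ m, n = m + 1 := ⟨n - 1, by omega⟩
    have h4 : (3 : ℝ) ^ u ≤ 6 ^ m :=
      (pow_le_pow_right₀ (by norm_num) (by omega : u ≤ m)).trans
        (pow_le_pow_left₀ (by norm_num) (by norm_num) m)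
    have h6 : (1 / 6 : ℝ) ^ m * 6 ^ m = 1 := by rw [← mul_pow]; norm_num
    calc 2 * (1 / 6 : ℝ) ^ (m + 1) * (1 + y) ^ k ≤ 2 * (1 / 6 : ℝ) ^ (m + 1) * 6 ^ m := by
          gcongr; exact h3.trans h4
      _ = (1 / 3) * ((1 / 6 : ℝ) ^ m * 6 ^ m) := by ring
      _ ≤ 1 := by rw [h6]; norm_num
  have e3 : (1 / 12 : ℝ) ^ n = (1 / 6) ^ n * (1 / 2) ^ n := by rw [← mul_pow]; norm_num
  rw [div_mul_eq_mul_div, le_div_iff₀ (by positivity), e3]
  calc _ = (2 * (1 / 6 : ℝ) ^ n * (1 + y) ^ k) * (((u : ℝ) / (6 * k)) ^ f * (1 / 2) ^ n) := by ring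
    _ ≤ 1 * (y ^ f * (1 / 2) ^ n) := by gcongr
    _ = _ := by ring

theorem fstmt_step (hk : 0 < k) (hu : ∀ i, i + 1 ≤ u i) {μ : ℕ} (hμ : μ < b s)
    (hnext : FStmt u b k x τ 𝒜 ℰ s Φ z (μ + 1)) : FStmt u b k x τ 𝒜 ℰ s Φ z μ := by
  intro Wh Jh
  suffices H : ∀ N (Wc Jc : Finset V) (K : ℕ → Finset V) (O : Finset ι),
      (univ \ U K 0 s).card + (univ \ Wc).card < N →
      (∀ o ∈ O, FH u b k 𝒜 ℰ s Φ z μ Wh Jh Wc Jc K (x o) (τ o)) → UInj b x τ (s + 1) O →
      ∑ o ∈ O, curPot u b k (τ o) 𝒜 s (K s) (U Wh 0 μ ∪ Wc) * futPot u b k (τ o) 𝒜 K s ≤ 1 from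
    fun Wc Jc K O => H _ Wc Jc K O (Nat.lt_succ_self _)
  intro N
  induction N with
  | zero => intro _ _ _ _ h; omega
  | succ N ih =>
    intro Wc Jc K O hN h hinj
    rcases O.eq_empty_or_nonempty with rfl | ⟨o₀, ho₀⟩
    · simp
    by_cases hobj : ∃ c, FObj b 𝒜 ℰ s Φ z μ Jh Wc K c
    · obtain ⟨c, hc⟩ := exists_first hobj
      have hck : (vars c).card ≤ k := (h o₀ ho₀).uh.tv.wid c ((h o₀ ho₀).uh.phi ▸ hc.1.1)
      refine kraft_half O
        (fun o => Cand (((τ o).R s).ctx Φ (u s) (b s) μ) (x o) Wc Jc c)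
        (fun o => ∃ i < s, u i < (vars c ∩ (τ o).Wr b i).card) _ ?_ ?_
        (fun o ho => (h o ho).cand_or_big hμ hc.1)
      · intro O' hO' hC
        set B : Finset V := (vars c ∩ K s) \ U Wh 0 μ with hB
        have key := kraft_step O' ((vars c).powerset.sigma fun Fr => (Fr ∪ B).powerset)
          (fun a o => (a.1 ∪ B).Nonempty ∧
            FH u b k 𝒜 ℰ s Φ z μ Wh Jh (Wc ∪ (a.1 ∪ B)) (Jc ∪ a.2) K (x o) (τ o))
          (fun a => ((u s : ℝ) / k) ^ a.1.card / (1 + (u s : ℝ) / k) ^ k * (1 / 2) ^ (a.1 ∪ B).card)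
          (fun o => 2 * (curPot u b k (τ o) 𝒜 s (K s) (U Wh 0 μ ∪ Wc) * futPot u b k (τ o) 𝒜 K s))
          (fun a o => curPot u b k (τ o) 𝒜 s (K s) (U Wh 0 μ ∪ (Wc ∪ (a.1 ∪ B))) *
            futPot u b k (τ o) 𝒜 K s)
          (fun a _ => by positivity) ?_ ?_ ?_
        · rw [← mul_sum] at key; linarith
        · rw [sum_sigma]
          refine le_trans (le_of_eq (sum_congr rfl fun Fr _ => ?_))
            (sum_powerset_pow_le (vars c) hck (y := (u s : ℝ) / k) (by positivity))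
          simp only [sum_const, card_powerset, nsmul_eq_mul]
          push_cast
          rw [mul_comm, mul_assoc, ← mul_pow]
          norm_num
        · rintro ⟨Fr, Jn⟩ ha O'' hO'' hC'
          rcases O''.eq_empty_or_nonempty with rfl | ⟨o, ho⟩
          · simp
          have hFr : Fr ⊆ vars c := mem_powerset.1 (mem_sigma.1 ha).1
          have hlt : (univ \ (Wc ∪ (Fr ∪ B))).card < (univ \ Wc).card := by
            apply card_lt_card
            obtain ⟨f, hf⟩ := (hC' o ho).1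
            refine ⟨fun v => by grind, fun hh => ?_⟩
            have := @hh f
            have := dj hc.1.2.2.1 f
            have := @hFr f
            grind
          exact ih _ _ K O'' (by simp only; omega) (fun o ho => (hC' o ho).2)
            (hinj.mono (hO''.trans hO'))
        · intro o ho
          have H := h o (hO' ho)
          have hv := H.valid
          obtain ⟨Ec, hch⟩ := H.ch hμ
          have hcand := hC o ho
          cases hch with
          | done hno => exact (hno c hcand).elim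
          | step c' hc' hch =>
            obtain rfl : c = c' := hc.eq_of hc' hcand (H.obj_of_step hμ hc'.1 hch)
            have hTs : (τ o).T s = ((τ o).R s).T (b s) := H.uh.tv.stop s (by omega)
            obtain ⟨-, -, h3, h4, -, -, h7, h8⟩ :=
              hv.member hμ H.JW (hTs ▸ H.uh.Jfut) hcand hch
            have eW : U Wh 0 μ = U ((τ o).R s).W 0 μ := U_congr fun ν _ hν => (H.W ν hν).symm
            have hK := H.uh.K s (by omega)
            have sW : (τ o).Wr b s = U ((τ o).R s).W 0 μ ∪ U ((τ o).R s).W μ (b s) :=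
              U_split _ (Nat.zero_le _) hμ.le
            have hW0 := hv.UW_sub hμ.le (Nat.zero_le μ)
            have hW1 := hv.UW_sub le_rfl hμ.le
            have hWμ := subset_U ((τ o).R s).W (le_refl μ) hμ
            have hWn : (vars c ∩ ((τ o).R s).T μ) \ K s ∪ B = vars c ∩ ((τ o).R s).T μ := by
              ext v
              rw [hB, eW]
              have := @hK v; have := @hW0 v; have := @hW1 v
              rw [sW] at *
              grind
            refine ⟨⟨(vars c ∩ ((τ o).R s).T μ) \ K s, dis c (x o)⟩, ?_, ⟨?_, ?_⟩, ?_⟩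
            · refine mem_sigma.2 ⟨mem_powerset.2 (sdiff_subset.trans inter_subset_left), ?_⟩
              simp only [hWn]
              exact mem_powerset.2 h8
            · simp only [hWn]
              exact card_pos.1 (by omega)
            · simp only [hWn]
              exact ⟨H.uh, H.W, H.J, fun _ => ⟨_, hch⟩, union_subset_union H.JW h8⟩
            · simp only [hWn]
              have c1 : ((τ o).Wr b s \ (K s ∪ (U Wh 0 μ ∪ Wc))).card =
                  ((vars c ∩ ((τ o).R s).T μ) \ K s).card + ((τ o).Wr b s \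
                    (K s ∪ (U Wh 0 μ ∪ (Wc ∪ vars c ∩ ((τ o).R s).T μ)))).card := by
                rw [← card_union_of_disjoint (by rw [disjoint_left]; intro v; grind)]
                congr 1
                ext v
                rw [eW, sW]
                have := @h4 v; have := @hWμ v; have := @hW0 v; have := dj h3 v
                grind
              have c2 : ((τ o).Wr b s \ (U Wh 0 μ ∪ Wc)).card =
                  (vars c ∩ ((τ o).R s).T μ).card + ((τ o).Wr b s \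
                    (U Wh 0 μ ∪ (Wc ∪ vars c ∩ ((τ o).R s).T μ))).card := by
                rw [← card_union_of_disjoint (by rw [disjoint_left]; intro v; grind)]
                congr 1
                ext v
                rw [eW, sW]
                have := @h4 v; have := @hWμ v; have := @hW0 v; have := dj h3 v
                grind
              have hm := member_ineq (f := ((vars c ∩ ((τ o).R s).T μ) \ K s).card) hk h7
              have hP := mul_nonneg (curPot_nonneg u b k (τ o) 𝒜 s (K s)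
                (U Wh 0 μ ∪ (Wc ∪ vars c ∩ ((τ o).R s).T μ))) (futPot_nonneg u b k (τ o) 𝒜 K s)
              refine le_trans (le_of_eq ?_) (mul_le_mul_of_nonneg_right hm hP)
              unfold curPot
              rw [c1, c2]
              ring
      · intro O' hO' hC
        refine batch_bound hk hu τ 𝒜 K s (vars c) hck hc.1.2.2.2.2.2.1 O' _
          (fun _ _ => curPot_nonneg _ _ _ _ _ _ _ _) hC ?_
        intro i hi F hF hFne O'' hO'' hFW
        have hlt : (univ \ U (Function.update K i (K i ∪ F)) 0 s).card < (univ \ U K 0 s).card := by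
          rw [U_update_union K hi]
          apply card_lt_card
          obtain ⟨f, hf⟩ := hFne
          refine ⟨fun v => by grind, fun hh => ?_⟩
          have := @hh f
          have := dj hc.1.2.2.2.2.2.1 f (hF hf)
          grind
        have := ih Wc Jc _ O'' (by omega) (fun o ho =>
          { h o (hO' (hO'' ho)) with uh := (h o (hO' (hO'' ho))).uh.update (hFW o ho) })
          (hinj.mono (hO''.trans hO'))
        rwa [Function.update_of_ne (by omega)] at this
    · have hA : ∀ o ∈ O, ((τ o).R s).W μ = Wc ∧ ((τ o).R s).J μ = Jc := by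
        intro o ho
        obtain ⟨Ec, hch⟩ := (h o ho).ch hμ
        have H := h o ho
        generalize hW : ((τ o).R s).W μ = Wf at hch
        generalize hJ : ((τ o).R s).J μ = Jf at hch
        generalize hE : ((τ o).R s).E μ = Ef at hch
        cases hch with
        | done _ => exact ⟨rfl, rfl⟩
        | step c' hc' hch =>
          subst hW hJ hE
          exact (hobj ⟨c', H.obj_of_step hμ hc'.1 hch⟩).elim
      have e1 : U (Function.update Wh μ Wc) 0 (μ + 1) ∪ ∅ = U Wh 0 μ ∪ Wc := by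
        rw [U_succ _ (Nat.zero_le μ), Function.update_self, union_empty]
        congr 1
        exact U_congr fun ν _ hν => Function.update_of_ne (by omega) _ _
      have := hnext (Function.update Wh μ Wc) (Function.update Jh μ Jc) ∅ ∅ K O (fun o ho =>
        { uh := (h o ho).uh
          W := fun ν hν => by
            by_cases e : ν = μ
            · subst e; rw [Function.update_self, (hA o ho).1]
            · rw [Function.update_of_ne e]; exact (h o ho).W ν (by omega)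
          J := fun ν hν => by
            by_cases e : ν = μ
            · subst e; rw [Function.update_self, (hA o ho).2]
            · rw [Function.update_of_ne e]; exact (h o ho).J ν (by omega)
          ch := fun hh => ⟨∅, ((h o ho).valid (μ + 1) hh).chain⟩
          JW := Subset.refl _ }) hinj
      rwa [e1] at this

theorem ustmt_succ (hk : 0 < k) (hu : ∀ i, i + 1 ≤ u i) (hU : UStmt u b k x τ 𝒜 ℰ s) :
    UStmt u b k x τ 𝒜 ℰ (s + 1) := by
  intro O Φ z K h hinj
  have H : FStmt u b k x τ 𝒜 ℰ s Φ z 0 :=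
    Nat.decreasingInduction (motive := fun μ _ => FStmt u b k x τ 𝒜 ℰ s Φ z μ)
      (fun _ hμ ih => fstmt_step hk hu hμ ih) (fstmt_end hk hu hU) (Nat.zero_le (b s))
  have := H (fun _ => ∅) (fun _ => ∅) ∅ ∅ K O (fun o ho =>
    { uh := h o ho
      W := fun _ h => absurd h (by omega)
      J := fun _ h => absurd h (by omega)
      ch := fun hh => ⟨∅, (((h o ho).phi ▸ (h o ho).tv.round s (by omega)) 0 hh).chain⟩
      JW := Subset.refl _ }) hinj
  refine le_trans (le_of_eq (sum_congr rfl fun o _ => ?_)) this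
  simp only [futPot, curPot, prod_range_succ, U_self, union_empty, sdiff_empty]
  ring

theorem ustmt_all (hk : 0 < k) (hu : ∀ i, i + 1 ≤ u i) (s : ℕ) : UStmt u b k x τ 𝒜 ℰ s := by
  induction s with
  | zero => exact ustmt_zero _ _ _ _ _ _ _
  | succ s ih => exact ustmt_succ hk hu ih

end Crest.Agent.R291
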