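import Crest.Agent.R291.DecXAux

/-!
# Row 291: the decoder (X) with `x` fixed
-/

set_option autoImplicit false
set_option linter.unusedSectionVars false

namespace Crest.Agent.R291

open Finset

/-- The constants of decoder (X). -/
structure XConst (p : ℝ) (k : ℕ) (y K₂ K₃ : ℝ) : Prop where
  p0 : 0 ≤ p
  p1 : p ≤ 1
  y1 : 1 ≤ y
  k3 : (1 + p * (y - 1)) ^ k ≤ K₃
  k2 : (1 + p * (y * K₃ - 1)) ^ k ≤ K₂
  k1 : ∀ j ≤ k, (1 + p * (y * K₃ * K₂ - 1)) ^ j - (1 - p) ^ j / 2 ≤ 1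

variable {V : Type} [Fintype V] [LinearOrder V]

/-- The potential when the current free set is `S` and the final one is `Z`. -/
noncomputable def dxPot (y : ℝ) (𝒲 S Z : Finset V) : ℝ :=
  (1 / 2) ^ (𝒲 ∩ S).card * y ^ ((S \ Z) \ 𝒲).card

theorem dxPot_nonneg {y : ℝ} (hy : 1 ≤ y) (𝒲 S Z : Finset V) : 0 ≤ dxPot y 𝒲 S Z := by
  unfold dxPot; positivity

theorem dxPot_step {y : ℝ} (hy : 1 ≤ y) {𝒲 S S' Z W B : Finset V} (hS : S' ⊆ S) (hW : W ⊆ 𝒲 ∩ S)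
    (hW' : Disjoint W S') (hB : (S \ S') \ 𝒲 ⊆ B) :
    dxPot y 𝒲 S Z ≤ (1 / 2) ^ W.card * y ^ B.card * dxPot y 𝒲 S' Z := by
  unfold dxPot
  have h1 : W.card + (𝒲 ∩ S').card ≤ (𝒲 ∩ S).card := by
    rw [← card_union_of_disjoint (hW'.mono_right inter_subset_right)]
    exact card_le_card (union_subset hW (inter_subset_inter_left hS))
  have h2 : ((S \ Z) \ 𝒲).card ≤ B.card + ((S' \ Z) \ 𝒲).card := by
    refine le_trans (card_le_card ?_) (card_union_le _ _)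
    intro v; have := @hB v; grind
  have h3 : (1 / 2 : ℝ) ^ (𝒲 ∩ S).card ≤ (1 / 2) ^ (W.card + (𝒲 ∩ S').card) :=
    pow_le_pow_of_le_one (by norm_num) (by norm_num) h1
  have h4 := pow_le_pow_right₀ hy h2
  refine (mul_le_mul h3 h4 (by positivity) (by positivity)).trans (le_of_eq ?_)
  simp only [pow_add]; ring

/-- The records agree below `μ`. -/
def DxAgree (R : Finset V → Rec V) (O : Finset (Finset V)) (μ : ℕ) : Prop :=
  ∀ T ∈ O, ∀ T' ∈ O, ∀ ν < μ,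
    (R T).W ν = (R T').W ν ∧ (R T).J ν = (R T').J ν ∧ (R T).A ν = (R T').A ν

theorem Valid.dx_UW {Φ : Finset (Pat V)} {x : V → Bool} {u b μ : ℕ} {R : Rec V}
    (h : Valid Φ x u b R b) (hμ : μ ≤ b) : U R.W μ b = U R.W 0 b \ U R.W 0 μ := by
  rw [U_split R.W (Nat.zero_le μ) hμ]
  ext v
  have := @h.UW_sub _ _ _ _ _ _ _ _ _ μ b le_rfl hμ v
  have := @h.UW_sub _ _ _ _ _ _ _ _ _ 0 μ hμ (Nat.zero_le _) v
  grind

theorem Valid.dx_UJ {Φ : Finset (Pat V)} {x : V → Bool} {u b μ : ℕ} {R : Rec V}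
    (h : Valid Φ x u b R b) (hμ : μ ≤ b) : U R.J μ b = U R.J 0 b \ U R.J 0 μ := by
  rw [U_split R.J (Nat.zero_le μ) hμ]
  ext v
  have := @h.UW_sub _ _ _ _ _ _ _ _ _ μ b le_rfl hμ v
  have := @h.UW_sub _ _ _ _ _ _ _ _ _ 0 μ hμ (Nat.zero_le _) v
  have := @h.UJ_sub _ _ _ _ _ _ _ _ _ μ b le_rfl v
  have := @h.UJ_sub _ _ _ _ _ _ _ _ _ 0 μ hμ v
  grind

/-- One mini-round. -/
theorem dx_mini {p y K₂ K₃ : ℝ} {k : ℕ} (hc : XConst p k y K₂ K₃) {Φ : Finset (Pat V)}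
    {x : V → Bool} {u b μ : ℕ} (hμ : μ < b) (hs : Sat Φ x) (hk : ∀ c ∈ Φ, (vars c).card ≤ k)
    (R : Finset V → Rec V) (Z : Finset V → Finset V) (𝒲 𝒲i 𝒥i : Finset V) (h𝒲i : 𝒲i ⊆ 𝒲)
    (O : Finset (Finset V))
    (hv : ∀ T ∈ O, Valid Φ x u b (R T) b ∧ U (R T).W 0 b = 𝒲i ∧ U (R T).J 0 b = 𝒥i ∧
      Disjoint ((R T).F μ) 𝒲)
    (cont : ∀ O' ⊆ O, ∀ K G D : Finset V, D ⊆ K → 𝒲 ⊆ K →
      (∀ T ∈ O', T ∩ K = G ∧ (R T).T (μ + 1) = T \ D) → DxAgree R O' (μ + 1) →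
      ∑ T ∈ O', pw p K T * dxPot y 𝒲 ((R T).T (μ + 1)) (Z T)
        ≤ (y * K₃ * K₂) ^ ((G \ D) \ 𝒲).card)
    (K G D : Finset V) (hD : D ⊆ K) (h𝒲 : 𝒲 ⊆ K)
    (hT : ∀ T ∈ O, T ∩ K = G ∧ (R T).T μ = T \ D) (hag : DxAgree R O μ) :
    ∑ T ∈ O, pw p K T * dxPot y 𝒲 ((R T).T μ) (Z T) ≤ (y * K₃ * K₂) ^ ((G \ D) \ 𝒲).card := by
  have h0 := hc.p0
  have h1 := hc.p1
  have hy := hc.y1
  have hb3 : 1 ≤ 1 + p * (y - 1) := by nlinarith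
  have hK₃ : 1 ≤ K₃ := (one_le_pow₀ hb3).trans hc.k3
  have hL : 1 ≤ y * K₃ := by nlinarith
  have hK₂ : 1 ≤ K₂ := (one_le_pow₀ (by nlinarith)).trans hc.k2
  have hM : y ≤ y * K₃ * K₂ := by nlinarith
  have hM0 : 0 ≤ y * K₃ * K₂ := by linarith
  rcases O.eq_empty_or_nonempty with rfl | ⟨T₀, hT₀⟩
  · simp only [sum_empty]; positivity
  have aW : ∀ T ∈ O, ∀ m, U (R T).W m μ = U (R T₀).W m μ := fun T hTO m =>
    U_congr fun ν _ h => (hag T hTO T₀ hT₀ ν h).1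
  have aJ : ∀ T ∈ O, ∀ m, U (R T).J m μ = U (R T₀).J m μ := fun T hTO m =>
    U_congr fun ν _ h => (hag T hTO T₀ hT₀ ν h).2.1
  have aA : ∀ T ∈ O, ∀ m, U (R T).A m μ = U (R T₀).A m μ := fun T hTO m =>
    U_congr fun ν _ h => (hag T hTO T₀ hT₀ ν h).2.2
  have aX : ∀ T ∈ O, ∀ W J, InX ((R T).ctx Φ u b μ) x W J = InX ((R T₀).ctx Φ u b μ) x W J := by
    intro T hTO W J
    funext c
    simp only [InX, Rec.ctx, aW T hTO, aJ T hTO, aA T hTO]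
  have hch := dx_chain h0 h1 hM0 hc.k1 hμ hs hk R 𝒲 D (𝒲i \ U (R T₀).W 0 μ)
    (𝒥i \ U (R T₀).J 0 μ) (U (R T₀).A 0 μ) (sdiff_subset.trans h𝒲i)
    (fun T => dxPot y 𝒲 ((R T).T μ) (Z T)) O
    (fun T hTO => by
      obtain ⟨v1, v2, v3, -⟩ := hv T hTO
      exact ⟨v1, (hT T hTO).2, by rw [v1.dx_UW hμ.le, v2, aW T hTO],
        by rw [v1.dx_UJ hμ.le, v3, aJ T hTO], aA T hTO 0⟩)
    ?_ _ O (Subset.refl _) K G ∅ ∅ (Nat.lt_succ_self _) hD h𝒲 (Subset.refl _)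
    (fun T hTO => ⟨(hT T hTO).1, ∅, ((hv T hTO).1 μ hμ).chain⟩)
  · simpa using hch
  intro O₁ hO₁ K₁ G₁ W J hD₁ h𝒲₁ hT₁
  rcases O₁.eq_empty_or_nonempty with rfl | ⟨T₁, hT₁'⟩
  · simp only [sum_empty]; positivity
  have hW𝒲 : W ⊆ 𝒲 := by
    rw [← (hT₁ T₁ hT₁').2.1]
    refine (subset_U (R T₁).W (Nat.zero_le μ) hμ).trans ?_
    rw [(hv T₁ (hO₁ hT₁')).2.1]
    exact h𝒲i
  obtain ⟨X, hX⟩ : ∃ X, X = InX ((R T₀).ctx Φ u b μ) x W J := ⟨_, rfl⟩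
  have hXk : ∀ c, X c → (vars c).card ≤ k := fun c h => by rw [hX] at h; exact hk c h.1
  have hX' : ∀ T ∈ O₁, InX ((R T).ctx Φ u b μ) x ((R T).W μ) ((R T).J μ) = X := fun T hTO => by
    rw [(hT₁ T hTO).2.1, (hT₁ T hTO).2.2, aX T (hO₁ hTO), hX]
  have hS : ∀ T ∈ O₁, (R T).T μ \ (R T).W μ = T \ (D ∪ W) := fun T hTO => by
    rw [(hT T (hO₁ hTO)).2, (hT₁ T hTO).2.1]
    ext v; simp only [mem_sdiff, mem_union, mem_inter, notMem_empty] at *; tauto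
  have hgr := dx_greedy h0 h1 hL hK₂ hc.k2 hc.k1 X hXk 𝒲 (D ∪ W) (fun T => (R T).F μ)
    (fun T => dxPot y 𝒲 ((R T).T μ) (Z T)) (a := (1 / 2) ^ W.card) (by positivity) O₁
    (fun T hTO => ⟨(hv T (hO₁ hTO)).2.2.2, fun c h => by
      rw [← hS T hTO]
      exact (hv T (hO₁ hTO)).1.inv hs hμ c (by rw [hX' T hTO]; exact h)⟩)
    ?_ _ O₁ (Subset.refl _) K₁ G₁ ∅ (Nat.lt_succ_self _) (union_subset hD₁ (hW𝒲.trans h𝒲₁)) h𝒲₁
    (empty_subset _)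
    (fun T hTO => ⟨(hT₁ T hTO).1, by
      rw [← hS T hTO, ← hX' T hTO]
      exact ((hv T (hO₁ hTO)).1 μ hμ).greedy⟩)
  · have e : ((G₁ \ (D ∪ W)) \ 𝒲) \ ∅ = (G₁ \ D) \ 𝒲 := by
      ext v; have := @hW𝒲 v; simp only [mem_sdiff, mem_union, mem_inter, notMem_empty] at *; tauto
    rw [e] at hgr
    simpa using hgr
  intro O₂ hO₂ K' G' F hD' h𝒲' hF' hT₂
  rcases O₂.eq_empty_or_nonempty with rfl | ⟨T₂, hT₂'⟩
  · simp only [sum_empty]; positivity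
  have hhit : ∀ T ∈ O₂, HitSpec X F ((R T).A μ) ((R T).Q μ) := fun T hTO => by
    have h := ((hv T (hO₁ (hO₂ hTO))).1 μ hμ).hit
    rwa [hX' T (hO₂ hTO), (hT₂ T hTO).2] at h
  obtain ⟨A, hA⟩ : ∃ A, A = (R T₂).A μ := ⟨_, rfl⟩
  obtain ⟨Q, hQ⟩ : ∃ Q, Q = (R T₂).Q μ := ⟨_, rfl⟩
  have hAQ : ∀ T ∈ O₂, (R T).A μ = A ∧ (R T).Q μ = Q := fun T hTO => by
    rw [hA, hQ]
    exact (hhit T hTO).unique (hhit T₂ hT₂') (fun _ h _ => h) (fun _ h _ => h)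
  have hQc : (Q \ K').card ≤ k * F.card := by
    refine (card_le_card sdiff_subset).trans ?_
    rw [hQ]
    exact ((hhit T₂ hT₂').card_Q hXk).trans
      (Nat.mul_le_mul_left _ (card_le_card (hhit T₂ hT₂').1))
  obtain ⟨N, hN⟩ : ∃ N, N = ((G' \ (D ∪ W)) \ 𝒲) \ F := ⟨_, rfl⟩
  rw [← hN]
  refine (dx_query_pow h0 h1 O₂ (Q := Q \ K') sdiff_disjoint _
    ((1 / 2) ^ W.card * ((y * K₃ * K₂) ^ N.card * y ^ F.card)) y ?_).trans ?_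
  swap
  · have h3 : (1 + p * (y - 1)) ^ (Q \ K').card ≤ K₃ ^ F.card := by
      refine (pow_le_pow_right₀ hb3 hQc).trans ?_
      rw [pow_mul]
      exact pow_le_pow_left₀ (by positivity) hc.k3 _
    refine (mul_le_mul_of_nonneg_left h3 (by positivity)).trans (le_of_eq ?_)
    simp only [mul_pow]; ring
  intro Y hY O₃ hO₃ hY'
  have hsub : O₃ ⊆ O := hO₃.trans (hO₂.trans hO₁)
  have hnext : ∀ T ∈ O₃, (R T).T (μ + 1) = T \ (D ∪ W ∪ F ∪ Q) := fun T hTO => by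
    rw [(hv T (hsub hTO)).1.T_succ hμ, (hT T (hsub hTO)).2, (hT₁ T (hO₂ (hO₃ hTO))).2.1,
      (hT₂ T (hO₃ hTO)).2, (hAQ T (hO₃ hTO)).2]
    ext v; simp only [mem_sdiff, mem_union, mem_inter, notMem_empty] at *; tauto
  have h2 := cont O₃ hsub (K' ∪ Q \ K') (G' ∪ Y) (D ∪ W ∪ F ∪ Q)
    (by intro v; have := @hD' v; have := @hF' v; simp only [mem_sdiff, mem_union, mem_inter, notMem_empty] at *; tauto) (h𝒲'.trans subset_union_left)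
    (fun T hTO => ⟨dx_inter_union (hT₂ T (hO₃ hTO)).1 (hY' T hTO), hnext T hTO⟩)
    (by
      intro T hTO T' hTO' ν hν
      rcases Nat.lt_succ_iff_lt_or_eq.1 hν with h | rfl
      · exact hag T (hsub hTO) T' (hsub hTO') ν h
      · rw [(hT₁ T (hO₂ (hO₃ hTO))).2.1, (hT₁ T (hO₂ (hO₃ hTO))).2.2, (hAQ T (hO₃ hTO)).1,
          (hT₁ T' (hO₂ (hO₃ hTO'))).2.1, (hT₁ T' (hO₂ (hO₃ hTO'))).2.2, (hAQ T' (hO₃ hTO')).1]
        exact ⟨rfl, rfl, rfl⟩)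
  have e : ((G' ∪ Y) \ (D ∪ W ∪ F ∪ Q)) \ 𝒲 = N \ Q := by
    rw [hN]; ext v; have := @hY v; simp only [mem_sdiff, mem_union, mem_inter, notMem_empty] at *; tauto
  rw [e] at h2
  have hstep : ∀ T ∈ O₃, dxPot y 𝒲 ((R T).T μ) (Z T) ≤
      (1 / 2) ^ W.card * y ^ (F ∪ N ∩ Q ∪ Y).card * dxPot y 𝒲 ((R T).T (μ + 1)) (Z T) := by
    intro T hTO
    have v1 := (hv T (hsub hTO)).1
    have hWT : W ⊆ (R T).T μ := by
      rw [← (hT₁ T (hO₂ (hO₃ hTO))).2.1]; exact v1.W_sub hμ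
    refine dxPot_step hy (v1.T_anti (Nat.le_succ μ) hμ) (subset_inter hW𝒲 hWT) ?_ ?_
    · rw [hnext T hTO, disjoint_left]; intro v; simp only [mem_sdiff, mem_union, mem_inter, notMem_empty] at *; tauto
    · rw [hnext T hTO, (hT T (hsub hTO)).2, hN, ← (hT₂ T (hO₃ hTO)).1, ← hY' T hTO]
      intro v; have := @hW𝒲 v; simp only [mem_sdiff, mem_union, mem_inter, notMem_empty] at *; tauto
  have hcard : (F ∪ N ∩ Q ∪ Y).card ≤ F.card + (N ∩ Q).card + Y.card :=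
    (card_union_le _ _).trans (Nat.add_le_add_right (card_union_le _ _) _)
  have hNc : N.card = (N \ Q).card + (N ∩ Q).card := (card_sdiff_add_card_inter N Q).symm
  calc ∑ T ∈ O₃, pw p (K' ∪ Q \ K') T * dxPot y 𝒲 ((R T).T μ) (Z T)
      ≤ ∑ T ∈ O₃, ((1 / 2) ^ W.card * y ^ (F ∪ N ∩ Q ∪ Y).card) *
          (pw p (K' ∪ Q \ K') T * dxPot y 𝒲 ((R T).T (μ + 1)) (Z T)) := by
        refine sum_le_sum fun T hTO => ?_
        refine (mul_le_mul_of_nonneg_left (hstep T hTO) (pw_nonneg h0 h1 _ _)).trans (le_of_eq ?_)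
        ring
    _ ≤ ((1 / 2) ^ W.card * y ^ (F.card + (N ∩ Q).card + Y.card)) *
          (y * K₃ * K₂) ^ (N \ Q).card := by
        rw [← mul_sum]
        refine mul_le_mul (mul_le_mul_of_nonneg_left (pow_le_pow_right₀ hy hcard) (by positivity))
          h2 (sum_nonneg fun T _ => mul_nonneg (pw_nonneg h0 h1 _ _) (dxPot_nonneg hy _ _ _))
          (by positivity)
    _ = ((1 / 2) ^ W.card * (y * K₃ * K₂) ^ (N \ Q).card * y ^ F.card * y ^ Y.card) *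
          y ^ (N ∩ Q).card := by simp only [pow_add]; ring
    _ ≤ ((1 / 2) ^ W.card * (y * K₃ * K₂) ^ (N \ Q).card * y ^ F.card * y ^ Y.card) *
          (y * K₃ * K₂) ^ (N ∩ Q).card :=
        mul_le_mul_of_nonneg_left (pow_le_pow_left₀ (by linarith) hM _) (by positivity)
    _ = _ := by rw [hNc, pow_add]; ring

/-- One round. -/
theorem dx_round {p y K₂ K₃ : ℝ} {k : ℕ} (hc : XConst p k y K₂ K₃) {Φ : Finset (Pat V)}
    {x : V → Bool} {u b : ℕ} (hs : Sat Φ x) (hk : ∀ c ∈ Φ, (vars c).card ≤ k)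
    (R : Finset V → Rec V) (Z : Finset V → Finset V) (𝒲 𝒲i 𝒥i : Finset V) (h𝒲i : 𝒲i ⊆ 𝒲)
    (O : Finset (Finset V))
    (hv : ∀ T ∈ O, Valid Φ x u b (R T) b ∧ U (R T).W 0 b = 𝒲i ∧ U (R T).J 0 b = 𝒥i ∧
      ∀ μ < b, Disjoint ((R T).F μ) 𝒲)
    (cont : ∀ O' ⊆ O, ∀ K G D : Finset V, D ⊆ K → 𝒲 ⊆ K →
      (∀ T ∈ O', T ∩ K = G ∧ (R T).T b = T \ D) → DxAgree R O' b →
      ∑ T ∈ O', pw p K T * dxPot y 𝒲 ((R T).T b) (Z T) ≤ (y * K₃ * K₂) ^ ((G \ D) \ 𝒲).card)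
    (μ : ℕ) (hμ : μ ≤ b) : ∀ O' ⊆ O, ∀ K G D : Finset V, D ⊆ K → 𝒲 ⊆ K →
      (∀ T ∈ O', T ∩ K = G ∧ (R T).T μ = T \ D) → DxAgree R O' μ →
      ∑ T ∈ O', pw p K T * dxPot y 𝒲 ((R T).T μ) (Z T) ≤ (y * K₃ * K₂) ^ ((G \ D) \ 𝒲).card := by
  induction hμ using Nat.decreasingInduction with
  | self => exact cont
  | of_succ μ hμ ih =>
    intro O' hO' K G D hD h𝒲 hT hag
    exact dx_mini hc hμ hs hk R Z 𝒲 𝒲i 𝒥i h𝒲i O'
      (fun T hTO => ⟨(hv T (hO' hTO)).1, (hv T (hO' hTO)).2.1, (hv T (hO' hTO)).2.2.1,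
        (hv T (hO' hTO)).2.2.2 μ hμ⟩)
      (fun O'' hO'' => ih O'' (hO''.trans hO')) K G D hD h𝒲 hT hag

/-- All rounds. -/
theorem dx_all {p y K₂ K₃ : ℝ} {k : ℕ} (hc : XConst p k y K₂ K₃) (u b : ℕ → ℕ) (x : V → Bool)
    (τ : Finset V → Tr V) (𝒲 𝒥 : ℕ → Finset V) (𝒲' : Finset V) (i₀ s : ℕ) (hi : i₀ ≤ s) :
    ∀ (O : Finset (Finset V)) (Φ : Finset (Pat V)) (K G D : Finset V), D ⊆ K → 𝒲' ⊆ K →
      U 𝒲 i₀ s ⊆ 𝒲' →
      (∀ T ∈ O, TrValid u b k x s (τ T) ∧ (τ T).Φ s = Φ ∧ T ∩ K = G ∧ (τ T).T s = T \ D ∧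
        𝒲' ∩ (τ T).T s ⊆ U 𝒲 i₀ s ∧
        ∀ i, i₀ ≤ i → i < s → (τ T).Wr b i = 𝒲 i ∧ (τ T).Jr b i = 𝒥 i) →
      ∑ T ∈ O, pw p K T * dxPot y 𝒲' ((τ T).T s) ((τ T).T i₀)
        ≤ (y * K₃ * K₂) ^ ((G \ D) \ 𝒲').card := by
  have h0 := hc.p0
  have h1 := hc.p1
  have hy := hc.y1
  have hb3 : 1 ≤ 1 + p * (y - 1) := by nlinarith
  have hK₃ : 1 ≤ K₃ := (one_le_pow₀ hb3).trans hc.k3
  have hL : 1 ≤ y * K₃ := by nlinarith
  have hK₂ : 1 ≤ K₂ := (one_le_pow₀ (by nlinarith)).trans hc.k2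
  have hM : 1 ≤ y * K₃ * K₂ := by nlinarith
  induction s, hi using Nat.le_induction with
  | base =>
    intro O Φ K G D _ _ _ hT
    refine le_trans (sum_le_sum fun T _ => ?_)
      ((sum_pw_le h0 h1 O K G fun T hTO => (hT T hTO).2.2.1).trans (one_le_pow₀ hM))
    refine mul_le_of_le_one_right (pw_nonneg h0 h1 _ _) ?_
    simp only [dxPot, sdiff_self, bot_eq_empty, empty_sdiff, card_empty, pow_zero, mul_one]
    exact pow_le_one₀ (by norm_num) (by norm_num)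
  | succ s hi ih =>
    intro O Φ K G D hD h𝒲 hU hT
    rcases O.eq_empty_or_nonempty with rfl | ⟨T₀, hT₀⟩
    · simp only [sum_empty]; positivity
    have hlt := Nat.lt_succ_self s
    have hs : Sat Φ x := by rw [← (hT T₀ hT₀).2.1]; exact (hT T₀ hT₀).1.sat
    have hk : ∀ c ∈ Φ, (vars c).card ≤ k := by rw [← (hT T₀ hT₀).2.1]; exact (hT T₀ hT₀).1.wid
    rw [U_succ _ hi] at hU hT
    have hUT : ∀ T ∈ O, U 𝒲 i₀ s ⊆ (τ T).T s := fun T hTO => by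
      obtain ⟨t1, -, -, -, -, t6⟩ := hT T hTO
      rw [← U_congr (W := (τ T).Wr b) fun i h2 h3 => (t6 i h2 (by omega)).1]
      exact (t1.UWr_sub hi (Nat.le_succ s)).trans sdiff_subset
    have key := dx_round hc hs hk (fun T => (τ T).R s) (fun T => (τ T).T i₀) 𝒲' (𝒲 s) (𝒥 s)
      (subset_union_right.trans hU) O
      (fun T hTO => by
        obtain ⟨t1, t2, -, -, t5, t6⟩ := hT T hTO
        have v1 := t1.round s hlt
        rw [t2] at v1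
        refine ⟨v1, (t6 s hi hlt).1, (t6 s hi hlt).2, fun μ hμ => ?_⟩
        rw [disjoint_left]
        intro v hvF hv𝒲
        have h2 : v ∈ (τ T).T (s + 1) := by
          rw [← t1.start s hlt]
          exact (v1.F_time hμ (Nat.zero_le _) hvF).2 (Nat.zero_le _)
        rcases mem_union.1 (t5 (mem_inter.2 ⟨hv𝒲, h2⟩)) with h3 | h3
        · have h4 := hUT T hTO h3
          rw [t1.stop s hlt, v1.F_time hμ le_rfl hvF] at h4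
          omega
        · rw [← (t6 s hi hlt).1] at h3
          obtain ⟨ν, -, h5, h6⟩ := mem_U.1 h3
          exact v1.W_F h5 hμ h6 hvF)
      ?_ 0 (Nat.zero_le _) O (Subset.refl _) K G D hD h𝒲
      (fun T hTO => ⟨(hT T hTO).2.2.1, by
        rw [(hT T hTO).1.start s hlt]; exact (hT T hTO).2.2.2.1⟩)
      (fun _ _ _ _ ν hν => absurd hν (Nat.not_lt_zero ν))
    · refine le_trans (le_of_eq (sum_congr rfl fun T hTO => ?_)) key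
      rw [(hT T hTO).1.start s hlt]
    intro O' hO' K' G' D' hD' h𝒲' hT' hag
    rcases O'.eq_empty_or_nonempty with rfl | ⟨T₁, hT₁⟩
    · simp only [sum_empty]; positivity
    refine le_trans (le_of_eq (sum_congr rfl fun T hTO => ?_))
      (ih O' ((τ T₁).Φ s) K' G' D' hD' h𝒲' (subset_union_left.trans hU) fun T hTO => ?_)
    · rw [(hT T (hO' hTO)).1.stop s hlt]
    · obtain ⟨t1, t2, -, -, t5, t6⟩ := hT T (hO' hTO)
      refine ⟨t1.pred, ?_, (hT' T hTO).1, by rw [t1.stop s hlt]; exact (hT' T hTO).2, ?_,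
        fun i h2 h3 => t6 i h2 (by omega)⟩
      · rw [t1.next s hlt, (hT T₁ (hO' hT₁)).1.next s hlt, t2, (hT T₁ (hO' hT₁)).2.1]
        exact nextF_congr (fun ν h => (hag T hTO T₁ hT₁ ν h).1)
          (fun ν h => (hag T hTO T₁ hT₁ ν h).2.1) (fun ν h => (hag T hTO T₁ hT₁ ν h).2.2)
          fun _ _ => rfl
      · intro v hv
        have h2 := t1.T_succ hlt (mem_inter.1 hv).2
        rcases mem_union.1 (t5 (mem_inter.2 ⟨(mem_inter.1 hv).1, h2⟩)) with h3 | h3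
        · exact h3
        · rw [← (t6 s hi hlt).1] at h3
          exact ((mem_sdiff.1 (t1.Wr_sub hlt h3)).2 (mem_inter.1 hv).2).elim

/-- Supermartingale bound for the rounds `s-1, …, i₀` when `x`, the `W`-sets and `J`-sets of these
rounds are given. -/
theorem decX {p y K₂ K₃ : ℝ} {k : ℕ} (hc : XConst p k y K₂ K₃) (u b : ℕ → ℕ) (x : V → Bool)
    (τ : Finset V → Tr V) (𝒲 𝒥 : ℕ → Finset V) (i₀ s : ℕ) (hi : i₀ ≤ s)
    (O : Finset (Finset V)) (Φ : Finset (Pat V))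
    (hv : ∀ T ∈ O, TrValid u b k x s (τ T)) (hΦ : ∀ T ∈ O, (τ T).Φ s = Φ)
    (hT : ∀ T ∈ O, (τ T).T s = T)
    (hW : ∀ T ∈ O, ∀ i, i₀ ≤ i → i < s → (τ T).Wr b i = 𝒲 i ∧ (τ T).Jr b i = 𝒥 i) :
    ∑ T ∈ O, pw p (U 𝒲 i₀ s) T *
      ((1 / 2) ^ (U 𝒲 i₀ s).card * y ^ ((T \ (τ T).T i₀) \ U 𝒲 i₀ s).card) ≤ 1 := by
  have hsub : ∀ T ∈ O, U 𝒲 i₀ s ⊆ T := fun T hTO => by
    rw [← U_congr (W := (τ T).Wr b) fun i h2 h3 => (hW T hTO i h2 h3).1]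
    refine ((hv T hTO).UWr_sub hi le_rfl).trans ?_
    rw [hT T hTO]
    exact sdiff_subset
  have h := dx_all hc u b x τ 𝒲 𝒥 (U 𝒲 i₀ s) i₀ s hi O Φ (U 𝒲 i₀ s) (U 𝒲 i₀ s) ∅
    (empty_subset _) (Subset.refl _) (Subset.refl _) fun T hTO =>
      ⟨hv T hTO, hΦ T hTO, inter_eq_right.2 (hsub T hTO), by rw [hT T hTO, sdiff_empty],
        inter_subset_left, hW T hTO⟩
  rw [sdiff_empty, sdiff_self, bot_eq_empty, card_empty, pow_zero] at h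
  refine le_trans (le_of_eq (sum_congr rfl fun T hTO => ?_)) h
  rw [dxPot, hT T hTO, inter_eq_left.2 (hsub T hTO)]

end Crest.Agent.R291
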