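import Crest.Agent.R291.Sim
import Crest.Agent.R291.Weights

/-!
# Row 291: the phases of decoder (X)

Every phase is written in continuation passing style: `K` is the set of known coordinates,
`G = T ∩ K`, `D ⊆ K` the removed coordinates, and the right hand side is the current credit.
-/

set_option autoImplicit false
set_option linter.unusedSectionVars false

namespace Crest.Agent.R291

open Finset

section query
variable {V : Type} [Fintype V] [DecidableEq V] {p : ℝ}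

theorem dx_query (h0 : 0 ≤ p) (h1 : p ≤ 1) (O : Finset (Finset V)) {K Q : Finset V}
    (hQ : Disjoint Q K) (f c : Finset V → ℝ)
    (hnext : ∀ Y ⊆ Q, ∀ O' ⊆ O, (∀ T ∈ O', T ∩ Q = Y) → ∑ T ∈ O', pw p (K ∪ Q) T * f T ≤ c Y) :
    ∑ T ∈ O, pw p K T * f T ≤ ∑ Y ∈ Q.powerset, qw p Q Y * c Y := by
  rw [← sum_fiberwise_of_maps_to (s := O) (t := Q.powerset) (g := fun T => T ∩ Q)
    (fun T _ => mem_powerset.2 inter_subset_right)]
  refine sum_le_sum fun Y hY => ?_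
  have h := hnext Y (mem_powerset.1 hY) (O.filter fun T => T ∩ Q = Y) (filter_subset _ _)
    fun T hT => (mem_filter.1 hT).2
  refine le_trans (le_of_eq ?_) (mul_le_mul_of_nonneg_left h (qw_nonneg h0 h1 Q Y))
  rw [mul_sum]
  refine sum_congr rfl fun T hT => ?_
  rw [pw_split p hQ T, (mem_filter.1 hT).2, mul_assoc]

theorem dx_query_pow (h0 : 0 ≤ p) (h1 : p ≤ 1) (O : Finset (Finset V)) {K Q : Finset V}
    (hQ : Disjoint Q K) (f : Finset V → ℝ) (a z : ℝ)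
    (hnext : ∀ Y ⊆ Q, ∀ O' ⊆ O, (∀ T ∈ O', T ∩ Q = Y) →
      ∑ T ∈ O', pw p (K ∪ Q) T * f T ≤ a * z ^ Y.card) :
    ∑ T ∈ O, pw p K T * f T ≤ a * (1 + p * (z - 1)) ^ Q.card := by
  refine (dx_query h0 h1 O hQ f _ hnext).trans (le_of_eq ?_)
  rw [← sum_qw_pow, mul_sum]
  exact sum_congr rfl fun Y _ => by ring

theorem dx_query_half (h0 : 0 ≤ p) (h1 : p ≤ 1) (O : Finset (Finset V)) {K Q : Finset V}
    (hQ : Disjoint Q K) (f : Finset V → ℝ) {a z : ℝ} (ha : 0 ≤ a)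
    (hz : (1 + p * (z - 1)) ^ Q.card - (1 - p) ^ Q.card / 2 ≤ 1)
    (hnext0 : ∀ O' ⊆ O, (∀ T ∈ O', T ∩ Q = ∅) → ∑ T ∈ O', pw p (K ∪ Q) T * f T ≤ a / 2)
    (hnext : ∀ Y ⊆ Q, Y.Nonempty → ∀ O' ⊆ O, (∀ T ∈ O', T ∩ Q = Y) →
      ∑ T ∈ O', pw p (K ∪ Q) T * f T ≤ a * z ^ Y.card) :
    ∑ T ∈ O, pw p K T * f T ≤ a := by
  refine (dx_query h0 h1 O hQ f (fun Y => a * z ^ Y.card - if Y = ∅ then a / 2 else 0) ?_).trans ?_
  · intro Y hY O' hO' h
    by_cases hY0 : Y = ∅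
    · subst hY0
      have := hnext0 O' hO' h
      simp only [card_empty, pow_zero, if_true]
      linarith
    · simpa [hY0] using hnext Y hY (nonempty_iff_ne_empty.2 hY0) O' hO' h
  · simp only [mul_sub, sum_sub_distrib, mul_ite, mul_zero, sum_ite_eq', mem_powerset,
      empty_subset, if_true, qw_empty]
    have e : ∑ Y ∈ Q.powerset, qw p Q Y * (a * z ^ Y.card) = a * (1 + p * (z - 1)) ^ Q.card := by
      rw [← sum_qw_pow, mul_sum]
      exact sum_congr rfl fun Y _ => by ring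
    rw [e]
    nlinarith [mul_le_mul_of_nonneg_left hz ha]

theorem dx_inter_union {T K Q G Y : Finset V} (h1 : T ∩ K = G) (h2 : T ∩ Q = Y) :
    T ∩ (K ∪ Q) = G ∪ Y := by rw [inter_union_distrib_left, h1, h2]

end query

variable {V : Type} [Fintype V] [LinearOrder V]

theorem Chain.dx_inv {C : Ctx V} {x : V → Bool} {Wc Jc Ec Wf Jf Ef : Finset V}
    (h : Chain C x Wc Jc Ec Wf Jf Ef) :
    (Wf = Wc ∧ Jf = Jc ∧ ∀ c, ¬ Cand C x Wc Jc c) ∨ ∃ c, First (Cand C x Wc Jc) c ∧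
      Chain C x (Wc ∪ vars c ∩ C.T) (Jc ∪ dis c x) (Ec ∪ vars c ∩ C.SA 0) Wf Jf Ef := by
  cases h with
  | done h => exact Or.inl ⟨rfl, rfl, h⟩
  | step c h1 h2 => exact Or.inr ⟨c, h1, h2⟩

theorem Greedy.dx_inv {X : Pat V → Prop} {T Fc Ff : Finset V} (h : Greedy X T Fc Ff) :
    (Ff = Fc ∧ ∀ c, X c → ¬ Disjoint (vars c) Fc) ∨
      ∃ c, First (fun d => X d ∧ Disjoint (vars d) Fc) c ∧ Greedy X T (Fc ∪ vars c ∩ T) Ff := by
  cases h with
  | done h => exact Or.inl ⟨rfl, h⟩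
  | step c h1 h2 => exact Or.inr ⟨c, h1, h2⟩

theorem dx_card_lt {s t : Finset V} (h : s ⊆ t) {v : V} (hv : v ∈ t) (hv' : v ∉ s) :
    (univ \ t).card < (univ \ s).card :=
  card_lt_card ⟨sdiff_subset_sdiff (Subset.refl _) h, fun h' => by
    have := @h' v; grind⟩

/-- The chain phase. -/
theorem dx_chain {p M : ℝ} {k : ℕ} (h0 : 0 ≤ p) (h1 : p ≤ 1) (hM : 0 ≤ M)
    (hk1 : ∀ j ≤ k, (1 + p * (M - 1)) ^ j - (1 - p) ^ j / 2 ≤ 1)
    {Φ : Finset (Pat V)} {x : V → Bool} {u b μ : ℕ} (hμ : μ < b) (hs : Sat Φ x)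
    (hk : ∀ c ∈ Φ, (vars c).card ≤ k) (R : Finset V → Rec V) (𝒲 D 𝒲r 𝒥r SA : Finset V)
    (h𝒲r : 𝒲r ⊆ 𝒲) (f : Finset V → ℝ) (O₀ : Finset (Finset V))
    (hv : ∀ T ∈ O₀, Valid Φ x u b (R T) b ∧ (R T).T μ = T \ D ∧ U (R T).W μ b = 𝒲r ∧
      U (R T).J μ b = 𝒥r ∧ U (R T).A 0 μ = SA)
    (cont : ∀ O ⊆ O₀, ∀ K G W J : Finset V, D ⊆ K → 𝒲 ⊆ K →
      (∀ T ∈ O, T ∩ K = G ∧ (R T).W μ = W ∧ (R T).J μ = J) →
      ∑ T ∈ O, pw p K T * f T ≤ (1 / 2) ^ W.card * M ^ ((G \ D) \ 𝒲).card)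
    (n : ℕ) : ∀ O ⊆ O₀, ∀ K G Wc Jc : Finset V, (univ \ K).card + (univ \ Wc).card < n →
      D ⊆ K → 𝒲 ⊆ K → Jc ⊆ Wc →
      (∀ T ∈ O, T ∩ K = G ∧ ∃ Ec,
        Chain ((R T).ctx Φ u b μ) x Wc Jc Ec ((R T).W μ) ((R T).J μ) ((R T).E μ)) →
      ∑ T ∈ O, pw p K T * f T ≤ (1 / 2) ^ Wc.card * M ^ ((G \ D) \ 𝒲).card := by
  induction n with
  | zero => intro O _ K G Wc Jc hn; omega
  | succ n ih =>
  intro O hO K G Wc Jc hn hD h𝒲 hJc hT
  let Obj : Pat V → Prop := fun c => c ∈ Φ ∧ Fals c (flip x 𝒥r) ∧ Disjoint (vars c) Wc ∧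
    (vars c ∩ SA).card ≤ b ∧ Disjoint (vars c) ((G \ D) \ 𝒲r)
  -- the next member is an object
  have hmem : ∀ T ∈ O, ∀ c Ec, Cand ((R T).ctx Φ u b μ) x Wc Jc c →
      Chain ((R T).ctx Φ u b μ) x (Wc ∪ vars c ∩ (R T).T μ) (Jc ∪ dis c x)
        (Ec ∪ vars c ∩ U (R T).A 0 μ) ((R T).W μ) ((R T).J μ) ((R T).E μ) →
      Obj c ∧ (vars c ∩ (R T).T μ).Nonempty := by
    intro T hTO c Ec hc hch
    obtain ⟨v1, v2, v3, v4, v5⟩ := hv T (hO hTO)
    obtain ⟨m1, m2, m3, m4, -, m6, m7, -⟩ :=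
      v1.member hμ hJc (empty_subset _) hc hch
    rw [union_empty, v4] at m2
    rw [v5] at m6
    refine ⟨⟨m1, m2, m3, m6, ?_⟩, card_pos.1 (by omega)⟩
    rw [disjoint_left]
    intro v hv1 hv2
    have h3 := subset_U (R T).W (le_refl μ) hμ
    rw [v3] at h3
    have := @m4 v; have := @h3 v
    have h4 : v ∈ G → v ∈ T := fun h => by
      rw [← (hT T hTO).1] at h; exact (mem_inter.1 h).1
    rw [v2] at *
    grind
  by_cases hex : ∃ c, Obj c
  swap
  · refine cont O hO K G Wc Jc hD h𝒲 fun T hTO => ⟨(hT T hTO).1, ?_⟩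
    obtain ⟨Ec, hch⟩ := (hT T hTO).2
    rcases hch.dx_inv with h | ⟨c, hc, hch'⟩
    · exact ⟨h.1, h.2.1⟩
    · exact (hex ⟨c, (hmem T hTO c Ec hc.1 hch').1⟩).elim
  obtain ⟨c, hc⟩ := exists_first hex
  obtain ⟨o1, o2, o3, o4, o5⟩ := hc.1
  have hcard : (vars c \ K).card ≤ k := (card_le_card sdiff_subset).trans (hk c o1)
  refine dx_query_half h0 h1 O (Q := vars c \ K) sdiff_disjoint f (by positivity)
    (hk1 _ hcard) ?_ ?_
  · intro O' hO' hY
    rcases O'.eq_empty_or_nonempty with rfl | ⟨T₀, hT₀⟩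
    · simp only [sum_empty]; positivity
    have key : ∀ T ∈ O', vars c ∩ (R T).T μ = vars c ∩ (G \ D) ∧ (vars c ∩ (G \ D)).Nonempty ∧
        dis c x ⊆ vars c ∩ (G \ D) ∧
        ∃ Ec, Chain ((R T).ctx Φ u b μ) x (Wc ∪ vars c ∩ (G \ D)) (Jc ∪ dis c x) Ec
          ((R T).W μ) ((R T).J μ) ((R T).E μ) := by
      intro T hTO'
      have hTO := hO' hTO'
      obtain ⟨v1, v2, v3, v4, v5⟩ := hv T (hO hTO)
      obtain ⟨hG, Ec, hch⟩ := hT T hTO
      have e : vars c ∩ (R T).T μ = vars c ∩ (G \ D) := by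
        ext v
        have h3 : v ∈ T ∩ (vars c \ K) ↔ v ∈ (∅ : Finset V) := by rw [hY T hTO']
        rw [v2, ← hG]
        have := @hD v
        grind
      have hcand : Cand ((R T).ctx Φ u b μ) x Wc Jc c := by
        have hdA : Disjoint (vars c) (U (R T).A μ b) := by
          rw [disjoint_left]
          intro v hv1 hv2
          have h3 := v1.UA_sub le_rfl hμ.le hv2
          have h4 := dj (v1.UW_UA (a := μ) (a' := μ) le_rfl le_rfl) v
          have h5 : v ∈ vars c ∩ (R T).T μ ↔ v ∈ vars c ∩ (G \ D) := by rw [e]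
          have h6 := dj o5 v
          rw [v3] at h4
          grind
        rcases v1.obj hμ hch.W_sub hJc (fun v hv => hch.J_iff hv) (empty_subset _) o1
          (by rw [union_empty, v4]; exact o2) o3 hdA (by rw [v5]; exact o4) with h | ⟨d, hd, hf, -⟩
        · exact h
        · rw [flip_empty] at hf
          exact (v1.sat_next hs d hd hf).elim
      rcases hch.dx_inv with h | ⟨c', hc', hch'⟩
      · exact (h.2.2 c hcand).elim
      · obtain ⟨h3, h4⟩ := hmem T hTO c' Ec hc'.1 hch'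
        obtain rfl : c = c' := hc.eq_of hc' hcand h3
        have h5 : dis c x ⊆ vars c ∩ (R T).T μ := hcand.dis_subset.trans sdiff_subset
        change Chain _ x (Wc ∪ vars c ∩ (R T).T μ) _ _ _ _ _ at hch'
        rw [e] at h4 h5 hch'
        exact ⟨e, h4, h5, _, hch'⟩
    obtain ⟨-, ⟨v, hv⟩, hdis, -⟩ := key T₀ hT₀
    have hvW : v ∉ Wc := dj o3 v (mem_inter.1 hv).1
    have h2 := ih O' (hO'.trans hO) (K ∪ vars c \ K) G (Wc ∪ vars c ∩ (G \ D)) (Jc ∪ dis c x)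
      (by
        have h3 := dx_card_lt (subset_union_left : Wc ⊆ Wc ∪ vars c ∩ (G \ D))
          (mem_union_right _ hv) hvW
        have h4 : (univ \ (K ∪ vars c \ K)).card ≤ (univ \ K).card :=
          card_le_card (sdiff_subset_sdiff (Subset.refl _) subset_union_left)
        omega)
      (hD.trans subset_union_left) (h𝒲.trans subset_union_left) (union_subset_union hJc hdis)
      (fun T hTO' => ⟨by rw [dx_inter_union (hT T (hO' hTO')).1 (hY T hTO'), union_empty],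
        (key T hTO').2.2.2⟩)
    refine h2.trans ?_
    have h3 : Wc.card + 1 ≤ (Wc ∪ vars c ∩ (G \ D)).card :=
      card_lt_card ⟨subset_union_left, fun h => hvW (h (mem_union_right _ hv))⟩
    have h4 : (1 / 2 : ℝ) ^ (Wc ∪ vars c ∩ (G \ D)).card ≤ (1 / 2) ^ (Wc.card + 1) :=
      pow_le_pow_of_le_one (by norm_num) (by norm_num) h3
    rw [pow_succ] at h4
    nlinarith [mul_le_mul_of_nonneg_right h4 (pow_nonneg hM ((G \ D) \ 𝒲).card)]
  · intro Y hY ⟨v, hv⟩ O' hO' hY'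
    rcases O'.eq_empty_or_nonempty with rfl | ⟨T₀, hT₀⟩
    · simp only [sum_empty]; positivity
    have hGK : G ⊆ K := by rw [← (hT T₀ (hO' hT₀)).1]; exact inter_subset_right
    have h2 := ih O' (hO'.trans hO) (K ∪ vars c \ K) (G ∪ Y) Wc Jc
      (by
        have h3 := dx_card_lt (subset_union_left : K ⊆ K ∪ vars c \ K)
          (mem_union_right _ (hY hv)) (mem_sdiff.1 (hY hv)).2
        omega)
      (hD.trans subset_union_left) (h𝒲.trans subset_union_left) hJc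
      (fun T hTO' => ⟨dx_inter_union (hT T (hO' hTO')).1 (hY' T hTO'), (hT T (hO' hTO')).2⟩)
    refine h2.trans (le_of_eq ?_)
    have e : ((G ∪ Y) \ D) \ 𝒲 = ((G \ D) \ 𝒲) ∪ Y := by
      ext w
      have := @hY w; have := @hD w; have := @h𝒲 w
      grind
    rw [e, card_union_of_disjoint, pow_add, mul_assoc]
    rw [disjoint_left]
    intro w hw hw'
    have := @hY w; have := @hGK w
    grind

/-- The greedy phase. -/
theorem dx_greedy {p L K₂ : ℝ} {k : ℕ} (h0 : 0 ≤ p) (h1 : p ≤ 1) (hL : 1 ≤ L) (hK₂ : 1 ≤ K₂)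
    (hk2 : (1 + p * (L - 1)) ^ k ≤ K₂)
    (hk1 : ∀ j ≤ k, (1 + p * (L * K₂ - 1)) ^ j - (1 - p) ^ j / 2 ≤ 1)
    (X : Pat V → Prop) (hX : ∀ c, X c → (vars c).card ≤ k) (𝒲 D : Finset V)
    (F : Finset V → Finset V) (f : Finset V → ℝ) {a : ℝ} (ha : 0 ≤ a) (O₀ : Finset (Finset V))
    (hv : ∀ T ∈ O₀, Disjoint (F T) 𝒲 ∧ ∀ c, X c → (vars c ∩ (T \ D)).Nonempty)
    (cont : ∀ O ⊆ O₀, ∀ K G Ff : Finset V, D ⊆ K → 𝒲 ⊆ K → Ff ⊆ K →
      (∀ T ∈ O, T ∩ K = G ∧ F T = Ff) →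
      ∑ T ∈ O, pw p K T * f T ≤ a * ((L * K₂) ^ (((G \ D) \ 𝒲) \ Ff).card * L ^ Ff.card))
    (n : ℕ) : ∀ O ⊆ O₀, ∀ K G Fc : Finset V, (univ \ Fc).card < n → D ⊆ K → 𝒲 ⊆ K → Fc ⊆ K →
      (∀ T ∈ O, T ∩ K = G ∧ Greedy X (T \ D) Fc (F T)) →
      ∑ T ∈ O, pw p K T * f T ≤ a * ((L * K₂) ^ (((G \ D) \ 𝒲) \ Fc).card * L ^ Fc.card) := by
  have hL0 : 0 ≤ L := by linarith
  have hK0 : 0 < K₂ := by linarith
  induction n with
  | zero => intro O _ K G Fc hn; omega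
  | succ n ih =>
  intro O hO K G Fc hn hD h𝒲 hF hT
  by_cases hex : ∃ c, X c ∧ Disjoint (vars c) Fc
  swap
  · refine cont O hO K G Fc hD h𝒲 hF fun T hTO => ⟨(hT T hTO).1, ?_⟩
    rcases (hT T hTO).2.dx_inv with h | ⟨c, hc, -⟩
    · exact h.1
    · exact (hex ⟨c, hc.1⟩).elim
  obtain ⟨c, hc⟩ := exists_first hex
  have hcard : (vars c \ K).card ≤ k := (card_le_card sdiff_subset).trans (hX c hc.1.1)
  obtain ⟨Kn, hKn⟩ : ∃ Kn, Kn = vars c ∩ (G \ D) := ⟨_, rfl⟩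
  obtain ⟨m, hm⟩ : ∃ m, m = (((G \ D) \ 𝒲) \ Fc).card := ⟨_, rfl⟩
  -- the bound after the query
  have main : ∀ Y ⊆ vars c \ K, ∀ O' ⊆ O, (∀ T ∈ O', T ∩ (vars c \ K) = Y) → O'.Nonempty →
      (Kn ∪ Y).Nonempty ∧ ∃ m', m = m' + Kn.card ∧
      ∑ T ∈ O', pw p (K ∪ vars c \ K) T * f T
        ≤ a * ((L * K₂) ^ m' * L ^ (Fc.card + Kn.card + Y.card)) := by
    intro Y hY O' hO' hY' ⟨T₀, hT₀⟩
    have key : ∀ T ∈ O', vars c ∩ (T \ D) = Kn ∪ Y ∧ Greedy X (T \ D) (Fc ∪ (Kn ∪ Y)) (F T) := by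
      intro T hTO'
      obtain ⟨hG, hg⟩ := hT T (hO' hTO')
      have e : vars c ∩ (T \ D) = Kn ∪ Y := by
        ext v
        have h3 : v ∈ T ∩ (vars c \ K) ↔ v ∈ Y := by rw [hY' T hTO']
        rw [hKn, ← hG]
        have := @hD v
        grind
      rcases hg.dx_inv with h | ⟨c', hc', hg'⟩
      · exact (h.2 c hc.1.1 hc.1.2).elim
      · obtain rfl : c = c' := hc.eq_of hc' hc.1 hc'.1
        rw [e] at hg'
        exact ⟨e, hg'⟩
    obtain ⟨e0, g0⟩ := key T₀ hT₀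
    obtain ⟨w0, n0⟩ := hv T₀ (hO (hO' hT₀))
    have hne : (Kn ∪ Y).Nonempty := e0 ▸ n0 c hc.1.1
    have hGK : G ⊆ K := by rw [← (hT T₀ (hO' hT₀)).1]; exact inter_subset_right
    have hsub : Kn ⊆ ((G \ D) \ 𝒲) \ Fc := by
      intro v hv
      have := @g0.sub _ _ _ _ _ _ _ v; have := dj w0 v; have := dj hc.1.2 v
      rw [hKn] at hv
      have : v ∈ Kn := by rw [hKn]; exact hv
      grind
    have hdis : Disjoint (vars c) Fc := hc.1.2
    have hKv : Kn ⊆ vars c ∩ K := by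
      rw [hKn]; exact inter_subset_inter_left (sdiff_subset.trans hGK)
    refine ⟨hne, ((((G \ D) \ 𝒲) \ Fc) \ Kn).card, by rw [hm, card_sdiff_add_card_eq_card hsub], ?_⟩
    obtain ⟨v, hv⟩ := hne
    have h2 := ih O' (hO'.trans hO) (K ∪ vars c \ K) (G ∪ Y) (Fc ∪ (Kn ∪ Y))
      (by
        have h3 := dx_card_lt (subset_union_left : Fc ⊆ Fc ∪ (Kn ∪ Y)) (mem_union_right _ hv)
          (by have := dj hdis v; have := @hKv v; have := @hY v; grind)
        omega)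
      (hD.trans subset_union_left) (h𝒲.trans subset_union_left)
      (by intro w; have := @hF w; have := @hKv w; have := @hY w; grind)
      (fun T hTO' => ⟨dx_inter_union (hT T (hO' hTO')).1 (hY' T hTO'), (key T hTO').2⟩)
    refine h2.trans (le_of_eq ?_)
    have e1 : (((G ∪ Y) \ D) \ 𝒲) \ (Fc ∪ (Kn ∪ Y)) = (((G \ D) \ 𝒲) \ Fc) \ Kn := by
      ext w
      have := @hY w; have := @hGK w
      grind
    have e2 : (Fc ∪ (Kn ∪ Y)).card = Fc.card + Kn.card + Y.card := by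
      rw [card_union_of_disjoint, card_union_of_disjoint, add_assoc]
      · rw [disjoint_left]; intro w; have := @hKv w; have := @hY w; grind
      · rw [disjoint_left]; intro w; have := @hKv w; have := @hY w; have := dj hdis w; grind
    rw [e1, e2]
  rw [← hm]
  have hA : 0 ≤ a * ((L * K₂) ^ m * L ^ Fc.card) := by positivity
  rcases Kn.eq_empty_or_nonempty with hK | hK
  · refine dx_query_half h0 h1 O (Q := vars c \ K) sdiff_disjoint f hA (hk1 _ hcard) ?_ ?_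
    · intro O' hO' hY
      rcases O'.eq_empty_or_nonempty with rfl | hne
      · simp only [sum_empty]; positivity
      · have := (main ∅ (empty_subset _) O' hO' hY hne).1
        simp [hK] at this
    · intro Y hY _ O' hO' hY'
      rcases O'.eq_empty_or_nonempty with rfl | hne
      · simp only [sum_empty]; positivity
      obtain ⟨-, m', e, h⟩ := main Y hY O' hO' hY' hne
      rw [hK, card_empty, add_zero] at e h
      refine h.trans ?_
      rw [e, pow_add, ← mul_assoc ((L * K₂) ^ m'), ← mul_assoc a]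
      refine mul_le_mul_of_nonneg_left (pow_le_pow_left₀ hL0 ?_ _) (by positivity)
      nlinarith
  · refine (dx_query_pow h0 h1 O (Q := vars c \ K) sdiff_disjoint f
      (a * ((L * K₂) ^ m * L ^ Fc.card) / K₂) L ?_).trans ?_
    · intro Y hY O' hO' hY'
      rcases O'.eq_empty_or_nonempty with rfl | hne
      · simp only [sum_empty]; positivity
      obtain ⟨-, m', e, h⟩ := main Y hY O' hO' hY' hne
      refine h.trans ?_
      have h3 : K₂ ≤ K₂ ^ Kn.card := le_self_pow₀ hK₂ (card_pos.2 hK).ne'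
      rw [div_mul_eq_mul_div, le_div_iff₀ hK0, e]
      calc a * ((L * K₂) ^ m' * L ^ (Fc.card + Kn.card + Y.card)) * K₂
          ≤ a * ((L * K₂) ^ m' * L ^ (Fc.card + Kn.card + Y.card)) * K₂ ^ Kn.card :=
            mul_le_mul_of_nonneg_left h3 (by positivity)
        _ = _ := by simp only [pow_add, mul_pow]; ring
    · have h3 : (1 + p * (L - 1)) ^ (vars c \ K).card ≤ K₂ :=
        (pow_le_pow_right₀ (by nlinarith) hcard).trans hk2
      rw [div_mul_eq_mul_div, div_le_iff₀ hK0]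
      exact mul_le_mul_of_nonneg_left h3 hA

end Crest.Agent.R291
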