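import Crest.Agent.R291.Basic

/-!
# Row 291: the revealing process (definitions)

A *round* has parameters `u, b` and consists of `b` mini-rounds `μ = 0, …, b-1`.  In mini-round `μ`
a chain of *members* is taken (`Chain`), then the clauses in `X` are hit (`Greedy`, `HitSpec`).
-/

set_option autoImplicit false
set_option linter.unusedSectionVars false

namespace Crest.Agent.R291

open Finset

/-- The data visible at the start of mini-round `μ`: formula `Φ`, free set `T`, and the suffix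
unions `SW m = ⋃_{m ≤ ν < μ} W ν` etc. -/
structure Ctx (V : Type) where
  Φ : Finset (Pat V)
  u : ℕ
  b : ℕ
  μ : ℕ
  T : Finset V
  SW : ℕ → Finset V
  SJ : ℕ → Finset V
  SA : ℕ → Finset V

/-- The record of one round. `T μ` is the free set at the start of mini-round `μ`. -/
structure Rec (V : Type) where
  T : ℕ → Finset V
  W : ℕ → Finset V
  J : ℕ → Finset V
  E : ℕ → Finset V
  F : ℕ → Finset V
  A : ℕ → Finset V
  Q : ℕ → Finset V

/-- The record of all rounds. Round `i` turns `(Φ (i+1), T (i+1))` into `(Φ i, T i)`. -/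
structure Tr (V : Type) where
  Φ : ℕ → Finset (Pat V)
  T : ℕ → Finset V
  R : ℕ → Rec V

variable {V : Type} [Fintype V] [LinearOrder V]

/-- `(c', m)` is a witness against `c` when the current mini-round has taken `Wc, Jc`. -/
def Wit (C : Ctx V) (x : V → Bool) (Wc Jc : Finset V) (c c' : Pat V) (m : ℕ) : Prop :=
  m ≤ C.μ ∧ c' ∈ C.Φ ∧ (∀ v, v ∉ C.T \ Wc → Ag c' (flip x (C.SJ m ∪ Jc)) v) ∧
    (∀ v ∈ C.T \ Wc, c' v = none ∨ c' v = c v) ∧ Disjoint (vars c') (C.SA m) ∧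
    (vars c' ∩ (C.SW m ∪ C.T)).card ≤ C.u

/-- `c` is a candidate member. -/
def Cand (C : Ctx V) (x : V → Bool) (Wc Jc : Finset V) (c : Pat V) : Prop :=
  c ∈ C.Φ ∧ (∀ v, v ∉ C.T → Ag c x v) ∧ Disjoint (vars c) Wc ∧
    (vars c ∩ C.SA 0).card ≤ C.b ∧ ∀ c' m, ¬ Wit C x Wc Jc c c' m

/-- From the partial state `(Wc, Jc, Ec)` the chain of members ends at `(Wf, Jf, Ef)`. -/
inductive Chain (C : Ctx V) (x : V → Bool) :
    Finset V → Finset V → Finset V → Finset V → Finset V → Finset V → Prop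
  | done {Wc Jc Ec : Finset V} : (∀ c, ¬ Cand C x Wc Jc c) → Chain C x Wc Jc Ec Wc Jc Ec
  | step {Wc Jc Ec Wf Jf Ef : Finset V} (c : Pat V) : First (Cand C x Wc Jc) c →
      Chain C x (Wc ∪ vars c ∩ C.T) (Jc ∪ dis c x) (Ec ∪ vars c ∩ C.SA 0) Wf Jf Ef →
      Chain C x Wc Jc Ec Wf Jf Ef

/-- The clauses that must be hit at the end of the mini-round. -/
def InX (C : Ctx V) (x : V → Bool) (Wc Jc : Finset V) (c : Pat V) : Prop :=
  c ∈ C.Φ ∧ ∃ m, m ≤ C.μ ∧ Fals c (flip x (C.SJ m ∪ Jc)) ∧ Disjoint (vars c) (C.SA m) ∧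
    (vars c ∩ (C.SW m ∪ Wc)).card ≤ C.u

/-- Greedy union of traces on `T` of clauses in `X`. -/
inductive Greedy (X : Pat V → Prop) (T : Finset V) : Finset V → Finset V → Prop
  | done {Fc : Finset V} : (∀ c, X c → ¬ Disjoint (vars c) Fc) → Greedy X T Fc Fc
  | step {Fc Ff : Finset V} (c : Pat V) : First (fun d => X d ∧ Disjoint (vars d) Fc) c →
      Greedy X T (Fc ∪ vars c ∩ T) Ff → Greedy X T Fc Ff

/-- The set that the private witness of `e` avoids (reverse-delete order). -/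
def guard (A F : Finset V) (e : V) : Finset V :=
  A.filter (fun v => e < v) ∪ F.filter (fun v => v < e)

@[grind =] theorem mem_guard {A F : Finset V} {e v : V} :
    v ∈ guard A F e ↔ (v ∈ A ∧ e < v) ∨ (v ∈ F ∧ v < e) := by
  simp [guard]

/-- `A ⊆ F` is the reverse-delete minimal hitting set of `X` and `Q` the union of the variables of
the private witnesses. -/
def HitSpec (X : Pat V → Prop) (F A Q : Finset V) : Prop :=
  A ⊆ F ∧ (∀ c, X c → ¬ Disjoint (vars c) A) ∧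
    ∃ wit : V → Pat V, (∀ e ∈ A, First (fun d => X d ∧ Disjoint (vars d) (guard A F e)) (wit e)) ∧
      Q = A.biUnion fun e => vars (wit e)

/-- One mini-round. -/
structure Mini (C : Ctx V) (x : V → Bool) (W J E F A Q T' : Finset V) : Prop where
  chain : Chain C x ∅ ∅ ∅ W J E
  greedy : Greedy (InX C x W J) (C.T \ W) ∅ F
  hit : HitSpec (InX C x W J) F A Q
  next : T' = C.T \ (W ∪ F ∪ Q)

/-- The context of mini-round `μ` read off a record. -/
def Rec.ctx (R : Rec V) (Φ : Finset (Pat V)) (u b μ : ℕ) : Ctx V :=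
  ⟨Φ, u, b, μ, R.T μ, fun m => U R.W m μ, fun m => U R.J m μ, fun m => U R.A m μ⟩

/-- The first `j` mini-rounds of the record are correct. -/
def Valid (Φ : Finset (Pat V)) (x : V → Bool) (u b : ℕ) (R : Rec V) (j : ℕ) : Prop :=
  ∀ μ < j, Mini (R.ctx Φ u b μ) x (R.W μ) (R.J μ) (R.E μ) (R.F μ) (R.A μ) (R.Q μ) (R.T (μ + 1))

/-- `c` produces a derived clause through the interval `[m₁, m₂)`. -/
def Der (x : V → Bool) (u b : ℕ) (W J A : ℕ → Finset V) (c : Pat V) (m₁ m₂ : ℕ) : Prop :=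
  m₂ ≤ b ∧ (∀ v ∈ U W 0 b, Ag c (flip x (U J m₁ m₂)) v) ∧ Disjoint (vars c) (U A m₁ m₂) ∧
    (vars c ∩ U W m₁ m₂).card ≤ u

open Classical in
/-- The formula of the next round. -/
noncomputable def nextF (Φ : Finset (Pat V)) (x : V → Bool) (u b : ℕ) (W J A : ℕ → Finset V) :
    Finset (Pat V) :=
  (Φ.filter fun c => ∃ m₁ m₂, Der x u b W J A c m₁ m₂).image fun c => erase c (U W 0 b)

theorem mem_nextF {Φ : Finset (Pat V)} {x : V → Bool} {u b : ℕ} {W J A : ℕ → Finset V}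
    {d : Pat V} : d ∈ nextF Φ x u b W J A ↔
      ∃ c ∈ Φ, (∃ m₁ m₂, Der x u b W J A c m₁ m₂) ∧ erase c (U W 0 b) = d := by
  simp [nextF, and_assoc]

/-- A correct transcript of the rounds `s-1, …, 0`. -/
structure TrValid (u b : ℕ → ℕ) (k : ℕ) (x : V → Bool) (s : ℕ) (τ : Tr V) : Prop where
  round : ∀ i < s, Valid (τ.Φ (i + 1)) x (u i) (b i) (τ.R i) (b i)
  start : ∀ i < s, (τ.R i).T 0 = τ.T (i + 1)
  stop : ∀ i < s, τ.T i = (τ.R i).T (b i)
  next : ∀ i < s, τ.Φ i = nextF (τ.Φ (i + 1)) x (u i) (b i) (τ.R i).W (τ.R i).J (τ.R i).A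
  sat : Sat (τ.Φ s) x
  wid : ∀ c ∈ τ.Φ s, (vars c).card ≤ k

/-- All `W` elements of round `i`. -/
def Tr.Wr (τ : Tr V) (b : ℕ → ℕ) (i : ℕ) : Finset V := U (τ.R i).W 0 (b i)
/-- All `J` elements of round `i`. -/
def Tr.Jr (τ : Tr V) (b : ℕ → ℕ) (i : ℕ) : Finset V := U (τ.R i).J 0 (b i)
/-- All `A` elements of round `i`. -/
def Tr.Ar (τ : Tr V) (b : ℕ → ℕ) (i : ℕ) : Finset V := U (τ.R i).A 0 (b i)
/-- All `E` elements of round `i`. -/
def Tr.Er (τ : Tr V) (b : ℕ → ℕ) (i : ℕ) : Finset V := U (τ.R i).E 0 (b i)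

/-- The final narrow formula on `T 0`, as literal sets. -/
def narrow (Φ : Finset (Pat V)) (T : Finset V) (x : V → Bool) (w : ℕ) :
    Finset (Finset (V × Bool)) :=
  (Φ.filter fun c => (∀ v, v ∉ T → Ag c x v) ∧ (vars c ∩ T).card ≤ w).image fun c =>
    univ.filter fun l : V × Bool => l.1 ∈ T ∧ c l.1 = some (!l.2)

end Crest.Agent.R291
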