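import Crest.Agent.R291.Numerics

/-!
# Row 291: the expectation inequality given by decoder (X)
-/

set_option autoImplicit false
set_option linter.unusedSectionVars false

namespace Crest.Agent.R291

open Finset

variable {V : Type} [Fintype V] [LinearOrder V]

open Classical in
/-- The label of `v`: the round in which it was put into `W`, and whether it is in `J`. -/
noncomputable def labX (W J : ℕ → Finset V) (i₀ s : ℕ) (v : V) : Option (ℕ × Bool) :=
  if h : ∃ i, i₀ ≤ i ∧ i < s ∧ v ∈ W i then some (h.choose, decide (v ∈ J h.choose)) else none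

theorem labX_eq_some {W J : ℕ → Finset V} {i₀ s : ℕ}
    (hu : ∀ i j v, i < s → j < s → v ∈ W i → v ∈ W j → i = j) {v : V} {i : ℕ} {β : Bool} :
    labX W J i₀ s v = some (i, β) ↔ i₀ ≤ i ∧ i < s ∧ v ∈ W i ∧ β = decide (v ∈ J i) := by
  unfold labX
  split_ifs with h
  · have hs := h.choose_spec
    constructor
    · intro he
      simp only [Option.some.injEq, Prod.mk.injEq] at he
      obtain ⟨rfl, rfl⟩ := he
      exact ⟨hs.1, hs.2.1, hs.2.2, rfl⟩
    · rintro ⟨h1, h2, h3, rfl⟩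
      have := hu _ _ v hs.2.1 h2 hs.2.2 h3
      rw [this]
  · constructor
    · intro he; cases he
    · rintro ⟨h1, h2, h3, -⟩; exact (h ⟨i, h1, h2, h3⟩).elim

theorem labX_mem (W J : ℕ → Finset V) (i₀ s : ℕ) (v : V) :
    labX W J i₀ s v ∈ insertNone (Ico i₀ s ×ˢ (univ : Finset Bool)) := by
  unfold labX
  split_ifs with h
  · have hs := h.choose_spec
    simp [hs.1, hs.2.1]
  · simp

/-- The weight of a label. -/
def wtX (c : ℕ → ℝ) : Option (ℕ × Bool) → ℝ
  | none => 1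
  | some a => c a.1

theorem prod_wtX (c : ℕ → ℝ) {W J : ℕ → Finset V} {i₀ s : ℕ}
    (hu : ∀ i j v, i < s → j < s → v ∈ W i → v ∈ W j → i = j) :
    ∏ v, wtX c (labX W J i₀ s v) = ∏ i ∈ Ico i₀ s, c i ^ (W i).card := by
  have h1 : ∀ v, wtX c (labX W J i₀ s v) = ∏ i ∈ Ico i₀ s, if v ∈ W i then c i else 1 := by
    intro v
    rcases hl : labX W J i₀ s v with _ | ⟨i, β⟩
    · symm
      refine prod_eq_one fun i hi => if_neg fun hv => ?_
      have := (labX_eq_some (J := J) (i₀ := i₀) hu).2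
        ⟨(mem_Ico.1 hi).1, (mem_Ico.1 hi).2, hv, rfl⟩
      rw [hl] at this
      cases this
    · obtain ⟨h1, h2, h3, -⟩ := (labX_eq_some hu).1 hl
      rw [prod_eq_single i]
      · simp [wtX, h3]
      · intro j hj hne
        exact if_neg fun hv => hne (hu _ _ v (mem_Ico.1 hj).2 h2 hv h3)
      · intro hi
        exact (hi (mem_Ico.2 ⟨h1, h2⟩)).elim
  simp_rw [h1]
  rw [prod_comm]
  refine prod_congr rfl fun i _ => ?_
  rw [prod_ite_mem, univ_inter, prod_const]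

theorem exp_neg_lg (i : ℕ) : Real.exp (-lg i) = 1 / ((i : ℝ) + 1) - 1 / ((i : ℝ) + 2) := by
  have h : (0 : ℝ) < ((i : ℝ) + 1) * ((i : ℝ) + 2) := by positivity
  rw [lg, Real.exp_neg, Real.exp_log h]
  field_simp
  ring

theorem sum_exp_neg_lg (i₀ s : ℕ) :
    ∑ i ∈ Ico i₀ s, Real.exp (-lg i) ≤ 1 / ((i₀ : ℝ) + 1) := by
  rcases le_total s i₀ with h | h
  · rw [Ico_eq_empty_of_le h, sum_empty]; positivity
  · have : ∑ i ∈ Ico i₀ s, Real.exp (-lg i) = 1 / ((i₀ : ℝ) + 1) - 1 / ((s : ℝ) + 1) := by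
      induction s, h using Nat.le_induction with
      | base => simp
      | succ s hs ih =>
        rw [sum_Ico_succ_top hs, ih, exp_neg_lg]
        push_cast
        ring
    rw [this]
    have : (0 : ℝ) ≤ 1 / ((s : ℝ) + 1) := by positivity
    linarith

/-- RECIPE.  `jensen_exp` with `μ T = pw p ∅ T`, `M = 1`.  Label function
`lab T : V → Option (ℕ × Bool)`: `some (i, decide (v ∈ Jr i))` if `v ∈ Wr i`, `i₀ ≤ i < s` (unique
`i` by `TrValid.round_unique`), else `none`; weights `wt none = 1`,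
`wt (some (i, _)) = p ω π_i / 2`, `π_i = 1/((i+1)(i+2)) = exp (-lg i)`; total weight
`≤ 1 + p ω / (i₀+1)` (telescoping), so `∑_{lab} ∏_v wt ≤ exp (ω p n / (i₀+1))`
(`Finset.prod_univ_sum`).  On a fibre of `lab` apply `decX` with `𝒲 i = {v | ∃ β, lab v = some (i,β)}`,
`𝒥 i = {v | lab v = some (i, true)}` (`Jr_sub`).  Pointwise `pw p ∅ T = p^r * pw p 𝒲 T`
(`pw_of_subset`, `UWr_sub`), `r = ∑ r_i` (`TrValid.card_U`), and
`p^r e^Z = (∏_v wt (lab v)) * (1/2)^r y^P`. -/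
theorem expectX {p y K₂ K₃ : ℝ} {k : ℕ} (hc : XConst p k y K₂ K₃) (ω : ℝ) (hω : 0 < ω)
    (u b : ℕ → ℕ) (x : V → Bool) (τ : Finset V → Tr V) (i₀ s : ℕ) (hi : i₀ ≤ s)
    (F : Finset (Pat V))
    (hτ : ∀ T, TrValid u b k x s (τ T) ∧ (τ T).Φ s = F ∧ (τ T).T s = T) :
    ∑ T : Finset V, pw p ∅ T *
      (Real.log y * (((T \ (τ T).T i₀) \ U ((τ T).Wr b) i₀ s).card : ℝ) -
        ∑ i ∈ Ico i₀ s, (((τ T).Wr b i).card : ℝ) * (Real.log (4 / ω) + lg i))
      ≤ ω * (p * Fintype.card V) / ((i₀ : ℝ) + 1) := by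
  classical
  have hp0 := hc.p0
  have hp1 := hc.p1
  have hy : 0 < y := lt_of_lt_of_le one_pos hc.y1
  set c : ℕ → ℝ := fun i => p * ω * Real.exp (-lg i) / 2 with hcdef
  have hc0 : ∀ i, 0 ≤ c i := fun i => by simp only [hcdef]; positivity
  have hwt0 : ∀ a, 0 ≤ wtX c a := by
    rintro (_ | a)
    · exact zero_le_one
    · exact hc0 _
  have hu : ∀ T i j v, i < s → j < s → v ∈ (τ T).Wr b i → v ∈ (τ T).Wr b j → i = j :=
    fun T i j v h1 h2 h3 h4 =>
      (hτ T).1.round_unique h1 h2 ((hτ T).1.Wr_sub h1 h3) ((hτ T).1.Wr_sub h2 h4)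
  set lab : Finset V → V → Option (ℕ × Bool) :=
    fun T => labX ((τ T).Wr b) ((τ T).Jr b) i₀ s with hlab
  set Lb : Finset (Option (ℕ × Bool)) := insertNone (Ico i₀ s ×ˢ (univ : Finset Bool)) with hLb
  rw [← one_mul (ω * (p * Fintype.card V) / ((i₀ : ℝ) + 1))]
  refine jensen_exp univ (fun T => pw p ∅ T) _ 1 _ (fun T _ => pw_nonneg hp0 hp1 _ _)
    (sum_pw p) ?_
  rw [one_mul]
  -- the pointwise identity
  have hpt : ∀ T : Finset V, pw p ∅ T * Real.exp
      (Real.log y * (((T \ (τ T).T i₀) \ U ((τ T).Wr b) i₀ s).card : ℝ) -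
        ∑ i ∈ Ico i₀ s, (((τ T).Wr b i).card : ℝ) * (Real.log (4 / ω) + lg i)) =
      (∏ v, wtX c (lab T v)) * (pw p (U ((τ T).Wr b) i₀ s) T *
        ((1 / 2) ^ (U ((τ T).Wr b) i₀ s).card *
          y ^ ((T \ (τ T).T i₀) \ U ((τ T).Wr b) i₀ s).card)) := by
    intro T
    have hsub : U ((τ T).Wr b) i₀ s ⊆ T := by
      have := (hτ T).1.UWr_sub hi le_rfl
      rw [(hτ T).2.2] at this
      exact this.trans sdiff_subset
    have hcard : (U ((τ T).Wr b) i₀ s).card = ∑ i ∈ Ico i₀ s, ((τ T).Wr b i).card :=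
      (hτ T).1.card_U (fun i h => (hτ T).1.Wr_sub h) le_rfl
    rw [pw_of_subset p hsub, hlab, prod_wtX c (hu T), hcard, sub_eq_add_neg, Real.exp_add,
      mul_comm (Real.log y), Real.exp_nat_mul, Real.exp_log hy, ← sum_neg_distrib, Real.exp_sum,
      ← prod_pow_eq_pow_sum, ← prod_pow_eq_pow_sum]
    have h2 : ∀ i ∈ Ico i₀ s, p ^ ((τ T).Wr b i).card *
        Real.exp (-((((τ T).Wr b i).card : ℝ) * (Real.log (4 / ω) + lg i))) =
        c i ^ ((τ T).Wr b i).card * (1 / 2) ^ ((τ T).Wr b i).card := by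
      intro i _
      rw [← mul_neg, Real.exp_nat_mul, ← mul_pow, ← mul_pow, neg_add, Real.exp_add, Real.exp_neg,
        Real.exp_log (by positivity)]
      congr 1
      simp only [hcdef]
      field_simp
      ring
    have h3 := prod_congr rfl h2
    rw [prod_mul_distrib, prod_mul_distrib] at h3
    linear_combination (pw p (U ((τ T).Wr b) i₀ s) T *
      y ^ ((T \ (τ T).T i₀) \ U ((τ T).Wr b) i₀ s).card) * h3
  rw [sum_congr rfl fun T _ => hpt T,
    ← sum_fiberwise_of_maps_to (s := univ) (t := Fintype.piFinset fun _ : V => Lb) (g := lab)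
      (fun T _ => Fintype.mem_piFinset.2 fun v => labX_mem _ _ _ _ v)]
  have hfib : ∀ ℓ ∈ Fintype.piFinset (fun _ : V => Lb),
      ∑ T ∈ univ.filter (fun T => lab T = ℓ), (∏ v, wtX c (lab T v)) *
        (pw p (U ((τ T).Wr b) i₀ s) T * ((1 / 2) ^ (U ((τ T).Wr b) i₀ s).card *
          y ^ ((T \ (τ T).T i₀) \ U ((τ T).Wr b) i₀ s).card)) ≤ ∏ v, wtX c (ℓ v) := by
    intro ℓ _
    set 𝒲 : ℕ → Finset V := fun i => univ.filter fun v => ∃ β, ℓ v = some (i, β) with h𝒲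
    set 𝒥 : ℕ → Finset V := fun i => univ.filter fun v => ℓ v = some (i, true) with h𝒥
    have hW : ∀ T ∈ univ.filter (fun T => lab T = ℓ), ∀ i, i₀ ≤ i → i < s →
        (τ T).Wr b i = 𝒲 i ∧ (τ T).Jr b i = 𝒥 i := by
      intro T hT i h1 h2
      have hT' : lab T = ℓ := (mem_filter.1 hT).2
      constructor
      · ext v
        simp only [h𝒲, mem_filter, mem_univ, true_and, ← hT', hlab, labX_eq_some (hu T)]
        exact ⟨fun hv => ⟨_, h1, h2, hv, rfl⟩, fun ⟨_, _, _, hv, _⟩ => hv⟩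
      · ext v
        simp only [h𝒥, mem_filter, mem_univ, true_and, ← hT', hlab, labX_eq_some (hu T)]
        refine ⟨fun hv => ⟨h1, h2, (hτ T).1.Jr_sub h2 hv, by simp [hv]⟩, fun ⟨_, _, _, hv⟩ => ?_⟩
        simpa using hv
    have hd := decX hc u b x τ 𝒲 𝒥 i₀ s hi (univ.filter fun T => lab T = ℓ) F
      (fun T _ => (hτ T).1) (fun T _ => (hτ T).2.1) (fun T _ => (hτ T).2.2) hW
    calc _ = (∏ v, wtX c (ℓ v)) * ∑ T ∈ univ.filter (fun T => lab T = ℓ),
          pw p (U 𝒲 i₀ s) T * ((1 / 2) ^ (U 𝒲 i₀ s).card *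
            y ^ ((T \ (τ T).T i₀) \ U 𝒲 i₀ s).card) := by
          rw [mul_sum]
          refine sum_congr rfl fun T hT => ?_
          rw [(mem_filter.1 hT).2, U_congr fun i h1 h2 => (hW T hT i h1 h2).1]
      _ ≤ _ := mul_le_of_le_one_right (prod_nonneg fun v _ => hwt0 _) hd
  refine (sum_le_sum hfib).trans ?_
  rw [← prod_univ_sum, prod_const, card_univ]
  have htot : ∑ a ∈ Lb, wtX c a ≤ Real.exp (p * ω / ((i₀ : ℝ) + 1)) := by
    rw [hLb, sum_insertNone, sum_product]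
    simp only [wtX, sum_const, card_univ, Fintype.card_bool, nsmul_eq_mul, hcdef]
    have h1 : ∑ i ∈ Ico i₀ s, ((2 : ℕ) : ℝ) * (p * ω * Real.exp (-lg i) / 2) =
        p * ω * ∑ i ∈ Ico i₀ s, Real.exp (-lg i) := by
      rw [mul_sum]
      refine sum_congr rfl fun i _ => ?_
      push_cast
      ring
    rw [h1]
    have h2 := mul_le_mul_of_nonneg_left (sum_exp_neg_lg i₀ s) (by positivity : 0 ≤ p * ω)
    have h3 := Real.add_one_le_exp (p * ω / ((i₀ : ℝ) + 1))
    rw [mul_one_div] at h2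
    linarith
  refine (pow_le_pow_left₀ (sum_nonneg fun a _ => hwt0 a) htot _).trans (le_of_eq ?_)
  rw [← Real.exp_nat_mul]
  congr 1
  ring

end Crest.Agent.R291
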