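import Crest.Agent.R291.ExpectU
import Crest.Agent.R291.ExpectX

/-!
# Row 291: few variables are revealed
-/

set_option autoImplicit false
set_option linter.unusedSectionVars false

namespace Crest.Agent.R291

open Finset

theorem abel_swap (Δ f m : ℕ → ℝ) (hm : ∀ j, ∑ i ∈ range (j + 1), Δ i = m j) (s : ℕ) :
    ∑ i ∈ range s, Δ i * ∑ j ∈ Ico i s, f j = ∑ j ∈ range s, f j * m j := by
  induction s with
  | zero => simp
  | succ s ih =>
    have h1 : ∀ i ∈ range (s + 1), Δ i * ∑ j ∈ Ico i (s + 1), f j =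
        Δ i * ∑ j ∈ Ico i s, f j + Δ i * f s := by
      intro i hi
      rw [sum_Ico_succ_top (Nat.lt_succ_iff.1 (mem_range.1 hi)), mul_add]
    rw [sum_congr rfl h1, sum_add_distrib, sum_range_succ, ih, ← sum_mul, hm, sum_range_succ]
    simp [mul_comm]

theorem exists_thr_const (A B L θ Γ : ℝ) (hθ : 0 < θ) (hΓ : 0 ≤ Γ) (hB : 0 ≤ B) :
    ∃ c : ℝ, ∀ z : ℝ, 0 ≤ z →
      A + ((L + z) * (B + z) / θ + Γ * (1 + (L + z) / θ)) ≤ 7 / 8 * (c * (1 + z) ^ 2) := by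
  refine ⟨8 / 7 * (|A| + (|L| + 1) * (B + 1) / θ + Γ * (1 + (|L| + 1) / θ)), fun z hz => ?_⟩
  have hL := le_abs_self L
  have hL0 := abs_nonneg L
  have hA := le_abs_self A
  have hA0 := abs_nonneg A
  have h1 : (1 : ℝ) ≤ (1 + z) ^ 2 := by nlinarith
  have h2 : L + z ≤ (|L| + 1) * (1 + z) := by nlinarith
  have h3 : B + z ≤ (B + 1) * (1 + z) := by nlinarith
  have h4 : (L + z) * (B + z) ≤ (|L| + 1) * (B + 1) * (1 + z) ^ 2 := by
    have := mul_le_mul h2 h3 (by linarith) (by positivity)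
    nlinarith
  have h5 : L + z ≤ (|L| + 1) * (1 + z) ^ 2 := by
    refine h2.trans (mul_le_mul_of_nonneg_left ?_ (by linarith))
    nlinarith
  have h6 := div_le_div_of_nonneg_right h4 hθ.le
  have h7 := div_le_div_of_nonneg_right h5 hθ.le
  have h8 : Γ * (1 + (L + z) / θ) ≤ Γ * ((1 + z) ^ 2 + (|L| + 1) * (1 + z) ^ 2 / θ) :=
    mul_le_mul_of_nonneg_left (by linarith) hΓ
  have h9 : A ≤ |A| * (1 + z) ^ 2 := by nlinarith
  have h10 : 7 / 8 * (8 / 7 * (|A| + (|L| + 1) * (B + 1) / θ + Γ * (1 + (|L| + 1) / θ)) *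
      (1 + z) ^ 2) = |A| * (1 + z) ^ 2 + ((|L| + 1) * (B + 1) * (1 + z) ^ 2 / θ +
        Γ * ((1 + z) ^ 2 + (|L| + 1) * (1 + z) ^ 2 / θ)) := by ring
  rw [h10]
  linarith

theorem pt_ineq (s : ℕ) (r a P Δ g ℓ m : ℕ → ℝ) (θ Γ H : ℝ) (hθ : 0 < θ) (hΓ : 0 < Γ)
    (hr : ∀ j, 0 ≤ r j) (hΔ : ∀ j, 0 ≤ Δ j) (hm : ∀ j, ∑ i ∈ range (j + 1), Δ i = m j)
    (hP : ∀ i < s, ∑ j ∈ Ico i s, a j ≤ P i) (hH : H = ∑ j ∈ range s, r j + P 0)
    (hg : ∀ j, ℓ j * m j / θ + Γ * (1 + ℓ j / θ) ≤ g j) :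
    H ≤ Γ⁻¹ * (∑ j ∈ range s, (r j * g j - a j * m j) +
        θ⁻¹ * ∑ i ∈ range s, Δ i * (θ * P i - ∑ j ∈ Ico i s, r j * ℓ j)) +
      θ⁻¹ * (θ * P 0 - ∑ j ∈ Ico 0 s, r j * ℓ j) := by
  have h1 : ∑ j ∈ range s, a j * m j ≤ ∑ i ∈ range s, Δ i * P i := by
    rw [← abel_swap Δ a m hm s]
    exact sum_le_sum fun i hi => mul_le_mul_of_nonneg_left (hP i (mem_range.1 hi)) (hΔ i)
  have h2 : θ⁻¹ * ∑ i ∈ range s, Δ i * (θ * P i - ∑ j ∈ Ico i s, r j * ℓ j) =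
      ∑ i ∈ range s, Δ i * P i - ∑ j ∈ range s, r j * (ℓ j * m j / θ) := by
    simp_rw [mul_sub]
    rw [sum_sub_distrib, abel_swap Δ _ m hm s, mul_sub, mul_sum, mul_sum]
    congr 1
    · refine sum_congr rfl fun i _ => ?_
      field_simp
    · refine sum_congr rfl fun i _ => ?_
      field_simp
  have h3 : θ⁻¹ * (θ * P 0 - ∑ j ∈ Ico 0 s, r j * ℓ j) =
      P 0 - ∑ j ∈ range s, r j * (ℓ j / θ) := by
    rw [mul_sub, mul_sum, ← range_eq_Ico]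
    congr 1
    · field_simp
    · refine sum_congr rfl fun i _ => ?_
      field_simp
  have h4 : Γ * (∑ j ∈ range s, r j + ∑ j ∈ range s, r j * (ℓ j / θ)) ≤
      ∑ j ∈ range s, r j * g j - ∑ j ∈ range s, r j * (ℓ j * m j / θ) := by
    rw [← sum_add_distrib, ← sum_sub_distrib, mul_sum]
    refine sum_le_sum fun j _ => ?_
    have := mul_le_mul_of_nonneg_left (hg j) (hr j)
    nlinarith
  rw [h2, h3, sum_sub_distrib, hH]
  have h5 : ∑ j ∈ range s, r j + ∑ j ∈ range s, r j * (ℓ j / θ) ≤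
      Γ⁻¹ * (∑ j ∈ range s, r j * g j - ∑ j ∈ range s, a j * m j +
        (∑ i ∈ range s, Δ i * P i - ∑ j ∈ range s, r j * (ℓ j * m j / θ))) := by
    rw [le_inv_mul_iff₀ hΓ]
    linarith
  linarith

theorem TrValid.sum_Ar_le {V : Type} [Fintype V] [LinearOrder V] {u b : ℕ → ℕ} {k s : ℕ}
    {x : V → Bool} {τ : Tr V} (h : TrValid u b k x s τ) {i : ℕ} (hi : i ≤ s) :
    ∑ j ∈ Ico i s, (τ.Ar b j).card ≤ ((τ.T s \ τ.T i) \ U (τ.Wr b) i s).card := by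
  rw [← h.card_U (fun j hj => h.Ar_sub hj) le_rfl]
  refine card_le_card fun v hv => mem_sdiff.2 ⟨h.UAr_sub hi le_rfl hv, fun hv' => ?_⟩
  exact disjoint_left.1 (h.UWr_UAr le_rfl le_rfl) hv' hv

theorem TrValid.card_revealed {V : Type} [Fintype V] [LinearOrder V] {u b : ℕ → ℕ} {k s : ℕ}
    {x : V → Bool} {τ : Tr V} (h : TrValid u b k x s τ) :
    (τ.T s \ τ.T 0).card =
      ∑ j ∈ range s, (τ.Wr b j).card + ((τ.T s \ τ.T 0) \ U (τ.Wr b) 0 s).card := by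
  rw [range_eq_Ico, ← h.card_U (fun j hj => h.Wr_sub hj) le_rfl, add_comm,
    card_sdiff_add_card_eq_card (h.UWr_sub (Nat.zero_le s) le_rfl)]

/-- RECIPE.  Take `y K₂ K₃` from `exists_xconst Λ`, `θ = log y > 0`, `ω = θ ζ / 2`,
`L = log (4/ω)`, `Δ` from `exists_abel`, `Γ = (2 + 5 ζ/2) / (ζ/2)`, and `w` from `thr_large` so that
for all `i`
`7/8 log u_i - log (144Λ) - (|L| + lg i)(log 8 + lg i)/θ ≥ Γ (1 + (|L| + lg i)/θ)`.
For one outcome write `r_i = |Wr i|`, `a_i = |Ar i|`, `P_i = |(T \ T_i) \ U Wr i s|`; then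
`∑_{j ∈ Ico i s} a_j ≤ P_i` (`card_U`, `UAr_sub`, `UWr_UAr`), `|T \ T_0| = ∑ r_i + P_0`
(`UWr_sub`), and `∑ a_j (log 8 + lg j) = ∑_i Δ_i ∑_{j ≥ i} a_j ≤ ∑_i Δ_i P_i`.  Writing `E` for
`∑_x ∑_T pw p ∅ T * ·` and `t = p n`: `expectX` (summed with weights `Δ_i / θ`, swap sums) gives
`E ∑ a_j m_j ≤ (5 ω t |S| + E ∑ r_j (L + lg j) m_j) / θ`; `expectU` and `sum_pw_card` give
`E ∑ r_j (7/8 log u_j - log (144Λ)) ≤ (β + t log 2)|S| + E ∑ a_j m_j`; so
`Γ E ∑ r_j (1 + (|L| + lg j)/θ) ≤ (2 + 5ζ/2) t |S|`; and `expectX` at `i₀ = 0` gives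
`E |H| ≤ E ∑ r_j (1 + (L + lg j)/θ) + ω t |S| / θ ≤ ζ t |S|`. -/
theorem expect_H (Λ ζ : ℝ) (hΛ : 0 < Λ) (hζ : 0 < ζ) : ∃ w : ℕ, 8 ≤ w ∧
    ∀ (V : Type) [Fintype V] [LinearOrder V] (k s : ℕ) (p β : ℝ) (F : Finset (Pat V))
      (τ : (V → Bool) → Finset V → Tr V), 0 < k → 0 < p → p ≤ 1 / 2 → p * k ≤ Λ →
      (∀ x ∈ satSet F, ∀ T, TrValid (thr w) (blk w) k x s (τ x T) ∧ (τ x T).Φ s = F ∧
        (τ x T).T s = T) →
      (2 : ℝ) ^ Fintype.card V ≤ (satSet F).card * Real.exp β → β ≤ p * Fintype.card V →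
      ∑ x ∈ satSet F, ∑ T : Finset V, pw p ∅ T * ((T \ (τ x T).T 0).card : ℝ) ≤
        (satSet F).card * (ζ * (p * Fintype.card V)) := by
  obtain ⟨y, K₂, K₃, hy, hX⟩ := exists_xconst Λ hΛ.le
  obtain ⟨Δ, hΔ0, hΔm, hΔ5⟩ := exists_abel
  set θ := Real.log y with hθdef
  have hθ : 0 < θ := Real.log_pos hy
  set ω := θ * ζ / 2 with hωdef
  have hω : 0 < ω := by positivity
  set Γ := (2 + 5 * ζ / 2) / (ζ / 2) with hΓdef
  have hΓ : 0 < Γ := by positivity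
  obtain ⟨c, hc⟩ := exists_thr_const (Real.log (144 * Λ)) (Real.log 8) (Real.log (4 / ω)) θ Γ hθ
    hΓ.le (Real.log_nonneg (by norm_num))
  obtain ⟨w, hw, hwc⟩ := thr_large c
  refine ⟨w, hw, ?_⟩
  intro V _ _ k s p β F τ hk hp0 hp hpk hτ hβ hβt
  set t : ℝ := p * Fintype.card V with htdef
  have ht : 0 ≤ t := by positivity
  have hxc := hX p k hp0.le hp hpk
  have hpw : ∀ T : Finset V, 0 ≤ pw p ∅ T := fun T => pw_nonneg hp0.le (by linarith) _ _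
  -- the three random variables
  set X : ℕ → (V → Bool) → Finset V → ℝ := fun i x T =>
    θ * (((T \ (τ x T).T i) \ U ((τ x T).Wr (blk w)) i s).card : ℝ) -
      ∑ j ∈ Ico i s, (((τ x T).Wr (blk w) j).card : ℝ) * (Real.log (4 / ω) + lg j) with hXdef
  set Y : (V → Bool) → Finset V → ℝ := fun x T =>
    ∑ i ∈ range s, ((((τ x T).Wr (blk w) i).card : ℝ) *
          (7 / 8 * Real.log (thr w i) - Real.log (144 * Λ)) -
        (((τ x T).Ar (blk w) i).card : ℝ) * (Real.log 8 + lg i)) - (T.card : ℝ) * Real.log 2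
    with hYdef
  have hEX : ∀ x ∈ satSet F, ∀ i ≤ s,
      ∑ T : Finset V, pw p ∅ T * X i x T ≤ ω * t / ((i : ℝ) + 1) := fun x hx i hi =>
    expectX hxc ω hω (thr w) (blk w) x (τ x) i s hi F (hτ x hx)
  have hEY : ∑ x ∈ satSet F, ∑ T : Finset V, pw p ∅ T * Y x T ≤ (satSet F).card * β :=
    expectU w k s hw hk p Λ β hp0 hp hpk F τ hτ hβ
  have hpt : ∀ x ∈ satSet F, ∀ T : Finset V, ((T \ (τ x T).T 0).card : ℝ) ≤
      Γ⁻¹ * (Y x T + (T.card : ℝ) * Real.log 2 + θ⁻¹ * ∑ i ∈ range s, Δ i * X i x T) +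
        θ⁻¹ * X 0 x T := by
    intro x hx T
    obtain ⟨hv, -, hT⟩ := hτ x hx T
    simp only [hXdef, hYdef, sub_add_cancel]
    refine pt_ineq s (fun j => (((τ x T).Wr (blk w) j).card : ℝ))
      (fun j => (((τ x T).Ar (blk w) j).card : ℝ))
      (fun i => (((T \ (τ x T).T i) \ U ((τ x T).Wr (blk w)) i s).card : ℝ)) Δ
      (fun i => 7 / 8 * Real.log (thr w i) - Real.log (144 * Λ))
      (fun j => Real.log (4 / ω) + lg j) (fun j => Real.log 8 + lg j) θ Γ _ hθ hΓ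
      (fun j => Nat.cast_nonneg _) hΔ0 hΔm (fun i hi => ?_) ?_ (fun j => ?_)
    · have := hv.sum_Ar_le hi.le
      rw [hT] at this
      exact_mod_cast this
    · have := hv.card_revealed
      rw [hT] at this
      exact_mod_cast this
    · have h1 := hc (lg j) (lg_nonneg j)
      have h2 := hwc w le_rfl j
      linarith
  have hx : ∀ x ∈ satSet F, ∑ T : Finset V, pw p ∅ T * ((T \ (τ x T).T 0).card : ℝ) ≤
      Γ⁻¹ * ∑ T : Finset V, pw p ∅ T * Y x T +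
        (Γ⁻¹ * (t + θ⁻¹ * (5 * (ω * t))) + θ⁻¹ * (ω * t)) := by
    intro x hx
    refine (sum_le_sum fun T _ => mul_le_mul_of_nonneg_left (hpt x hx T) (hpw T)).trans ?_
    have e : ∑ T : Finset V, pw p ∅ T *
        (Γ⁻¹ * (Y x T + (T.card : ℝ) * Real.log 2 + θ⁻¹ * ∑ i ∈ range s, Δ i * X i x T) +
          θ⁻¹ * X 0 x T) =
        Γ⁻¹ * (∑ T : Finset V, pw p ∅ T * Y x T +
          (∑ T : Finset V, pw p ∅ T * (T.card : ℝ)) * Real.log 2 +
          θ⁻¹ * ∑ i ∈ range s, Δ i * ∑ T : Finset V, pw p ∅ T * X i x T) +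
        θ⁻¹ * ∑ T : Finset V, pw p ∅ T * X 0 x T := by
      have e1 : ∑ i ∈ range s, Δ i * ∑ T : Finset V, pw p ∅ T * X i x T =
          ∑ T : Finset V, pw p ∅ T * ∑ i ∈ range s, Δ i * X i x T := by
        simp_rw [mul_sum]
        rw [sum_comm]
        exact sum_congr rfl fun T _ => sum_congr rfl fun i _ => by ring
      rw [e1, sum_mul, mul_sum, mul_sum, ← sum_add_distrib, ← sum_add_distrib, mul_sum,
        ← sum_add_distrib]
      exact sum_congr rfl fun T _ => by ring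
    rw [e, sum_pw_card, ← htdef]
    have h1 : ∑ i ∈ range s, Δ i * ∑ T : Finset V, pw p ∅ T * X i x T ≤ 5 * (ω * t) := by
      calc _ ≤ ∑ i ∈ range s, Δ i / ((i : ℝ) + 1) * (ω * t) := by
            refine sum_le_sum fun i hi => ?_
            have := mul_le_mul_of_nonneg_left (hEX x hx i (mem_range.1 hi).le) (hΔ0 i)
            refine this.trans (le_of_eq ?_)
            ring
        _ ≤ 5 * (ω * t) := by
            rw [← sum_mul]
            exact mul_le_mul_of_nonneg_right (hΔ5 s) (by positivity)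
    have h2 : ∑ T : Finset V, pw p ∅ T * X 0 x T ≤ ω * t := by
      simpa using hEX x hx 0 (Nat.zero_le s)
    have h3 : t * Real.log 2 ≤ t := by
      have := Real.log_two_lt_d9
      nlinarith
    have h4 := mul_le_mul_of_nonneg_left h1 (inv_pos.2 hθ).le
    have h5 := mul_le_mul_of_nonneg_left h2 (inv_pos.2 hθ).le
    have h6 := mul_le_mul_of_nonneg_left (add_le_add h3 h4) (inv_pos.2 hΓ).le
    linarith
  refine (sum_le_sum hx).trans ?_
  rw [sum_add_distrib, ← mul_sum, sum_const, nsmul_eq_mul]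
  have hS : (0 : ℝ) ≤ (satSet F).card := Nat.cast_nonneg _
  have h1 := mul_le_mul_of_nonneg_left (hEY.trans (mul_le_mul_of_nonneg_left hβt hS))
    (inv_pos.2 hΓ).le
  have h2 : Γ⁻¹ * ((satSet F).card * t) +
      (satSet F).card * (Γ⁻¹ * (t + θ⁻¹ * (5 * (ω * t))) + θ⁻¹ * (ω * t)) =
      (satSet F).card * (ζ * t) := by
    rw [hΓdef, hωdef]
    field_simp
    ring
  linarith

end Crest.Agent.R291
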