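import Crest.Agent.R291.DecX

/-!
# Row 291: thresholds and constants
-/

set_option autoImplicit false

namespace Crest.Agent.R291

open Finset

/-- The thresholds `u_0 = w`, `u_{i+1} = u_i + ⌊u_i / 8⌋`. -/
def thr (w : ℕ) : ℕ → ℕ
  | 0 => w
  | i + 1 => thr w i + thr w i / 8

/-- The number of mini-rounds of round `i`. -/
def blk (w i : ℕ) : ℕ := thr w i / 8

/-- `ℓ_i = log (1 / π_i)`, `π_i = 1 / ((i+1)(i+2))`. -/
noncomputable def lg (i : ℕ) : ℝ := Real.log (((i : ℝ) + 1) * ((i : ℝ) + 2))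

theorem thr_succ (w i : ℕ) : thr w (i + 1) = thr w i + blk w i := rfl

theorem le_thr {w : ℕ} (hw : 8 ≤ w) (i : ℕ) : w + i ≤ thr w i := by
  induction i with
  | zero => simp [thr]
  | succ i ih => rw [thr]; omega

theorem blk_pos {w : ℕ} (hw : 8 ≤ w) (i : ℕ) : 0 < blk w i := by
  have := le_thr hw i
  unfold blk; omega

theorem blk_le (w i : ℕ) : 8 * blk w i ≤ thr w i := by unfold blk; omega

theorem lg_nonneg (i : ℕ) : 0 ≤ lg i := by
  apply Real.log_nonneg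
  have : (0 : ℝ) ≤ i := Nat.cast_nonneg i
  nlinarith

theorem thr_growth {w : ℕ} (hw : 16 ≤ w) (i : ℕ) : (w : ℝ) * (17 / 16) ^ i ≤ thr w i := by
  induction i with
  | zero => simp [thr]
  | succ i ih =>
    have h1 := le_thr (w := w) (by omega) i
    have h2 : 17 * thr w i ≤ 16 * thr w (i + 1) := by rw [thr]; omega
    have h3 : (17 : ℝ) * thr w i ≤ 16 * thr w (i + 1) := by exact_mod_cast h2
    rw [pow_succ]
    linarith

theorem lg_sq_le (i : ℕ) : (1 + lg i) ^ 2 ≤ 2 + 128 * √((i : ℝ) + 2) := by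
  have hi : (0 : ℝ) ≤ i := Nat.cast_nonneg i
  set s := √√((i : ℝ) + 2) with hs
  have hs0 : 0 < s := by positivity
  have e2 : s ^ 2 = √((i : ℝ) + 2) := Real.sq_sqrt (by positivity)
  have e4 : s ^ 4 = (i : ℝ) + 2 := by
    rw [show s ^ 4 = (s ^ 2) ^ 2 by ring, e2, Real.sq_sqrt (by positivity)]
  have h1 : lg i ≤ 8 * s := by
    have a1 : lg i ≤ Real.log (s ^ 8) := by
      refine Real.log_le_log (by positivity) ?_
      rw [show s ^ 8 = s ^ 4 * s ^ 4 by ring, e4]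
      nlinarith
    rw [Real.log_pow] at a1
    have a2 := Real.log_le_sub_one_of_pos hs0
    push_cast at a1
    linarith
  have h2 := lg_nonneg i
  rw [← e2]
  nlinarith [sq_nonneg (1 - 8 * s)]

/-- RECIPE: `thr w i ≥ w (17/16)^i` for `w ≥ 16` (`u/8 ≥ u/16` in reals when `u ≥ 16`), so
`log (thr w i) ≥ log w + i log (17/16)`; and `c (1 + lg i)² - i log (17/16)` is bounded above
(`lg i ≤ 2 log (i+2)`, `log t ≤ 4 t^{1/4}` or `isLittleO_pow_log_id_atTop`). -/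
theorem thr_large (c : ℝ) : ∃ w₀ : ℕ, 8 ≤ w₀ ∧ ∀ w ≥ w₀, ∀ i,
    c * (1 + lg i) ^ 2 ≤ Real.log (thr w i) := by
  set C : ℝ := 2 * |c| + 2 / 17 + 17 / 4 * (128 * |c|) ^ 2 with hC
  refine ⟨max 16 ⌈Real.exp C⌉₊, le_trans (by norm_num) (le_max_left _ _), fun w hw i => ?_⟩
  have hw1 : 16 ≤ w := (le_max_left _ _).trans hw
  have hw2 : Real.exp C ≤ w := Nat.ceil_le.1 ((le_max_right _ _).trans hw)
  have hw0 : (0 : ℝ) < w := (Real.exp_pos _).trans_le hw2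
  have h1 : C ≤ Real.log w := (Real.le_log_iff_exp_le hw0).2 hw2
  have h2 : (1 : ℝ) / 17 ≤ Real.log (17 / 16) := by
    have := Real.one_sub_inv_le_log_of_pos (x := 17 / 16) (by norm_num)
    norm_num at this ⊢
    exact this
  have h3 : Real.log w + i * Real.log (17 / 16) ≤ Real.log (thr w i) := by
    rw [← Real.log_pow, ← Real.log_mul hw0.ne' (by positivity)]
    exact Real.log_le_log (by positivity) (thr_growth hw1 i)
  have hi : (0 : ℝ) ≤ i := Nat.cast_nonneg i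
  have h4 : (i : ℝ) * (1 / 17) ≤ i * Real.log (17 / 16) := mul_le_mul_of_nonneg_left h2 hi
  have h5 : c * (1 + lg i) ^ 2 ≤ |c| * (2 + 128 * √((i : ℝ) + 2)) :=
    mul_le_mul (le_abs_self c) (lg_sq_le i) (sq_nonneg _) (abs_nonneg c)
  have h6 : √((i : ℝ) + 2) ^ 2 = (i : ℝ) + 2 := Real.sq_sqrt (by positivity)
  nlinarith [sq_nonneg (√((i : ℝ) + 2) - 17 / 2 * (128 * |c|))]

theorem one_add_mul_pow_le {Λ p a : ℝ} {j k : ℕ} (hp : 0 ≤ p) (ha : 0 ≤ a) (hj : j ≤ k)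
    (h : p * k ≤ Λ) : (1 + p * a) ^ j ≤ Real.exp (Λ * a) := by
  have h1 : (1 + p * a) ^ j ≤ Real.exp (p * a) ^ j :=
    pow_le_pow_left₀ (by positivity) (by linarith [Real.add_one_le_exp (p * a)]) j
  refine h1.trans ?_
  rw [← Real.exp_nat_mul]
  refine Real.exp_le_exp.2 ?_
  have h2 : p * j ≤ p * k := mul_le_mul_of_nonneg_left (Nat.cast_le.2 hj) hp
  nlinarith

theorem exp_le_one_sub_pow {Λ p : ℝ} {j k : ℕ} (hp : 0 ≤ p) (hp' : p ≤ 1 / 2) (hj : j ≤ k)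
    (h : p * k ≤ Λ) : Real.exp (-2 * Λ) ≤ (1 - p) ^ j := by
  have h0 : Real.exp (-2 * p) ≤ 1 - p := by
    rw [neg_mul, Real.exp_neg, inv_le_iff_one_le_mul₀' (Real.exp_pos _)]
    nlinarith [Real.add_one_le_exp (2 * p)]
  refine le_trans ?_ (pow_le_pow_left₀ (Real.exp_pos _).le h0 j)
  rw [← Real.exp_nat_mul]
  refine Real.exp_le_exp.2 ?_
  have h2 : p * j ≤ p * k := mul_le_mul_of_nonneg_left (Nat.cast_le.2 hj) hp
  linarith

/-- RECIPE: `K₃ = exp (Λ (y-1))`, `K₂ = exp (Λ (y K₃ - 1))`, `(1 + p a)^j ≤ exp (p a j) ≤ exp (Λ a)`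
for `a ≥ 0`, `(1-p)^j ≥ exp (-2Λ)` for `p ≤ 1/2`; by continuity at `y = 1` there is `y > 1` with
`exp (Λ (y K₃ K₂ - 1)) ≤ 1 + exp (-2Λ) / 2`. -/
theorem exists_xconst (Λ : ℝ) (hΛ : 0 ≤ Λ) : ∃ y K₂ K₃ : ℝ, 1 < y ∧
    ∀ (p : ℝ) (k : ℕ), 0 ≤ p → p ≤ 1 / 2 → p * k ≤ Λ → XConst p k y K₂ K₃ := by
  set K₃ : ℝ → ℝ := fun y => Real.exp (Λ * (y - 1)) with hK₃
  set K₂ : ℝ → ℝ := fun y => Real.exp (Λ * (y * K₃ y - 1)) with hK₂
  have hc : Continuous fun y => Real.exp (Λ * (y * K₃ y * K₂ y - 1)) := by fun_prop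
  have h1 : ∀ᶠ y in nhds (1 : ℝ),
      Real.exp (Λ * (y * K₃ y * K₂ y - 1)) < 1 + Real.exp (-2 * Λ) / 2 :=
    hc.continuousAt.eventually_lt continuousAt_const (by
      simp [hK₃, hK₂, Real.exp_pos])
  obtain ⟨y, hy, hy1⟩ := ((h1.filter_mono nhdsWithin_le_nhds).and
    (self_mem_nhdsWithin (s := Set.Ioi (1 : ℝ)))).exists
  have hy1' : 1 < y := hy1
  have a3 : 1 ≤ K₃ y := Real.one_le_exp (mul_nonneg hΛ (by linarith))
  have b3 : 1 ≤ y * K₃ y := one_le_mul_of_one_le_of_one_le hy1'.le a3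
  have a2 : 1 ≤ K₂ y := Real.one_le_exp (mul_nonneg hΛ (by linarith))
  have b2 : 1 ≤ y * K₃ y * K₂ y := one_le_mul_of_one_le_of_one_le b3 a2
  refine ⟨y, K₂ y, K₃ y, hy1', fun p k hp hp' hk => ⟨hp, by linarith, hy1'.le,
    one_add_mul_pow_le hp (by linarith) le_rfl hk, one_add_mul_pow_le hp (by linarith) le_rfl hk,
    fun j hj => ?_⟩⟩
  have c1 := one_add_mul_pow_le (a := y * K₃ y * K₂ y - 1) hp (by linarith) hj hk
  have c2 := exp_le_one_sub_pow hp hp' hj hk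
  linarith

theorem lg_succ_sub (i : ℕ) : 0 ≤ lg (i + 1) - lg i ∧ lg (i + 1) - lg i ≤ 2 / ((i : ℝ) + 1) := by
  have hi : (0 : ℝ) ≤ i := Nat.cast_nonneg i
  have h : lg (i + 1) - lg i = Real.log (1 + 2 / ((i : ℝ) + 1)) := by
    unfold lg
    rw [← Real.log_div (by positivity) (by positivity)]
    congr 1
    push_cast
    field_simp
    ring
  rw [h]
  refine ⟨Real.log_nonneg (le_add_of_nonneg_right (by positivity)), ?_⟩
  have := Real.log_le_sub_one_of_pos (x := 1 + 2 / ((i : ℝ) + 1)) (by positivity)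
  linarith

/-- Abel summation.  With `m i = log 8 + lg i`, `Δ 0 = m 0`, `Δ (i+1) = m (i+1) - m i ≥ 0`:
`∑ a_i m_i = ∑ Δ_i ∑_{j ≥ i} a_j`, `∑_{i ≤ j} Δ_i = m_j`, `∑ Δ_i / (i+1) ≤ 5`
(`Δ (i+1) = log ((i+3)/(i+1)) ≤ 2/(i+1)`, `log 16 ≤ 3`). -/
theorem exists_abel : ∃ Δ : ℕ → ℝ, (∀ i, 0 ≤ Δ i) ∧
    (∀ j, ∑ i ∈ range (j + 1), Δ i = Real.log 8 + lg j) ∧
    ∀ s, ∑ i ∈ range s, Δ i / ((i : ℝ) + 1) ≤ 5 := by
  let Δ : ℕ → ℝ := fun i => Nat.casesOn i (Real.log 8 + lg 0) fun i => lg (i + 1) - lg i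
  have d0 : Δ 0 = Real.log 8 + lg 0 := rfl
  have d1 : ∀ i, Δ (i + 1) = lg (i + 1) - lg i := fun _ => rfl
  refine ⟨Δ, fun i => ?_, fun j => ?_, fun s => ?_⟩
  · rcases i with _ | i
    · exact add_nonneg (Real.log_nonneg (by norm_num)) (lg_nonneg 0)
    · exact (lg_succ_sub i).1
  · induction j with
    | zero => simp [d0]
    | succ j ih => rw [sum_range_succ, ih, d1]; ring
  · have key : ∀ s : ℕ, ∑ i ∈ range (s + 1), Δ i / ((i : ℝ) + 1) ≤ 5 - 2 / ((s : ℝ) + 1) := by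
      intro s
      induction s with
      | zero =>
        have h8 : Real.log 8 = 3 * Real.log 2 := by
          rw [show (8 : ℝ) = 2 ^ 3 by norm_num, Real.log_pow]; norm_num
        have := Real.log_two_lt_d9
        simp [d0, lg, h8]
        linarith
      | succ s ih =>
        have hs : (0 : ℝ) ≤ s := Nat.cast_nonneg s
        have h1 : Δ (s + 1) / ((s : ℝ) + 1 + 1) ≤ 2 / ((s : ℝ) + 1) / ((s : ℝ) + 1 + 1) :=
          div_le_div_of_nonneg_right (lg_succ_sub s).2 (by positivity)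
        have h2 : 2 / ((s : ℝ) + 1) / ((s : ℝ) + 1 + 1) =
            2 / ((s : ℝ) + 1) - 2 / ((s : ℝ) + 1 + 1) := by
          field_simp
          ring
        rw [sum_range_succ]
        push_cast
        linarith
    rcases s with _ | s
    · simp
    · have : 0 ≤ 2 / ((s : ℝ) + 1) := by positivity
      linarith [key s]

end Crest.Agent.R291
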