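import Crest.Agent.R291.DecU
import Crest.Agent.R291.Numerics

/-!
# Row 291: the expectation inequality given by decoder (U)
-/

set_option autoImplicit false
set_option linter.unusedSectionVars false

namespace Crest.Agent.R291

open Finset

variable {V : Type} [Fintype V] [LinearOrder V]

/-- Labels used by `expectU`. -/
abbrev EULab := Option (Option (Σ _ : ℕ, Option ℕ))

/-- The finite set of labels. -/
def euSet (b : ℕ → ℕ) (s : ℕ) : Finset EULab :=
  insertNone (insertNone ((range s).sigma fun i => insertNone (range (b i))))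

/-- Logarithmic weights of the labels. -/
noncomputable def euW (p : ℝ) (b : ℕ → ℕ) : EULab → ℝ
  | none => Real.log (1 - p)
  | some none => Real.log p - Real.log 2
  | some (some ⟨i, none⟩) => Real.log p - Real.log 4 - lg i
  | some (some ⟨i, some _⟩) => Real.log p - Real.log 4 - lg i - Real.log (b i)

theorem eu_sum_lg (s : ℕ) : ∑ i ∈ range s, Real.exp (-lg i) = 1 - 1 / ((s : ℝ) + 1) := by
  induction s with
  | zero => simp
  | succ s ih =>
    rw [sum_range_succ, ih, lg, Real.exp_neg, Real.exp_log (by positivity)]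
    push_cast
    field_simp
    ring

theorem eu_sum_W {p : ℝ} (hp0 : 0 < p) (hp : p ≤ 1 / 2) (b : ℕ → ℕ) (hb : ∀ i, 0 < b i) (s : ℕ) :
    ∑ l ∈ euSet b s, Real.exp (euW p b l) ≤ 1 := by
  have h1 : ∀ i ∈ range s, ∑ e ∈ insertNone (range (b i)), Real.exp (euW p b (some (some ⟨i, e⟩)))
      = p / 2 * Real.exp (-lg i) := by
    intro i _
    have hb' : (0 : ℝ) < b i := by exact_mod_cast hb i
    rw [sum_insertNone]
    simp only [euW, sum_const, card_range, nsmul_eq_mul]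
    rw [Real.exp_sub _ (Real.log _), sub_eq_add_neg _ (lg i), Real.exp_add, Real.exp_sub,
      Real.exp_log hp0, Real.exp_log (by norm_num), Real.exp_log hb']
    field_simp
    ring
  rw [euSet, sum_insertNone, sum_insertNone, sum_sigma, sum_congr rfl h1, ← mul_sum, eu_sum_lg]
  simp only [euW]
  rw [Real.exp_sub, Real.exp_log hp0, Real.exp_log (by norm_num : (0 : ℝ) < 2),
    Real.exp_log (by linarith)]
  have : 0 ≤ p / 2 * (1 / ((s : ℝ) + 1)) := by positivity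
  linarith

/-- `l` is the label of `v`. -/
def IsEULab (τ : Tr V) (b : ℕ → ℕ) (s : ℕ) (v : V) (l : EULab) : Prop :=
  (l = none ∧ v ∉ τ.T s \ U (τ.Wr b) 0 s) ∨
  (l = some none ∧ v ∈ τ.T s \ U (τ.Wr b) 0 s ∧ ∀ i < s, v ∉ τ.Ar b i) ∨
  (∃ i < s, l = some (some ⟨i, none⟩) ∧ v ∈ τ.Ar b i ∧ v ∉ τ.Er b i) ∨
  (∃ i < s, ∃ ν < b i, l = some (some ⟨i, some ν⟩) ∧ v ∈ (τ.R i).A ν ∧ v ∈ τ.Er b i)

theorem exists_euLab (τ : Tr V) (b : ℕ → ℕ) (s : ℕ) (v : V) : ∃ l, IsEULab τ b s v l := by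
  by_cases h1 : v ∈ τ.T s \ U (τ.Wr b) 0 s
  · by_cases h2 : ∀ i < s, v ∉ τ.Ar b i
    · exact ⟨_, Or.inr (Or.inl ⟨rfl, h1, h2⟩)⟩
    · push Not at h2
      obtain ⟨i, hi, h2⟩ := h2
      by_cases h3 : v ∈ τ.Er b i
      · obtain ⟨ν, -, hν, h4⟩ := mem_U.1 h2
        exact ⟨_, Or.inr (Or.inr (Or.inr ⟨i, hi, ν, hν, rfl, h4, h3⟩))⟩
      · exact ⟨_, Or.inr (Or.inr (Or.inl ⟨i, hi, rfl, h2, h3⟩))⟩
  · exact ⟨_, Or.inl ⟨rfl, h1⟩⟩

section lab
variable {u b : ℕ → ℕ} {k s : ℕ} {x : V → Bool} {τ : Tr V} {v : V} {l : EULab}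

theorem IsEULab.mem (h : IsEULab τ b s v l) : l ∈ euSet b s := by
  rcases h with ⟨rfl, -⟩ | ⟨rfl, -⟩ | ⟨i, hi, rfl, -⟩ | ⟨i, hi, ν, hν, rfl, -⟩ <;>
    simp [euSet, *]

theorem TrValid.eu_Ar_sub (h : TrValid u b k x s τ) {i : ℕ} (hi : i < s) (hv : v ∈ τ.Ar b i) :
    v ∈ τ.T s \ U (τ.Wr b) 0 s := by
  have h1 : v ∈ U (τ.Ar b) 0 s := subset_U _ (Nat.zero_le i) hi hv
  exact mem_sdiff.2 ⟨(mem_sdiff.1 (h.UAr_sub (Nat.zero_le s) le_rfl h1)).1,
    fun h2 => dj (h.UWr_UAr le_rfl le_rfl) v h2 h1⟩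

theorem TrValid.eu_Ar_unique (h : TrValid u b k x s τ) {i j : ℕ} (hi : i < s) (hj : j < s)
    (hv : v ∈ τ.Ar b i) (hv' : v ∈ τ.Ar b j) : i = j :=
  h.round_unique hi hj (h.Ar_sub hi hv) (h.Ar_sub hj hv')

omit [Fintype V] in
theorem eu_A_Ar {i ν : ℕ} (hν : ν < b i) (hv : v ∈ (τ.R i).A ν) : v ∈ τ.Ar b i :=
  subset_U _ (Nat.zero_le ν) hν hv

theorem IsEULab.none_iff (h : TrValid u b k x s τ) (hl : IsEULab τ b s v l) :
    l = none ↔ v ∉ τ.T s \ U (τ.Wr b) 0 s := by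
  rcases hl with ⟨rfl, h1⟩ | ⟨rfl, h1, -⟩ | ⟨i, hi, rfl, h1, -⟩ | ⟨i, hi, ν, hν, rfl, h1, -⟩
  · exact ⟨fun _ => h1, fun _ => rfl⟩
  · exact ⟨fun h => by simp at h, fun h => (h h1).elim⟩
  · exact ⟨fun h => by simp at h, fun h' => (h' (h.eu_Ar_sub hi h1)).elim⟩
  · exact ⟨fun h => by simp at h, fun h' => (h' (h.eu_Ar_sub hi (eu_A_Ar hν h1))).elim⟩

theorem IsEULab.Ar_iff (h : TrValid u b k x s τ) (hl : IsEULab τ b s v l) {j : ℕ} (hj : j < s) :
    v ∈ τ.Ar b j ↔ ∃ e, l = some (some ⟨j, e⟩) := by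
  rcases hl with ⟨rfl, h1⟩ | ⟨rfl, -, h1⟩ | ⟨i, hi, rfl, h1, -⟩ | ⟨i, hi, ν, hν, rfl, h1, -⟩
  · exact ⟨fun h' => (h1 (h.eu_Ar_sub hj h')).elim, fun ⟨_, h⟩ => by simp at h⟩
  · exact ⟨fun h' => (h1 j hj h').elim, fun ⟨_, h⟩ => by simp at h⟩
  · refine ⟨fun h' => ?_, fun ⟨e, h'⟩ => ?_⟩
    · obtain rfl := h.eu_Ar_unique hi hj h1 h'
      exact ⟨_, rfl⟩
    · obtain rfl : i = j := congrArg Sigma.fst (Option.some.inj (Option.some.inj h'))
      exact h1
  · refine ⟨fun h' => ?_, fun ⟨e, h'⟩ => ?_⟩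
    · obtain rfl := h.eu_Ar_unique hi hj (eu_A_Ar hν h1) h'
      exact ⟨_, rfl⟩
    · obtain rfl : i = j := congrArg Sigma.fst (Option.some.inj (Option.some.inj h'))
      exact eu_A_Ar hν h1

theorem IsEULab.AE_iff (h : TrValid u b k x s τ) (hl : IsEULab τ b s v l) {j μ : ℕ} (hj : j < s)
    (hμ : μ < b j) : v ∈ (τ.R j).A μ ∩ τ.Er b j ↔ l = some (some ⟨j, some μ⟩) := by
  rw [mem_inter]
  rcases hl with ⟨rfl, h1⟩ | ⟨rfl, -, h1⟩ | ⟨i, hi, rfl, h1, h2⟩ | ⟨i, hi, ν, hν, rfl, h1, h2⟩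
  · exact ⟨fun h' => (h1 (h.eu_Ar_sub hj (eu_A_Ar hμ h'.1))).elim, fun h => by simp at h⟩
  · exact ⟨fun h' => (h1 j hj (eu_A_Ar hμ h'.1)).elim, fun h => by simp at h⟩
  · refine ⟨fun h' => ?_, fun h' => ?_⟩
    · obtain rfl := h.eu_Ar_unique hi hj h1 (eu_A_Ar hμ h'.1)
      exact (h2 h'.2).elim
    · simp at h'
  · refine ⟨fun h' => ?_, fun h' => ?_⟩
    · obtain rfl := h.eu_Ar_unique hi hj (eu_A_Ar hν h1) (eu_A_Ar hμ h'.1)
      obtain rfl := (h.round i hi).A_A hν hμ h1 h'.1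
      rfl
    · obtain ⟨rfl, h3⟩ : i = j ∧ ν = μ := by simpa using h'
      subst h3
      exact ⟨h1, h2⟩

theorem IsEULab.weight (h : TrValid u b k x s τ) (hl : IsEULab τ b s v l) {p : ℝ} :
    Real.log (if v ∈ τ.T s then p else 1 - p) +
        (if v ∈ U (τ.Wr b) 0 s then Real.log (1 - p) - Real.log p else 0) -
        (if v ∈ τ.T s then Real.log 2 else 0) -
        ∑ i ∈ range s, ((if v ∈ τ.Ar b i then Real.log 4 + lg i else 0) +
          if v ∈ τ.Ar b i ∩ τ.Er b i then Real.log (b i) else 0) ≤ euW p b l := by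
  have l2 : 0 ≤ Real.log 2 := Real.log_nonneg (by norm_num)
  have hz : (∀ i < s, v ∉ τ.Ar b i) → ∑ i ∈ range s, ((if v ∈ τ.Ar b i then Real.log 4 + lg i else 0) +
          if v ∈ τ.Ar b i ∩ τ.Er b i then Real.log (b i) else 0) = 0 := fun h1 =>
    sum_eq_zero fun i hi => by simp [h1 i (mem_range.1 hi)]
  have ho : ∀ i < s, v ∈ τ.Ar b i → ∑ i ∈ range s, ((if v ∈ τ.Ar b i then Real.log 4 + lg i else 0) +
          if v ∈ τ.Ar b i ∩ τ.Er b i then Real.log (b i) else 0) = Real.log 4 + lg i +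
          if v ∈ τ.Er b i then Real.log (b i) else 0 := fun i hi h1 => by
    rw [sum_eq_single_of_mem i (mem_range.2 hi)]
    · simp [h1]
    · intro j hj hne
      have : v ∉ τ.Ar b j := fun h2 => hne (h.eu_Ar_unique (mem_range.1 hj) hi h2 h1)
      simp [this]
  rcases hl with ⟨rfl, h1⟩ | ⟨rfl, h1, h2⟩ | ⟨i, hi, rfl, h1, h2⟩ | ⟨i, hi, ν, hν, rfl, h1, h2⟩
  · rw [hz fun i hi h2 => h1 (h.eu_Ar_sub hi h2)]
    by_cases hW : v ∈ U (τ.Wr b) 0 s
    · have hT := (mem_sdiff.1 (h.UWr_sub (Nat.zero_le s) le_rfl hW)).1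
      simp only [hW, hT, if_true, euW]
      linarith
    · have hT : v ∉ τ.T s := fun hT => h1 (mem_sdiff.2 ⟨hT, hW⟩)
      simp only [hW, hT, if_false, euW]
      linarith
  · rw [hz h2]
    obtain ⟨hT, hW⟩ := mem_sdiff.1 h1
    simp only [hW, hT, if_true, if_false, euW]
    linarith
  · rw [ho i hi h1]
    obtain ⟨hT, hW⟩ := mem_sdiff.1 (h.eu_Ar_sub hi h1)
    simp only [hW, hT, h2, if_true, if_false, euW]
    linarith
  · rw [ho i hi (eu_A_Ar hν h1)]
    obtain ⟨hT, hW⟩ := mem_sdiff.1 (h.eu_Ar_sub hi (eu_A_Ar hν h1))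
    simp only [hW, hT, h2, if_true, if_false, euW]
    linarith

end lab

theorem eu_sum_ite (S : Finset V) (c : ℝ) : ∑ v : V, (if v ∈ S then c else 0) = S.card * c := by
  rw [sum_ite_mem, univ_inter, sum_const, nsmul_eq_mul]

/-- The pointwise comparison of weights. -/
theorem eu_point {w k s : ℕ} (hw : 8 ≤ w) (hk : 0 < k) {p Λ : ℝ} (hp0 : 0 < p) (hp : p ≤ 1 / 2)
    (hΛ : p * k ≤ Λ) {x : V → Bool} {τ : Tr V} (h : TrValid (thr w) (blk w) k x s τ)
    {lab : V → EULab} (hl : ∀ v, IsEULab τ (blk w) s v (lab v)) :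
    pw p ∅ (τ.T s) * Real.exp (∑ i ∈ range s, (((τ.Wr (blk w) i).card : ℝ) *
          (7 / 8 * Real.log (thr w i) - Real.log (144 * Λ)) -
        ((τ.Ar (blk w) i).card : ℝ) * (Real.log 8 + lg i)) - ((τ.T s).card : ℝ) * Real.log 2) ≤
      (∏ v, Real.exp (euW p (blk w) (lab v))) * ∏ i ∈ range s,
        (((thr w i : ℝ) / (72 * k)) ^ (τ.Wr (blk w) i).card * (1 / 2) ^ (τ.Ar (blk w) i).card) := by
  have hk' : (0 : ℝ) < k := by exact_mod_cast hk
  have hu : ∀ i, (0 : ℝ) < thr w i := fun i => by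
    have := le_thr hw i
    exact_mod_cast (by omega : 0 < thr w i)
  have e1 : pw p ∅ (τ.T s) = Real.exp (∑ v, Real.log (if v ∈ τ.T s then p else 1 - p)) := by
    rw [Real.exp_sum, pw, sdiff_empty]
    refine prod_congr rfl fun v _ => (Real.exp_log ?_).symm
    split_ifs <;> linarith
  have e2 : ∏ i ∈ range s,
      (((thr w i : ℝ) / (72 * k)) ^ (τ.Wr (blk w) i).card * (1 / 2) ^ (τ.Ar (blk w) i).card) =
      Real.exp (∑ i ∈ range s, (((τ.Wr (blk w) i).card : ℝ) *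
        (Real.log (thr w i) - Real.log (72 * k)) - (τ.Ar (blk w) i).card * Real.log 2)) := by
    rw [Real.exp_sum]
    refine prod_congr rfl fun i _ => ?_
    rw [sub_eq_add_neg _ (_ * Real.log 2), Real.exp_add, ← mul_neg, Real.exp_nat_mul,
      Real.exp_nat_mul, Real.exp_sub, Real.exp_neg, Real.exp_log (hu i),
      Real.exp_log (by positivity), Real.exp_log (by norm_num), one_div]
  rw [e1, e2, ← Real.exp_sum, ← Real.exp_add, ← Real.exp_add, Real.exp_le_exp]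
  have h1 := sum_le_sum fun v (_ : v ∈ (univ : Finset V)) => (hl v).weight h (p := p)
  rw [sum_sub_distrib, sum_sub_distrib, sum_add_distrib, eu_sum_ite, eu_sum_ite, sum_comm,
    h.card_U (fun i hi => h.Wr_sub hi) le_rfl, ← range_eq_Ico, Nat.cast_sum, sum_mul] at h1
  simp only [sum_add_distrib, eu_sum_ite] at h1
  rw [← sum_add_distrib] at h1
  have hlog : Real.log (72 * k) - (Real.log (1 - p) - Real.log p) ≤ Real.log (144 * Λ) := by
    have h1p : 0 < 1 - p := by linarith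
    rw [← Real.log_div h1p.ne' hp0.ne', ← Real.log_div (by positivity) (by positivity)]
    refine Real.log_le_log (by positivity) ?_
    rw [div_div_eq_mul_div, div_le_iff₀ h1p]
    have : 0 < p * k := by positivity
    nlinarith
  have l8 : Real.log 8 = Real.log 4 + Real.log 2 := by
    rw [← Real.log_mul (by norm_num) (by norm_num)]; norm_num
  have h2 : ∑ i ∈ range s, (((τ.Wr (blk w) i).card : ℝ) *
          (7 / 8 * Real.log (thr w i) - Real.log (144 * Λ)) -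
        ((τ.Ar (blk w) i).card : ℝ) * (Real.log 8 + lg i)) ≤
      ∑ i ∈ range s, (((τ.Wr (blk w) i).card : ℝ) * (Real.log (1 - p) - Real.log p) -
        (((τ.Ar (blk w) i).card : ℝ) * (Real.log 4 + lg i) +
          ((τ.Ar (blk w) i ∩ τ.Er (blk w) i).card : ℝ) * Real.log (blk w i)) +
        (((τ.Wr (blk w) i).card : ℝ) * (Real.log (thr w i) - Real.log (72 * k)) -
          (τ.Ar (blk w) i).card * Real.log 2)) := by
    refine sum_le_sum fun i hi => ?_
    have hi' := mem_range.1 hi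
    have b1 := blk_pos hw i
    have b2 := blk_le w i
    have b3 := h.Er_bound hi'
    have b4 : 8 * (τ.Ar (blk w) i ∩ τ.Er (blk w) i).card ≤ (τ.Wr (blk w) i).card := by
      have b5 : (τ.Ar (blk w) i ∩ τ.Er (blk w) i).card ≤ (τ.Er (blk w) i).card :=
        card_le_card inter_subset_right
      have b6 : blk w i * (8 * (τ.Er (blk w) i).card) ≤ blk w i * (τ.Wr (blk w) i).card := by
        nlinarith
      have := Nat.le_of_mul_le_mul_left b6 b1
      omega
    have b4' : 8 * ((τ.Ar (blk w) i ∩ τ.Er (blk w) i).card : ℝ) ≤ (τ.Wr (blk w) i).card := by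
      exact_mod_cast b4
    have c1 : 0 ≤ Real.log (blk w i) := Real.log_natCast_nonneg _
    have c2 : Real.log (blk w i) ≤ Real.log (thr w i) :=
      Real.log_le_log (by exact_mod_cast b1) (by exact_mod_cast (by omega : blk w i ≤ thr w i))
    have c3 : (0 : ℝ) ≤ (τ.Wr (blk w) i).card := Nat.cast_nonneg _
    rw [l8]
    nlinarith [mul_le_mul_of_nonneg_left hlog c3, mul_le_mul_of_nonneg_left c2 c3,
      mul_le_mul_of_nonneg_right b4' c1]
  rw [sum_add_distrib, sum_sub_distrib (s := range s)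
    (fun i => ((τ.Wr (blk w) i).card : ℝ) * (Real.log (1 - p) - Real.log p))] at h2
  linarith

/-- RECIPE.  Outcomes `o = (x, T) ∈ satSet F ×ˢ univ`, `μ o = pw p ∅ T`, total mass `|S|`
(`sum_pw`); apply `jensen_exp` with `Z o` the bracket.  To bound `∑ μ e^Z ≤ 2^n ≤ |S| e^β` attach to
`o` the data `z o = flip x (U Jr 0 s)` and the label function `lab o : V → Option (Option (ℕ × Option ℕ))`:
`none` if `v ∉ T \ U Wr 0 s` (weight `1-p`); `some (some (i, some ν))` if `v ∈ (R i).A ν ∩ Er i`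
(`i<s`, `ν < blk w i`; weight `p π_i / (4 blk w i)`); `some (some (i, none))` if `v ∈ Ar i \ Er i`
(weight `p π_i / 4`); `some none` otherwise (weight `p/2`); `π_i = 1/((i+1)(i+2)) = exp (-lg i)`.
The indices are unique (`TrValid.round_unique`, `Valid.A_A`; `Ar i ⊆ T \ U Wr 0 s` by
`UAr_sub`, `UWr_UAr`), the total weight of the finite label set is `≤ 1`, so
`∑_{lab} ∏_v wt (lab v) ≤ 1` (`Finset.prod_univ_sum` over `Fintype.piFinset`).  On a fibre of
`(z, lab)` the hypotheses of `decU` hold with `𝒜 i = {v | ∃ e, lab v = some (some (i, e))}`,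
`ℰ i ν = {v | lab v = some (some (i, some ν))}`, and `T = {lab ≠ none} ∪ U Wr 0 s` gives
injectivity; `u = thr w` satisfies `i + 1 ≤ u i` (`le_thr`).  Finally, pointwise,
`pw p ∅ T * e^Z ≤ (∏_v wt (lab v)) * ∏_i ((u_i/(72k))^{r_i} (1/2)^{a_i})`: compare
`log wt (lab v)` with `log (if v ∈ T then p else 1-p) + [v ∈ U Wr] log ((1-p)/p) - [v ∈ T] log 2
- ∑_i [v ∈ Ar i] (log 4 + lg i) - ∑_i [v ∈ Ar i ∩ Er i] log (blk w i)` and use
`(1-p)/(72 k p) ≥ 1/(144 Λ)`, `|U Wr 0 s| = ∑ r_i` (`TrValid.card_U`),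
`8 |Er i| ≤ r_i` (`Er_bound`, `blk_le`), `1 ≤ blk w i ≤ thr w i`. -/
theorem expectU (w k s : ℕ) (hw : 8 ≤ w) (hk : 0 < k) (p Λ β : ℝ) (hp0 : 0 < p) (hp : p ≤ 1 / 2)
    (hΛ : p * k ≤ Λ) (F : Finset (Pat V)) (τ : (V → Bool) → Finset V → Tr V)
    (hτ : ∀ x ∈ satSet F, ∀ T, TrValid (thr w) (blk w) k x s (τ x T) ∧ (τ x T).Φ s = F ∧
      (τ x T).T s = T)
    (hβ : (2 : ℝ) ^ Fintype.card V ≤ (satSet F).card * Real.exp β) :
    ∑ x ∈ satSet F, ∑ T : Finset V, pw p ∅ T *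
      (∑ i ∈ range s, ((((τ x T).Wr (blk w) i).card : ℝ) *
          (7 / 8 * Real.log (thr w i) - Real.log (144 * Λ)) -
        (((τ x T).Ar (blk w) i).card : ℝ) * (Real.log 8 + lg i)) - (T.card : ℝ) * Real.log 2)
      ≤ (satSet F).card * β := by
  classical
  choose lab hlab using fun (o : (V → Bool) × Finset V) v => exists_euLab (τ o.1 o.2) (blk w) s v
  set O : Finset ((V → Bool) × Finset V) := satSet F ×ˢ univ with hO
  have hv : ∀ o ∈ O, TrValid (thr w) (blk w) k o.1 s (τ o.1 o.2) ∧ (τ o.1 o.2).Φ s = F ∧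
      (τ o.1 o.2).T s = o.2 := fun o ho => hτ o.1 (mem_product.1 ho).1 o.2
  rw [← sum_product' (satSet F) univ]
  refine jensen_exp O (fun o => pw p ∅ o.2) _ _ β
    (fun o _ => pw_nonneg hp0.le (by linarith) _ _) ?_ (le_trans ?_ hβ)
  · rw [hO, sum_product]
    simp [sum_pw]
  set D : (V → Bool) × Finset V → ℝ := fun o => ∏ i ∈ range s,
    (((thr w i : ℝ) / (72 * k)) ^ ((τ o.1 o.2).Wr (blk w) i).card *
      (1 / 2) ^ ((τ o.1 o.2).Ar (blk w) i).card) with hD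
  set Wt : (V → EULab) → ℝ := fun l => ∏ v, Real.exp (euW p (blk w) (l v)) with hWt
  set g : (V → Bool) × Finset V → (V → Bool) × (V → EULab) := fun o =>
    (flip o.1 (U ((τ o.1 o.2).Jr (blk w)) 0 s), lab o) with hg
  set P : Finset (V → EULab) := Fintype.piFinset fun _ => euSet (blk w) s with hP
  have hmaps : ∀ o ∈ O, g o ∈ (univ : Finset (V → Bool)) ×ˢ P := fun o _ =>
    mem_product.2 ⟨mem_univ _, Fintype.mem_piFinset.2 fun v => (hlab o v).mem⟩
  have hW1 : ∑ l ∈ P, Wt l ≤ 1 := by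
    rw [hP, hWt, ← prod_univ_sum (fun _ : V => euSet (blk w) s)
      (fun _ l => Real.exp (euW p (blk w) l))]
    exact prod_le_one (fun _ _ => sum_nonneg fun _ _ => (Real.exp_pos _).le)
      fun _ _ => eu_sum_W hp0 hp _ (blk_pos hw) s
  have hW0 : ∀ l, 0 ≤ Wt l := fun l => prod_nonneg fun _ _ => (Real.exp_pos _).le
  have hfib : ∀ a : (V → Bool) × (V → EULab), ∑ o ∈ O with g o = a, D o ≤ 1 := by
    rintro ⟨z, l⟩
    have hm : ∀ o ∈ O.filter fun o => g o = (z, l), o ∈ O ∧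
        flip o.1 (U ((τ o.1 o.2).Jr (blk w)) 0 s) = z ∧
        ∀ v, IsEULab (τ o.1 o.2) (blk w) s v (l v) := fun o ho => by
      obtain ⟨h1, h2⟩ := mem_filter.1 ho
      obtain ⟨h3, h4⟩ := Prod.mk.inj h2
      exact ⟨h1, h3, h4 ▸ hlab o⟩
    have hA : ∀ o ∈ O.filter fun o => g o = (z, l), ∀ i < s, (τ o.1 o.2).Ar (blk w) i =
        univ.filter fun v => ∃ e, l v = some (some ⟨i, e⟩) := fun o ho i hi => by
      ext v
      rw [mem_filter, ((hm o ho).2.2 v).Ar_iff (hv o (hm o ho).1).1 hi]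
      simp
    refine le_of_eq_of_le ?_ (decU (thr w) (blk w) k hk (fun i => by have := le_thr hw i; omega)
      (fun o : (V → Bool) × Finset V => o.1) (fun o => τ o.1 o.2)
      (fun i => univ.filter fun v => ∃ e, l v = some (some ⟨i, e⟩))
      (fun i ν => univ.filter fun v => l v = some (some ⟨i, some ν⟩)) s
      (O.filter fun o => g o = (z, l)) F z (fun o ho => (hv o (hm o ho).1).1)
      (fun o ho => (hv o (hm o ho).1).2.1) (fun o ho => (hm o ho).2.1) hA ?_ ?_)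
    · refine sum_congr rfl fun o ho => prod_congr rfl fun i hi => ?_
      rw [hA o ho i (mem_range.1 hi)]
    · intro o ho i hi ν hν
      ext v
      rw [mem_filter, ((hm o ho).2.2 v).AE_iff (hv o (hm o ho).1).1 hi hν]
      simp
    · intro o ho o' ho' h1 h2
      refine Prod.ext h1 ?_
      obtain ⟨a1, -, a2⟩ := hv o (hm o ho).1
      obtain ⟨b1, -, b2⟩ := hv o' (hm o' ho').1
      ext v
      have c1 := ((hm o ho).2.2 v).none_iff a1
      have c2 := ((hm o' ho').2.2 v).none_iff b1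
      have c3 := @Finset.mem_of_subset _ _ _ v (a1.UWr_sub (Nat.zero_le s) le_rfl)
      have c4 := @Finset.mem_of_subset _ _ _ v (b1.UWr_sub (Nat.zero_le s) le_rfl)
      rw [← h2] at c2 c4
      rw [a2] at c1 c3
      rw [b2] at c2 c4
      simp only [mem_sdiff] at c1 c2 c3 c4
      tauto
  calc _ ≤ ∑ o ∈ O, Wt (lab o) * D o := by
        refine sum_le_sum fun o ho => ?_
        obtain ⟨a1, -, a2⟩ := hv o ho
        have := eu_point hw hk hp0 hp hΛ a1 (hlab o)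
        rw [a2] at this
        exact this
    _ = ∑ a ∈ (univ : Finset (V → Bool)) ×ˢ P, ∑ o ∈ O with g o = a, Wt (lab o) * D o :=
        (sum_fiberwise_of_maps_to hmaps _).symm
    _ ≤ ∑ a ∈ (univ : Finset (V → Bool)) ×ˢ P, Wt a.2 := by
        refine sum_le_sum fun a _ => ?_
        have : ∑ o ∈ O with g o = a, Wt (lab o) * D o = Wt a.2 * ∑ o ∈ O with g o = a, D o := by
          rw [mul_sum]
          refine sum_congr rfl fun o ho => ?_
          rw [← (mem_filter.1 ho).2]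
        rw [this]
        exact mul_le_of_le_one_right (hW0 _) (hfib a)
    _ ≤ ∑ _z : V → Bool, (1 : ℝ) := by
        rw [sum_product]
        exact sum_le_sum fun z _ => hW1
    _ = 2 ^ Fintype.card V := by simp

end Crest.Agent.R291
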