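import Crest.Agent.Lib.PolyTime.More
import Crest.Agent.Lib.PolyTime.Bridge

/-!
# Row 291: the language.  Input = `x` (`n = N/4` bits), a Toeplitz seed, a small matrix.
-/

set_option autoImplicit false

namespace Crest.Agent.R291

open Finset

/-- `ℓ = log₂ n + 1`, so `n < 2^ℓ`. -/
def ell (n : ℕ) : ℕ := Nat.log 2 n + 1
/-- number of parity checks -/
def nA (n : ℕ) : ℕ := ell n ^ 2
/-- number of rows of the Toeplitz matrix -/
def nQ (n : ℕ) : ℕ := Nat.sqrt n * ell n ^ 2

/-- bit `i` of a word as a number -/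
def bit (w : List Bool) (i : ℕ) : ℕ := (w.getD i false).toNat

/-- the `i`-th check (as a natural number, to be read mod 2) -/
def check (w : List Bool) (n i : ℕ) : ℕ :=
  ∑ j ∈ range (nQ n), bit w (3 * n + (i * nQ n + j)) *
    ∑ l ∈ range n, bit w (n + (j + l)) * bit w l

/-- The hard language. -/
def Lang : Set (List Bool) :=
  {w | ∀ i < nA (w.length / 4), check w (w.length / 4) i % 2 = 0}

/-- The same test with the seeds `s`, `h` as functions. -/
def HashOK (n : ℕ) (s : ℕ → Bool) (h : ℕ → ℕ → Bool) (y : Fin n → Bool) : Prop :=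
  ∀ i < nA n, (∑ j ∈ range (nQ n), (h i j).toNat *
    ∑ l : Fin n, (s (j + l)).toNat * (y l).toNat) % 2 = 0

instance (n : ℕ) (s : ℕ → Bool) (h : ℕ → ℕ → Bool) (y : Fin n → Bool) :
    Decidable (HashOK n s h y) := by
  unfold HashOK; infer_instance

/-- The seed part of the input word. -/
def seedBits (n : ℕ) (s : ℕ → Bool) (h : ℕ → ℕ → Bool) (t : ℕ) : Bool :=
  if t < 3 * n then s (t - n) else h ((t - 3 * n) / nQ n) ((t - 3 * n) % nQ n)

/-- Extend `y : Fin n → Bool` to `N` bits by the fixed bits `σ`. -/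
def ext (n N : ℕ) (σ : ℕ → Bool) (y : Fin n → Bool) : Fin N → Bool :=
  fun t => if h : (t : ℕ) < n then y ⟨t, h⟩ else σ t

section pt
open Crest.Agent.Lib.PolyTime
variable {α : Type} [Enc α]

@[fun_prop] theorem pt_bit {w : α → List Bool} {i : α → ℕ} (hw : PT w) (hi : PT i) :
    PT fun a => bit (w a) (i a) := by unfold bit; fun_prop
@[fun_prop] theorem pt_ell {n : α → ℕ} (hn : PT n) : PT fun a => ell (n a) := by unfold ell; fun_prop
@[fun_prop] theorem pb_ell {n : α → ℕ} (hn : PT n) : PB fun a => ell (n a) := by unfold ell; fun_prop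
@[fun_prop] theorem pt_nQ {n : α → ℕ} (hn : PT n) : PT fun a => nQ (n a) := by unfold nQ; fun_prop
theorem pb_nQ {n : α → ℕ} (hn : PT n) (hn' : PB n) : PB fun a => nQ (n a) := by unfold nQ; fun_prop
theorem pt_nA {n : α → ℕ} (hn : PT n) : PT fun a => nA (n a) := by unfold nA; fun_prop
theorem pb_nA {n : α → ℕ} (hn : PT n) : PB fun a => nA (n a) := by unfold nA; fun_prop

theorem pt_inner {w : α → List Bool} {n j : α → ℕ} (hw : PT w) (hn : PT n) (hn' : PB n) (hj : PT j) :
    PT fun a => ∑ l ∈ range (n a), bit (w a) (n a + (j a + l)) * bit (w a) l :=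
  PT.sum_range_nat hn hn' (by fun_prop)

theorem pt_check {w : α → List Bool} {n i : α → ℕ} (hw : PT w) (hn : PT n) (hn' : PB n) (hi : PT i) :
    PT fun a => check (w a) (n a) (i a) := by
  unfold check
  refine PT.sum_range_nat (pt_nQ hn) (pb_nQ hn hn') ?_
  have h1 : PT fun p : α × ℕ => ∑ l ∈ range (n p.1), bit (w p.1) (n p.1 + (p.2 + l)) * bit (w p.1) l :=
    pt_inner (by fun_prop) (by fun_prop) (by fun_prop) (by fun_prop)
  have h2 : PT fun p : α × ℕ => bit (w p.1) (3 * n p.1 + (i p.1 * nQ (n p.1) + p.2)) := by fun_prop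
  exact PT.nat_mul h2 h1

end pt

open Crest.Agent.Lib.PolyTime in
/-- RECIPE: `Crest.Agent.PolyTime.PT.inP` and `fun_prop`/`pt` (see `Lib/PolyTime/More.lean`:
`sum_range_nat`, `nat_log`, `PT.sqrt`, bounded quantifiers; `nA`, `nQ` are polynomially bounded:
`PB.log`, `PB.sqrt`). -/
theorem lang_inP : Crest.Complexity.InP Lang := by
  refine Crest.Agent.Lib.PolyTime.PT.inP ?_
  simp only [Lang, Set.mem_ofPred_eq]
  refine PT.forall_lt (pt_nA (by fun_prop)) (pb_nA (by fun_prop)) ?_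
  have h1 : PT fun p : List Bool × ℕ => check p.1 (p.1.length / 4) p.2 :=
    pt_check (by fun_prop) (by fun_prop) (by fun_prop) (by fun_prop)
  fun_prop

/-- RECIPE: unfold; `(List.ofFn f).getD t false = f ⟨t, _⟩` for `t < N`; indices
`n + (j + l) < 3n` as `j < nQ n ≤ n`, `3n + (i q + j) < 4n ≤ N` as `i q + j < nA n * nQ n ≤ n`;
`(i q + j) / q = i`, `(i q + j) % q = j`; `Finset.sum_range` / `Fin.sum_univ_eq_sum_range`. -/
theorem ofFn_ext_mem_lang (N : ℕ) (s : ℕ → Bool) (h : ℕ → ℕ → Bool)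
    (hq : nA (N / 4) * nQ (N / 4) ≤ N / 4) (y : Fin (N / 4) → Bool) :
    List.ofFn (ext (N / 4) N (seedBits (N / 4) s h) y) ∈ Lang ↔ HashOK (N / 4) s h y := by
  obtain ⟨n, hn⟩ : ∃ n, n = N / 4 := ⟨_, rfl⟩
  revert y
  rw [← hn] at hq ⊢
  intro y
  have hb : ∀ (f : Fin N → Bool) (t : ℕ) (ht : t < N), bit (List.ofFn f) t = (f ⟨t, ht⟩).toNat := by
    intro f t ht
    simp [bit, List.getD_eq_getElem?_getD, ht]
  simp only [Lang, Set.mem_ofPred_eq, List.length_ofFn, ← hn, HashOK]
  refine forall₂_congr fun i hi => ?_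
  have hA : 1 ≤ nA n := by omega
  have hQ : nQ n ≤ n := le_trans (Nat.le_mul_of_pos_left _ hA) hq
  have : check (List.ofFn (ext n N (seedBits n s h) y)) n i =
      ∑ j ∈ range (nQ n), (h i j).toNat * ∑ l : Fin n, (s (j + l)).toNat * (y l).toNat := by
    unfold check
    refine sum_congr rfl fun j hj => ?_
    have hj' := mem_range.1 hj
    have h1 : i * nQ n + j < n := by
      have : (i + 1) * nQ n ≤ nA n * nQ n := Nat.mul_le_mul_right _ hi
      nlinarith
    congr 1
    · rw [hb _ _ (by omega)]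
      simp only [ext, seedBits]
      rw [dif_neg (by omega), if_neg (by omega), Nat.add_sub_cancel_left, add_comm,
        Nat.add_mul_div_right _ _ (by omega), Nat.add_mul_mod_self_right, Nat.div_eq_of_lt hj',
        Nat.mod_eq_of_lt hj', zero_add]
    · rw [Finset.sum_range]
      refine sum_congr rfl fun l _ => ?_
      have hl := l.isLt
      rw [hb _ _ (by omega), hb _ _ (by omega)]
      simp only [ext, seedBits]
      rw [dif_neg (by omega), if_pos (by omega), Nat.add_sub_cancel_left, dif_pos hl]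
  rw [this]

/-- RECIPE: `ℓ^4 ≤ √n` and `c ≤ ℓ` eventually (e.g. from `isLittleO_pow_log_id_atTop`-type facts or
an elementary bound `2^(ℓ-1) ≤ n < (√n+1)^2`). -/
theorem params_eventually (c : ℕ) : ∃ n₀, ∀ n ≥ n₀,
    c ≤ ell n ∧ ell n ^ 4 ≤ Nat.sqrt n ∧ c ≤ Nat.sqrt n := by
  have key : ∀ k : ℕ, 48 ≤ k → (k + 1) ^ 8 ≤ 2 ^ k := by
    intro k hk
    induction k, hk using Nat.le_induction with
    | base => norm_num
    | succ k hk ih =>
      have h1 : 49 * (k + 2) ≤ 50 * (k + 1) := by omega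
      have h2 := Nat.pow_le_pow_left h1 8
      rw [mul_pow, mul_pow] at h2
      have h3 : (k + 1 + 1) ^ 8 ≤ 2 * (k + 1) ^ 8 := by
        have : 50 ^ 8 * (k + 1) ^ 8 ≤ 49 ^ 8 * (2 * (k + 1) ^ 8) := by
          rw [← mul_assoc]; exact Nat.mul_le_mul_right _ (by norm_num)
        exact Nat.le_of_mul_le_mul_left (h2.trans this) (by norm_num)
      rw [pow_succ 2 k]
      omega
  refine ⟨2 ^ (c + 48), fun n hn => ?_⟩
  have h0 : n ≠ 0 := by have := Nat.two_pow_pos (c + 48); omega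
  have h1 : c + 48 ≤ Nat.log 2 n := Nat.le_log_of_pow_le (by norm_num) hn
  have h2 : ell n ^ 4 ≤ Nat.sqrt n := by
    rw [Nat.le_sqrt, ← pow_add]
    exact (key _ (by omega)).trans (Nat.pow_log_le_self 2 h0)
  have h3 : c ≤ ell n := by unfold ell; omega
  exact ⟨h3, h2, h3.trans ((Nat.le_self_pow (by norm_num) _).trans h2)⟩

end Crest.Agent.R291
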