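import Crest.Prelude.Def_Depth3
import Crest.Agent.R291.Basic
import Crest.Agent.R291.Lang

/-!
# Row 291: from a depth-three circuit to one dense `k`-CNF
-/

set_option autoImplicit false

namespace Crest.Agent.R291

open Finset Crest.Depth3

theorem reduce_card_fals {n : ℕ} (d : Pat (Fin n)) :
    2 ^ (vars d).card * (univ.filter (Fals d)).card ≤ 2 ^ n := by
  have h := card_le_card_of_injOn (s := (vars d).powerset ×ˢ univ.filter (Fals d))
    (t := (univ : Finset (Fin n → Bool))) (fun p => flip p.2 p.1) (fun _ _ => mem_univ _) (by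
      rintro ⟨T, y⟩ h ⟨T', y'⟩ h' e
      simp only [coe_product, coe_powerset, Set.mem_prod, Set.mem_preimage, Set.mem_powerset_iff,
        coe_subset, coe_filter, mem_univ, true_and, Set.mem_ofPred_eq] at h h' e
      have key : ∀ v, (v ∈ T ↔ v ∈ T') ∧ y v = y' v := by
        intro v
        have e1 := congrFun e v
        have a1 := h.2 v
        have a2 := h'.2 v
        have a3 := @h.1 v
        have a4 := @h'.1 v
        simp only [flip_apply, ag_iff, mem_vars] at e1 a1 a2 a3 a4
        by_cases b1 : v ∈ T <;> by_cases b2 : v ∈ T' <;> simp only [b1, b2, if_true, if_false] at e1 <;>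
          grind
      rw [Prod.mk.injEq]
      exact ⟨by ext v; exact (key v).1, funext fun v => (key v).2⟩)
  simpa using h

theorem reduce_trunc {n : ℕ} (k : ℕ) (d : Pat (Fin n)) :
    ∃ d' : Pat (Fin n), (vars d').card ≤ k ∧ (∀ y, Fals d y → Fals d' y) ∧
      2 ^ k * (univ.filter fun y => Fals d' y ∧ ¬ Fals d y).card ≤ 2 ^ n := by
  by_cases h : (vars d).card ≤ k
  · exact ⟨d, h, fun _ h => h, by simp⟩
  obtain ⟨S, hS, hk⟩ := exists_subset_card_eq (s := vars d) (n := k) (by omega)
  have hv : vars (erase d (vars d \ S)) = S := by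
    rw [vars_erase, Finset.sdiff_sdiff_eq_self hS]
  refine ⟨erase d (vars d \ S), by rw [hv, hk], fun y hy v => ?_, ?_⟩
  · have := hy v
    simp only [ag_iff, erase_apply] at this ⊢
    split_ifs
    · exact Or.inl rfl
    · exact this
  · have := reduce_card_fals (erase d (vars d \ S))
    rw [hv, hk] at this
    refine le_trans (Nat.mul_le_mul_left _ (card_le_card fun y hy => ?_)) this
    simp only [mem_filter] at hy ⊢
    exact ⟨hy.1, hy.2.1⟩

theorem reduce_gate (n N k : ℕ) (σ : ℕ → Bool) (o : Bool) (l : Finset (Fin N × Bool)) :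
    ∃ G : Finset (Pat (Fin n)), (∀ d ∈ G, (vars d).card ≤ k) ∧
      (∀ y, Sat G y → (o = true ∨ ∃ t ∈ l, ext n N σ y t.1 = t.2)) ∧
      2 ^ k * (univ.filter fun y => (o = true ∨ ∃ t ∈ l, ext n N σ y t.1 = t.2) ∧ ¬ Sat G y).card ≤
        2 ^ n := by
  by_cases h : ∀ y, (o = true ∨ ∃ t ∈ l, ext n N σ y t.1 = t.2)
  · exact ⟨∅, by simp, fun y _ => h y, by simp [Sat]⟩
  obtain ⟨y₀, h0⟩ := not_forall.1 h
  let d : Pat (Fin n) := fun v => if ∃ t ∈ l, (t.1 : ℕ) = v then some (y₀ v) else none
  have hd : ∀ y, Fals d y ↔ ¬ (o = true ∨ ∃ t ∈ l, ext n N σ y t.1 = t.2) := by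
    intro y
    constructor
    · rintro hy (ho | ⟨t, ht, e⟩)
      · exact h0 (Or.inl ho)
      · refine h0 (Or.inr ⟨t, ht, ?_⟩)
        rw [← e]
        simp only [ext]
        split_ifs with hlt
        · have := hy ⟨t.1, hlt⟩
          have hex : ∃ t' ∈ l, (t'.1 : ℕ) = (⟨t.1, hlt⟩ : Fin n) := ⟨t, ht, rfl⟩
          simp only [ag_iff, d, if_pos hex] at this
          simpa using this
        · rfl
    · intro hy v
      simp only [ag_iff, d]
      split_ifs with hv
      · obtain ⟨t, ht, e⟩ := hv
        have a1 : ext n N σ y t.1 ≠ t.2 := fun e => hy (Or.inr ⟨t, ht, e⟩)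
        have a2 : ext n N σ y₀ t.1 ≠ t.2 := fun e => h0 (Or.inr ⟨t, ht, e⟩)
        have hlt : (t.1 : ℕ) < n := e ▸ v.isLt
        have hv : (⟨t.1, hlt⟩ : Fin n) = v := Fin.ext e
        simp only [ext, dif_pos hlt, hv] at a1 a2
        right
        congr 1
        revert a1 a2
        cases y v <;> cases y₀ v <;> cases t.2 <;> simp
      · exact Or.inl rfl
  obtain ⟨d', h1, h2, h3⟩ := reduce_trunc k d
  refine ⟨{d'}, by simpa using h1, fun y hy => ?_, ?_⟩
  · by_contra hc
    exact hy d' (mem_singleton_self _) (h2 y ((hd y).2 hc))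
  · refine le_trans (Nat.mul_le_mul_left _ (card_le_card fun y hy => ?_)) h3
    simp only [mem_filter, mem_univ, true_and, Sat, mem_singleton, forall_eq, not_not] at hy ⊢
    exact ⟨hy.2, fun hf => (hd y).1 hf hy.1⟩

/-- RECIPE: pick the middle gate `g` accepting the most points `ext y` (pigeonhole; if `P` is empty
take `F = {fun _ => none}`, which nothing satisfies).  Each bottom gate read by `g` is, after fixing
the bits `σ`, either constantly true on all `ext y` (reads `true`, or a literal fixed true, or two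
opposite literals of one variable: drop it) or equivalent to `¬ Fals c y` for the pattern
`c v = some (!b)` when `(v, b)` is read.  If `|vars c| > k` erase all but `k` variables
(`erase c (vars c \ S)`, `S ⊆ vars c`, `|S| = k`): a stronger clause, falsified by exactly
`2^(n-k)` points.  `F` = the `≤ c.bot` resulting patterns. -/
theorem exists_cnf (n N k : ℕ) (hn : n ≤ N) (σ : ℕ → Bool) (c : Circuit N)
    (P : (Fin n → Bool) → Prop) [DecidablePred P] (hP : ∀ y, c.eval (ext n N σ y) ↔ P y) :
    ∃ F : Finset (Pat (Fin n)), (∀ d ∈ F, (vars d).card ≤ k) ∧ (∀ y, Sat F y → P y) ∧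
      2 ^ k * (univ.filter P).card ≤ c.size * (2 ^ k * (satSet F).card + c.size * 2 ^ n) := by
  have _ := hn
  choose G h1 h2 h3 using fun j : Fin c.bot => reduce_gate n N k σ (c.one j) (c.lits j)
  let Acc : Fin c.mid → Finset (Fin n → Bool) := fun g => univ.filter fun y =>
    ∀ j ∈ c.reads g, c.one j = true ∨ ∃ t ∈ c.lits j, ext n N σ y t.1 = t.2
  have hcov : univ.filter P ⊆ univ.biUnion Acc := fun y hy => by
    obtain ⟨g, hg⟩ := (hP y).2 (mem_filter.1 hy).2
    exact mem_biUnion.2 ⟨g, mem_univ _, mem_filter.2 ⟨mem_univ _, hg⟩⟩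
  rcases (univ : Finset (Fin c.mid)).eq_empty_or_nonempty with he | hne
  · refine ⟨{fun _ => none}, by simp [vars], fun y hy => ?_, ?_⟩
    · exact (hy _ (mem_singleton_self _) fun _ => Or.inl rfl).elim
    · rw [he, biUnion_empty, subset_empty] at hcov
      simp [hcov]
  obtain ⟨g, -, hg⟩ := exists_max_image univ (fun g => (Acc g).card) hne
  refine ⟨(c.reads g).biUnion G, fun d hd => ?_, fun y hy => ?_, ?_⟩
  · obtain ⟨j, -, hj⟩ := mem_biUnion.1 hd
    exact h1 j d hj
  · exact (hP y).1 ⟨g, fun j hj => h2 j y fun d hd => hy d (mem_biUnion.2 ⟨j, hj, hd⟩)⟩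
  · have a1 : (univ.filter P).card ≤ c.mid * (Acc g).card := by
      refine (card_le_card hcov).trans (card_biUnion_le.trans ?_)
      simpa using sum_le_card_nsmul univ (fun g => (Acc g).card) _ fun g' _ => hg g' (mem_univ _)
    have a2 : Acc g ⊆ satSet ((c.reads g).biUnion G) ∪ (c.reads g).biUnion fun j =>
        univ.filter fun y => (c.one j = true ∨ ∃ t ∈ c.lits j, ext n N σ y t.1 = t.2) ∧
          ¬ Sat (G j) y := by
      intro y hy
      by_cases hs : Sat ((c.reads g).biUnion G) y
      · exact mem_union_left _ (mem_satSet.2 hs)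
      · refine mem_union_right _ ?_
        simp only [Sat, not_forall, not_not] at hs
        obtain ⟨d, hd, hf⟩ := hs
        obtain ⟨j, hj, hdj⟩ := mem_biUnion.1 hd
        exact mem_biUnion.2 ⟨j, hj, mem_filter.2 ⟨mem_univ _, (mem_filter.1 hy).2 j hj,
          fun hs => hs d hdj hf⟩⟩
    have a3 : 2 ^ k * (Acc g).card ≤
        2 ^ k * (satSet ((c.reads g).biUnion G)).card + c.size * 2 ^ n := by
      refine (Nat.mul_le_mul_left _ ((card_le_card a2).trans ((card_union_le _ _).trans
        (Nat.add_le_add_left card_biUnion_le _)))).trans ?_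
      rw [mul_add, mul_sum]
      refine Nat.add_le_add_left ((sum_le_card_nsmul _ _ _ fun j _ => h3 j).trans ?_) _
      have : (c.reads g).card ≤ c.size := by
        have := card_le_univ (c.reads g)
        simp only [Fintype.card_fin] at this
        unfold Circuit.size; omega
      exact Nat.mul_le_mul_right _ this
    have a4 : c.mid ≤ c.size := by unfold Circuit.size; omega
    calc 2 ^ k * (univ.filter P).card ≤ 2 ^ k * (c.mid * (Acc g).card) := Nat.mul_le_mul_left _ a1
      _ = c.mid * (2 ^ k * (Acc g).card) := by ring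
      _ ≤ _ := Nat.mul_le_mul a4 a3

end Crest.Agent.R291
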