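import Crest.Agent.R291.Seed
import Crest.Agent.R291.Reduce

/-!
# Row 291: the theorem from the combinatorial core
-/

set_option autoImplicit false

namespace Crest.Agent.R291

open Finset Crest.Depth3

theorem final_arith (A' m n z p S : ℕ) (hm : 1 ≤ m) (hz : z ≤ 2 ^ (A' * m)) (hp : 2 ^ n ≤ 2 ^ m * p)
    (h : 2 ^ ((2 * A' + 2) * m) * p ≤ z * (2 ^ ((2 * A' + 2) * m) * S + z * 2 ^ n)) :
    2 ^ n ≤ 2 ^ ((A' + 2) * m) * S := by
  obtain ⟨a, ha⟩ : ∃ a, a = 2 ^ (A' * m) := ⟨_, rfl⟩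
  obtain ⟨b, hb⟩ : ∃ b, b = 2 ^ m := ⟨_, rfl⟩
  obtain ⟨x, hx⟩ : ∃ x, x = 2 ^ n := ⟨_, rfl⟩
  have e1 : 2 ^ ((2 * A' + 2) * m) = a * a * (b * b) := by rw [ha, hb]; ring
  have e2 : 2 ^ ((A' + 2) * m) = a * (b * b) := by rw [ha, hb]; ring
  have hb2 : 2 ≤ b := by rw [hb]; exact Nat.le_self_pow (by omega) 2
  have ha0 : 0 < a := by rw [ha]; positivity
  rw [e1, ← hx] at h
  rw [← hx, ← hb] at hp
  rw [← ha] at hz
  rw [e2, ← hx]
  have h1 : a * a * (b * b) * p ≤ a * (a * a * (b * b) * S + a * x) :=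
    h.trans (Nat.mul_le_mul hz (Nat.add_le_add_left (Nat.mul_le_mul_right _ hz) _))
  have h2 : (a * a) * (b * b * p) ≤ (a * a) * (a * (b * b) * S + x) := by nlinarith
  have h3 := Nat.le_of_mul_le_mul_left h2 (by positivity)
  nlinarith

/-- RECIPE: `L = Lang`.  Given `A`, put `A' = ⌈4A⌉₊ + 1`, `B = A' + 2`, `K = 2A' + 2`; get
`D L w m₀` from the core, `n₀` from `exists_seed`, `params_eventually`.  For `N` large put
`n = N/4`, `m = √n` (`m² ≤ n`, `√N ≤ 2(m+1) ≤ 4m`).  If `size ≤ 2^(A√N)` then `size ≤ 2^(A' m)`.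
Fix the good seed, `P = HashOK n s h` (`ofFn_ext_mem_lang`, `nA * nQ = m ℓ^4 ≤ m² ≤ n`),
`hash_density` (`nA n = ℓ² ≤ m`), `exists_cnf` with `k = K m`:
`2^(k+n) ≤ 2^m 2^(A'm) (2^k |S| + 2^(A'm) 2^n)` gives `2^n ≤ 2^(B m) |S|` (`m ≥ 1`).  The core
gives `T ρ G`; all points of `fib T ρ G` satisfy `F`, hence `HashOK`; contradiction. -/
theorem final_of_core (hcore : CoreStmt) :
    ∃ L : Set (List Bool), Crest.Complexity.InP L ∧
      ∀ A : ℝ, 0 < A → ∃ N : ℕ, ∀ n ≥ N, ∀ c : Circuit n,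
        (∀ x : Fin n → Bool, c.eval x ↔ List.ofFn x ∈ L) →
          (2 : ℝ) ^ (A * Real.sqrt n) < (c.size : ℝ) := by
  refine ⟨Lang, lang_inP, fun A hA => ?_⟩
  obtain ⟨D, L, w, m₀, hc⟩ := hcore (⌈4 * A⌉₊ + 2) (2 * ⌈4 * A⌉₊ + 2)
  obtain ⟨n₀, hs⟩ := exists_seed D L w
  obtain ⟨n₁, hp⟩ := params_eventually (m₀ + 1)
  refine ⟨4 * (n₀ + n₁), fun N hN c hcirc => ?_⟩
  by_contra hlt
  rw [not_lt] at hlt
  obtain ⟨s, h, hsh⟩ := hs (N / 4) (by omega)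
  obtain ⟨p1, p2, p3⟩ := hp (N / 4) (by omega)
  have hm2 : Nat.sqrt (N / 4) ^ 2 ≤ N / 4 := Nat.sqrt_le' _
  have hm3 : N / 4 < (Nat.sqrt (N / 4) + 1) ^ 2 := Nat.lt_succ_sqrt' _
  have hq : nA (N / 4) * nQ (N / 4) ≤ N / 4 := by
    unfold nA nQ
    calc ell (N / 4) ^ 2 * (Nat.sqrt (N / 4) * ell (N / 4) ^ 2) = Nat.sqrt (N / 4) * ell (N / 4) ^ 4 := by
          ring
      _ ≤ Nat.sqrt (N / 4) * Nat.sqrt (N / 4) := Nat.mul_le_mul_left _ p2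
      _ ≤ N / 4 := by rwa [← sq]
  have hA' : nA (N / 4) ≤ Nat.sqrt (N / 4) :=
    le_trans (Nat.pow_le_pow_right (by omega) (by norm_num)) p2
  obtain ⟨F, f1, f2, f3⟩ := exists_cnf (N / 4) N ((2 * ⌈4 * A⌉₊ + 2) * Nat.sqrt (N / 4))
    (Nat.div_le_self _ _) (seedBits (N / 4) s h) c (HashOK (N / 4) s h)
    (fun y => (hcirc _).trans (ofFn_ext_mem_lang N s h hq y))
  have hd := (hash_density (N / 4) s h).trans
    (Nat.mul_le_mul_right _ (Nat.pow_le_pow_right (by norm_num) hA'))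
  have hz : c.size ≤ 2 ^ (⌈4 * A⌉₊ * Nat.sqrt (N / 4)) := by
    have a1 : N ≤ (4 * Nat.sqrt (N / 4)) ^ 2 := by
      have : N < 4 * (N / 4 + 1) := by omega
      nlinarith
    have a2 : Real.sqrt N ≤ 4 * (Nat.sqrt (N / 4) : ℝ) := by
      rw [Real.sqrt_le_left (by positivity)]
      exact_mod_cast a1
    have a3 : A * Real.sqrt N ≤ ((⌈4 * A⌉₊ * Nat.sqrt (N / 4) : ℕ) : ℝ) := by
      push_cast
      calc A * Real.sqrt N ≤ A * (4 * (Nat.sqrt (N / 4) : ℝ)) := mul_le_mul_of_nonneg_left a2 hA.le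
        _ = 4 * A * (Nat.sqrt (N / 4) : ℝ) := by ring
        _ ≤ _ := mul_le_mul_of_nonneg_right (Nat.le_ceil _) (by positivity)
    have a4 := hlt.trans (Real.rpow_le_rpow_of_exponent_le (by norm_num) a3)
    rw [Real.rpow_natCast] at a4
    exact_mod_cast a4
  obtain ⟨T, ρ, G, g1, g2, g3, g4, g5⟩ := hc (N / 4) (Nat.sqrt (N / 4)) (by omega) hm2 F f1
    (final_arith _ _ _ _ _ _ (by omega) hz hd f3)
  obtain ⟨y, hy, hy'⟩ := hsh T ρ G g1 g2 g3 g5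
  exact hy' (f2 y (g4 y hy))

end Crest.Agent.R291
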