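import Crest.Agent.R291.Round

/-!
# Row 291: facts about a full transcript
-/

set_option autoImplicit false
set_option linter.unusedSectionVars false

namespace Crest.Agent.R291

open Finset

variable {V : Type} [Fintype V] [LinearOrder V]
variable {u b : ℕ → ℕ} {k s : ℕ} {x : V → Bool} {τ : Tr V}

theorem TrValid.pred (h : TrValid u b k x (s + 1) τ) : TrValid u b k x s τ where
  round i hi := h.round i (by omega)
  start i hi := h.start i (by omega)
  stop i hi := h.stop i (by omega)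
  next i hi := h.next i (by omega)
  sat := by rw [h.next s (by omega)]; exact (h.round s (by omega)).sat_next h.sat
  wid := by rw [h.next s (by omega)]; exact wid_next h.wid _ _ _

theorem TrValid.mono (h : TrValid u b k x s τ) {i : ℕ} (hi : i ≤ s) : TrValid u b k x i τ := by
  induction s, hi using Nat.le_induction with
  | base => exact h
  | succ s _ ih => exact ih h.pred

theorem TrValid.T_succ (h : TrValid u b k x s τ) {i : ℕ} (hi : i < s) : τ.T i ⊆ τ.T (i + 1) := by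
  rw [h.stop i hi, ← h.start i hi]
  exact (h.round i hi).T_anti (Nat.zero_le _) le_rfl

theorem TrValid.T_mono (h : TrValid u b k x s τ) {i j : ℕ} (hij : i ≤ j) (hj : j ≤ s) :
    τ.T i ⊆ τ.T j := by
  induction j, hij using Nat.le_induction with
  | base => exact Subset.refl _
  | succ j _ ih => exact (ih (by omega)).trans (h.T_succ (by omega))

theorem TrValid.Wr_sub (h : TrValid u b k x s τ) {i : ℕ} (hi : i < s) :
    τ.Wr b i ⊆ τ.T (i + 1) \ τ.T i := by
  rw [h.stop i hi, ← h.start i hi]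
  exact (h.round i hi).UW_sub le_rfl (Nat.zero_le _)

theorem TrValid.Ar_sub (h : TrValid u b k x s τ) {i : ℕ} (hi : i < s) :
    τ.Ar b i ⊆ τ.T (i + 1) \ τ.T i := by
  rw [h.stop i hi, ← h.start i hi]
  exact (h.round i hi).UA_sub le_rfl (Nat.zero_le _)

theorem TrValid.Jr_sub (h : TrValid u b k x s τ) {i : ℕ} (hi : i < s) : τ.Jr b i ⊆ τ.Wr b i :=
  (h.round i hi).UJ_sub le_rfl

theorem TrValid.Wr_Ar (h : TrValid u b k x s τ) {i : ℕ} (hi : i < s) :
    Disjoint (τ.Wr b i) (τ.Ar b i) := (h.round i hi).UW_UA le_rfl le_rfl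

theorem TrValid.Er_bound (h : TrValid u b k x s τ) {i : ℕ} (hi : i < s) :
    (τ.Er b i).card * u i ≤ b i * (τ.Wr b i).card := (h.round i hi).E_bound

/-- Time stamps across rounds. -/
theorem TrValid.time (h : TrValid u b k x s τ) {i j : ℕ} (hi : i < s) (hj : j ≤ s) {v : V}
    (hv : v ∈ τ.T (i + 1) \ τ.T i) : v ∈ τ.T j ↔ i < j := by
  rw [mem_sdiff] at hv
  constructor
  · intro hT
    by_contra hlt
    exact hv.2 (h.T_mono (by omega) hi.le hT)
  · intro hlt
    exact h.T_mono hlt hj hv.1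

theorem TrValid.round_unique (h : TrValid u b k x s τ) {i j : ℕ} (hi : i < s) (hj : j < s) {v : V}
    (hv : v ∈ τ.T (i + 1) \ τ.T i) (hv' : v ∈ τ.T (j + 1) \ τ.T j) : i = j := by
  have h1 := (h.time hi hj hv).1 (mem_sdiff.1 hv').1
  have h2 := (h.time hj hi hv').1 (mem_sdiff.1 hv).1
  omega

theorem TrValid.U_sub (h : TrValid u b k x s τ) {G : ℕ → Finset V}
    (hG : ∀ i < s, G i ⊆ τ.T (i + 1) \ τ.T i) {a c : ℕ} (hac : a ≤ c) (hc : c ≤ s) :
    U G a c ⊆ τ.T c \ τ.T a := by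
  intro v; simp only [mem_U, mem_sdiff]; rintro ⟨i, h1, h2, h3⟩
  have := hG i (by omega) h3
  rw [h.time (by omega) hc this, h.time (by omega) (by omega) this]; omega

theorem TrValid.UWr_sub (h : TrValid u b k x s τ) {a c : ℕ} (hac : a ≤ c) (hc : c ≤ s) :
    U (τ.Wr b) a c ⊆ τ.T c \ τ.T a := h.U_sub (fun _ hi => h.Wr_sub hi) hac hc

theorem TrValid.UAr_sub (h : TrValid u b k x s τ) {a c : ℕ} (hac : a ≤ c) (hc : c ≤ s) :
    U (τ.Ar b) a c ⊆ τ.T c \ τ.T a := h.U_sub (fun _ hi => h.Ar_sub hi) hac hc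

theorem TrValid.UJr_sub (h : TrValid u b k x s τ) {a c : ℕ} (hc : c ≤ s) :
    U (τ.Jr b) a c ⊆ U (τ.Wr b) a c := by
  intro v; simp only [mem_U]; rintro ⟨ν, h1, h2, h3⟩; exact ⟨ν, h1, h2, h.Jr_sub (by omega) h3⟩

theorem TrValid.UWr_UAr (h : TrValid u b k x s τ) {a c a' c' : ℕ} (hc : c ≤ s) (hc' : c' ≤ s) :
    Disjoint (U (τ.Wr b) a c) (U (τ.Ar b) a' c') := by
  rw [disjoint_left]; intro v; simp only [mem_U]
  rintro ⟨i, -, h2, h3⟩ ⟨j, -, h5, h6⟩
  obtain rfl := h.round_unique (by omega) (by omega) (h.Wr_sub (by omega) h3)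
    (h.Ar_sub (by omega) h6)
  exact dj (h.Wr_Ar (by omega)) v h3 h6

theorem TrValid.card_U (h : TrValid u b k x s τ) {G : ℕ → Finset V}
    (hG : ∀ i < s, G i ⊆ τ.T (i + 1) \ τ.T i) {a c : ℕ} (hc : c ≤ s) :
    (U G a c).card = ∑ i ∈ Ico a c, (G i).card := by
  apply card_U_eq
  intro i j _ h2 h3
  rw [disjoint_left]; intro v hv hv'
  have := h.round_unique (by omega) (by omega) (hG i (by omega) hv) (hG j (by omega) hv')
  omega

/-- **Lemma B.** -/
theorem TrValid.lemmaB (h : TrValid u b k x s τ) {c : Pat V} (hc : c ∈ τ.Φ s)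
    (hf : Fals c (flip x (U (τ.Jr b) 0 s))) (hA : Disjoint (vars c) (U (τ.Ar b) 0 s)) :
    ∃ i < s, u i < (vars c ∩ τ.Wr b i).card := by
  induction s generalizing c with
  | zero =>
    rw [U_self, flip_empty] at hf
    exact (h.sat c hc hf).elim
  | succ s ih =>
    by_cases hb : u s < (vars c ∩ τ.Wr b s).card
    · exact ⟨s, by omega, hb⟩
    · rw [U_succ _ (Nat.zero_le s)] at hf hA
      have hW := h.Wr_sub (Nat.lt_succ_self s)
      have hJ := h.Jr_sub (Nat.lt_succ_self s)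
      have hJ' := (h.UJr_sub (a := 0) (Nat.le_succ s)).trans
        (h.UWr_sub (Nat.zero_le s) (Nat.le_succ s))
      have hmem : erase c (τ.Wr b s) ∈ τ.Φ s := by
        rw [h.next s (by omega)]
        refine mem_nextF.2 ⟨c, hc, ⟨0, b s, le_rfl, fun v hv => ?_,
          hA.mono_right subset_union_right, not_lt.1 hb⟩, rfl⟩
        have := hf v; have := @hW v; have := @hJ' v
        simp only [Tr.Wr, Tr.Jr] at *
        grind
      obtain ⟨i, hi, h2⟩ := ih h.pred hmem (fun v => by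
          have := hf v; have := @hJ v
          grind)
        ((hA.mono_right subset_union_left).mono_left (by rw [vars_erase]; exact sdiff_subset))
      refine ⟨i, by omega, h2.trans_le (card_le_card ?_)⟩
      rw [vars_erase]
      exact inter_subset_inter_right sdiff_subset

/-- **Lineage** through all rounds. -/
theorem TrValid.lineage (h : TrValid u b k x s τ) (hu : ∀ i, u (i + 1) ≤ u i + b i)
    {c : Pat V} (hc : c ∈ τ.Φ s) (ha : ∀ v, v ∉ τ.T 0 → Ag c x v)
    (hw : (vars c ∩ τ.T s).card ≤ u s) :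
    ∃ d ∈ τ.Φ 0, (∀ v, v ∉ τ.T 0 → Ag d x v) ∧ (∀ v ∈ τ.T 0, d v = none ∨ d v = c v) ∧
      (vars d ∩ τ.T 0).card ≤ u 0 := by
  induction s generalizing c with
  | zero => exact ⟨c, hc, ha, fun v _ => Or.inr rfl, hw⟩
  | succ s ih =>
    have hs := Nat.lt_succ_self s
    have h0 := h.T_mono (Nat.zero_le s) hs.le
    obtain ⟨d, hd, h1, h2, h3⟩ := (h.round s hs).lineage hc
      (fun v hv => ha v fun hv' => hv (h.stop s hs ▸ h0 hv'))
      (by rw [h.start s hs]; exact hw.trans (hu s))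
    rw [← h.next s hs] at hd
    rw [← h.stop s hs] at h1 h2 h3
    obtain ⟨e, he, h4, h5, h6⟩ := ih h.pred hd (fun v hv => by
      have := h1 v; have := h2 v; have := ha v
      grind) h3
    refine ⟨e, he, h4, fun v hv => ?_, h6⟩
    have := h5 v; have := h2 v; have := @h0 v
    grind

theorem mem_narrow {Φ : Finset (Pat V)} {T : Finset V} {w : ℕ} {g : Finset (V × Bool)} :
    g ∈ narrow Φ T x w ↔ ∃ c ∈ Φ, (∀ v, v ∉ T → Ag c x v) ∧ (vars c ∩ T).card ≤ w ∧
      g = univ.filter fun l : V × Bool => l.1 ∈ T ∧ c l.1 = some (!l.2) := by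
  simp only [narrow, mem_image, mem_filter]
  constructor
  · rintro ⟨c, ⟨h1, h2, h3⟩, rfl⟩; exact ⟨c, h1, h2, h3, rfl⟩
  · rintro ⟨c, h1, h2, h3, rfl⟩; exact ⟨c, ⟨h1, h2, h3⟩, rfl⟩

theorem narrow_shape {Φ : Finset (Pat V)} {T : Finset V} {w : ℕ} {g : Finset (V × Bool)}
    (hg : g ∈ narrow Φ T x w) : g.card ≤ w ∧ ∀ l ∈ g, l.1 ∈ T := by
  obtain ⟨c, -, -, h3, rfl⟩ := mem_narrow.1 hg
  refine ⟨le_trans ?_ h3, fun l hl => (mem_filter.1 hl).2.1⟩
  apply card_le_card_of_injOn Prod.fst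
  · intro l hl
    have := (mem_filter.1 hl).2
    simp only [coe_inter, Set.mem_inter_iff, mem_coe, mem_vars]
    grind
  · rintro ⟨v, β⟩ hl ⟨v', β'⟩ hl' heq
    have h1 := (mem_filter.1 hl).2.2
    have h2 := (mem_filter.1 hl').2.2
    simp only at heq h1 h2
    subst heq
    cases β <;> cases β' <;> simp_all

theorem narrow_congr {Φ : Finset (Pat V)} {T : Finset V} {w : ℕ} {x' : V → Bool}
    (hx : ∀ v, v ∉ T → x v = x' v) : narrow Φ T x w = narrow Φ T x' w := by
  unfold narrow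
  congr 1
  refine filter_congr fun c _ => and_congr_left fun _ => forall₂_congr fun v hv => ?_
  simp [Ag, hx v hv]

theorem hits_narrow {Φ : Finset (Pat V)} {T : Finset V} {w : ℕ} (hs : Sat Φ x) :
    Hits (narrow Φ T x w) x := by
  intro g hg
  obtain ⟨c, hc, h2, -, rfl⟩ := mem_narrow.1 hg
  obtain ⟨v, hv⟩ := not_forall.1 (hs c hc)
  refine ⟨(v, x v), ?_, rfl⟩
  have := h2 v
  simp only [mem_filter, mem_univ, true_and]
  cases hx : x v <;> rcases hc' : c v with _ | _ | _ <;> grind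

/-- The narrow formula implies the original one inside the subcube. -/
theorem TrValid.narrow_sound (h : TrValid u b k x s τ) (hu : ∀ i, u (i + 1) ≤ u i + b i)
    (hk : k ≤ u s) {y : V → Bool} (hy : ∀ v, v ∉ τ.T 0 → y v = x v)
    (hh : Hits (narrow (τ.Φ 0) (τ.T 0) x (u 0)) y) : Sat (τ.Φ s) y := by
  intro c hc hf
  obtain ⟨d, hd, h1, h2, h3⟩ := h.lineage hu hc (fun v hv => by
    have := hf v; have := hy v; grind)
    ((card_le_card inter_subset_left).trans ((h.wid c hc).trans hk))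
  obtain ⟨⟨v, β⟩, hl, hl'⟩ := hh _ (mem_narrow.2 ⟨d, hd, h1, h3, rfl⟩)
  have h4 := (mem_filter.1 hl).2
  have := h2 v; have := hf v
  simp only at hl' h4
  cases β <;> grind

end Crest.Agent.R291
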