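import Crest.Agent.R291.Defs

/-!
# Row 291: structural facts about one round
-/

set_option autoImplicit false
set_option linter.unusedSectionVars false

namespace Crest.Agent.R291

open Finset

variable {V : Type} [Fintype V] [LinearOrder V]

theorem dj {s t : Finset V} (h : Disjoint s t) (v : V) : v ∈ s → v ∉ t :=
  fun hv => disjoint_left.1 h hv

section chain
variable {C : Ctx V} {x : V → Bool} {Wc Jc Ec Wf Jf Ef : Finset V}

theorem Cand.dis_subset {c : Pat V} (h : Cand C x Wc Jc c) : dis c x ⊆ (vars c ∩ C.T) \ Wc := by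
  intro v hv
  obtain ⟨-, h2, h3, -⟩ := h
  have := dj h3 v
  have := h2 v
  grind

theorem Chain.W_sub (h : Chain C x Wc Jc Ec Wf Jf Ef) : Wc ⊆ Wf := by
  induction h with
  | done _ => exact Subset.refl _
  | step c _ _ ih => exact subset_union_left.trans ih

theorem Chain.E_sub (h : Chain C x Wc Jc Ec Wf Jf Ef) : Ec ⊆ Ef := by
  induction h with
  | done _ => exact Subset.refl _
  | step c _ _ ih => exact subset_union_left.trans ih

theorem Chain.W_sub_T (h : Chain C x Wc Jc Ec Wf Jf Ef) (hW : Wc ⊆ C.T) : Wf ⊆ C.T := by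
  induction h with
  | done _ => exact hW
  | step c _ _ ih => exact ih (union_subset hW inter_subset_right)

theorem Chain.J_sub_W (h : Chain C x Wc Jc Ec Wf Jf Ef) (hJ : Jc ⊆ Wc) : Jf ⊆ Wf := by
  induction h with
  | done _ => exact hJ
  | step c hc _ ih =>
    apply ih
    intro v hv
    have := @hc.1.dis_subset _ _ _ _ _ _ _ _ v
    have := @hJ v
    grind

theorem Chain.J_iff (h : Chain C x Wc Jc Ec Wf Jf Ef) {v : V} (hv : v ∈ Wc) :
    v ∈ Jf ↔ v ∈ Jc := by
  induction h with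
  | done _ => rfl
  | step c hc _ ih =>
    have := @hc.1.dis_subset _ _ _ _ _ _ _ _ v
    rw [ih (mem_union_left _ hv)]
    grind

theorem Chain.noCand (h : Chain C x Wc Jc Ec Wf Jf Ef) (c : Pat V) : ¬ Cand C x Wf Jf c := by
  induction h with
  | done h => exact h c
  | step _ _ _ ih => exact ih

/-- A candidate has more than `u` free variables. -/
theorem Cand.big {c : Pat V} (h : Cand C x Wc Jc c) (hJ : Jc ⊆ Wc) (h1 : C.SW C.μ = ∅)
    (h2 : C.SJ C.μ = ∅) (h3 : C.SA C.μ = ∅) : C.u < (vars c ∩ C.T).card := by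
  by_contra hlt
  obtain ⟨hΦ, ha, hd, -, hw⟩ := h
  refine hw c C.μ ⟨le_rfl, hΦ, ?_, fun v _ => Or.inr rfl, by simp [h3], by simpa [h1] using hlt⟩
  intro v hv
  have := dj hd v
  have := ha v
  have := @hJ v
  rw [h2]
  grind

theorem Chain.E_bound (h : Chain C x Wc Jc Ec Wf Jf Ef) (hJ : Jc ⊆ Wc) (h1 : C.SW C.μ = ∅)
    (h2 : C.SJ C.μ = ∅) (h3 : C.SA C.μ = ∅) (hE : Ec.card * C.u ≤ C.b * Wc.card) :
    Ef.card * C.u ≤ C.b * Wf.card := by
  induction h with
  | done _ => exact hE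
  | @step Wc Jc Ec Wf Jf Ef c hc _ ih =>
    apply ih
    · intro v hv
      have := @hc.1.dis_subset _ _ _ _ _ _ _ _ v
      have := @hJ v
      grind
    · have hb := hc.1.big hJ h1 h2 h3
      have hd : Disjoint Wc (vars c ∩ C.T) :=
        (hc.1.2.2.1.symm).mono_right inter_subset_left
      rw [card_union_of_disjoint hd]
      have h4 := card_union_le Ec (vars c ∩ C.SA 0)
      have h5 := hc.1.2.2.2.1
      nlinarith [Nat.mul_le_mul_right C.u h4, Nat.mul_le_mul_right C.u h5,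
        Nat.mul_le_mul_left C.b hb.le]

/-- Invariant `I`: every clause of `X` still has a free variable. -/
theorem Chain.inv (h : Chain C x Wc Jc Ec Wf Jf Ef) (hW : Wc ⊆ C.T) (hJ : Jc ⊆ Wc)
    (hSJ : ∀ m, Disjoint (C.SJ m) C.T)
    (hI : ∀ c, InX C x Wc Jc c → (vars c ∩ (C.T \ Wc)).Nonempty) :
    ∀ c, InX C x Wf Jf c → (vars c ∩ (C.T \ Wf)).Nonempty := by
  induction h with
  | done _ => exact hI
  | @step Wc Jc Ec Wf Jf Ef c hc _ ih =>
    have hds := hc.1.dis_subset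
    apply ih (union_subset hW inter_subset_right)
    · intro v hv
      have := @hds v
      have := @hJ v
      grind
    · rintro d ⟨hd, m, hm, hf, hA, hcard⟩
      by_contra hne
      rw [not_nonempty_iff_eq_empty] at hne
      have hne' : ∀ v, v ∉ vars d ∩ (C.T \ (Wc ∪ vars c ∩ C.T)) := by simp [hne]
      refine hc.1.2.2.2.2 d m ⟨hm, hd, ?_, ?_, hA, le_trans (card_le_card ?_) hcard⟩
      · intro v hv
        have := hf v
        have := @hds v
        grind
      · intro v hv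
        have := hf v
        have := hne' v
        have := @hJ v
        have := dj (hSJ m) v
        cases hx : x v <;> rcases hc' : c v with _ | _ | _ <;> grind
      · intro v hv
        have := hne' v
        grind

end chain

section greedy
variable {X : Pat V → Prop} {T Fc Ff : Finset V}

theorem Greedy.sub (h : Greedy X T Fc Ff) : Fc ⊆ Ff := by
  induction h with
  | done _ => exact Subset.refl _
  | step c _ _ ih => exact subset_union_left.trans ih

theorem Greedy.sub_T (h : Greedy X T Fc Ff) (hF : Fc ⊆ T) : Ff ⊆ T := by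
  induction h with
  | done _ => exact hF
  | step c _ _ ih => exact ih (union_subset hF inter_subset_right)

theorem Greedy.hits (h : Greedy X T Fc Ff) (c : Pat V) (hc : X c) : ¬ Disjoint (vars c) Ff := by
  induction h with
  | done h => exact h c hc
  | step _ _ _ ih => exact ih

end greedy

/-- The private witness of `e`. -/
theorem HitSpec.priv {X : Pat V → Prop} {F A Q : Finset V} (h : HitSpec X F A Q) {e : V}
    (he : e ∈ A) : ∃ c, X c ∧ vars c ∩ A = {e} ∧ vars c ⊆ Q := by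
  obtain ⟨hAF, hhit, wit, hw, rfl⟩ := h
  refine ⟨wit e, (hw e he).1.1, ?_, subset_biUnion_of_mem (fun e => vars (wit e)) he⟩
  have h1 := disjoint_left.1 (hw e he).1.2
  obtain ⟨a, ha1, ha2⟩ := not_disjoint_iff.1 (hhit _ (hw e he).1.1)
  have key : ∀ v ∈ vars (wit e), v ∈ A → v = e := by
    intro v hv hvA
    have := h1 hv
    have := hAF hvA
    rcases lt_trichotomy v e with h | h | h
    · grind
    · exact h
    · grind
  ext v
  simp only [mem_inter, mem_singleton]
  constructor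
  · rintro ⟨h2, h3⟩; exact key v h2 h3
  · rintro rfl; exact ⟨key a ha1 ha2 ▸ ha1, he⟩

theorem HitSpec.card_Q {X : Pat V → Prop} {F A Q : Finset V} (h : HitSpec X F A Q) {k : ℕ}
    (hk : ∀ c, X c → (vars c).card ≤ k) : Q.card ≤ k * A.card := by
  obtain ⟨-, -, wit, hw, rfl⟩ := h
  refine card_biUnion_le.trans ?_
  rw [mul_comm]
  exact (sum_le_card_nsmul _ _ _ fun e he => hk _ (hw e he).1.1).trans (by simp)

section valid
variable {Φ : Finset (Pat V)} {x : V → Bool} {u b j : ℕ} {R : Rec V}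

theorem Valid.mono (h : Valid Φ x u b R j) {j' : ℕ} (hj : j' ≤ j) : Valid Φ x u b R j' :=
  fun μ hμ => h μ (by omega)

theorem Valid.W_sub (h : Valid Φ x u b R j) {μ : ℕ} (hμ : μ < j) : R.W μ ⊆ R.T μ :=
  (h μ hμ).chain.W_sub_T (empty_subset _)

theorem Valid.J_sub (h : Valid Φ x u b R j) {μ : ℕ} (hμ : μ < j) : R.J μ ⊆ R.W μ :=
  (h μ hμ).chain.J_sub_W (empty_subset _)

theorem Valid.F_sub (h : Valid Φ x u b R j) {μ : ℕ} (hμ : μ < j) : R.F μ ⊆ R.T μ \ R.W μ :=
  (h μ hμ).greedy.sub_T (empty_subset _)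

theorem Valid.A_sub (h : Valid Φ x u b R j) {μ : ℕ} (hμ : μ < j) : R.A μ ⊆ R.F μ :=
  (h μ hμ).hit.1

theorem Valid.T_succ (h : Valid Φ x u b R j) {μ : ℕ} (hμ : μ < j) :
    R.T (μ + 1) = R.T μ \ (R.W μ ∪ R.F μ ∪ R.Q μ) := (h μ hμ).next

theorem Valid.T_anti (h : Valid Φ x u b R j) {μ ν : ℕ} (h1 : μ ≤ ν) (h2 : ν ≤ j) :
    R.T ν ⊆ R.T μ := by
  induction ν, h1 using Nat.le_induction with
  | base => exact Subset.refl _
  | succ ν _ ih =>
    rw [h.T_succ (by omega)]
    exact sdiff_subset.trans (ih (by omega))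

/-- Time stamps: an element of `W ν ∪ F ν` is free exactly up to time `ν`. -/
theorem Valid.mem_T_iff (h : Valid Φ x u b R j) {ν μ : ℕ} (hν : ν < j) (hμ : μ ≤ j) {v : V}
    (hv : v ∈ R.W ν ∨ v ∈ R.F ν) : v ∈ R.T μ ↔ μ ≤ ν := by
  constructor
  · intro hT
    by_contra hlt
    have := h.T_anti (show ν + 1 ≤ μ by omega) hμ hT
    rw [h.T_succ hν] at this
    grind
  · intro hle
    apply h.T_anti hle hν.le
    have := @h.W_sub _ _ _ _ _ _ _ _ _ ν hν v
    have := @h.F_sub _ _ _ _ _ _ _ _ _ ν hν v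
    grind

theorem Valid.W_time (h : Valid Φ x u b R j) {ν μ : ℕ} (hν : ν < j) (hμ : μ ≤ j) {v : V}
    (hv : v ∈ R.W ν) : v ∈ R.T μ ↔ μ ≤ ν := h.mem_T_iff hν hμ (Or.inl hv)

theorem Valid.J_time (h : Valid Φ x u b R j) {ν μ : ℕ} (hν : ν < j) (hμ : μ ≤ j) {v : V}
    (hv : v ∈ R.J ν) : v ∈ R.T μ ↔ μ ≤ ν := h.W_time hν hμ (h.J_sub hν hv)

theorem Valid.F_time (h : Valid Φ x u b R j) {ν μ : ℕ} (hν : ν < j) (hμ : μ ≤ j) {v : V}
    (hv : v ∈ R.F ν) : v ∈ R.T μ ↔ μ ≤ ν := h.mem_T_iff hν hμ (Or.inr hv)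

theorem Valid.A_time (h : Valid Φ x u b R j) {ν μ : ℕ} (hν : ν < j) (hμ : μ ≤ j) {v : V}
    (hv : v ∈ R.A ν) : v ∈ R.T μ ↔ μ ≤ ν := h.F_time hν hμ (h.A_sub hν hv)

theorem Valid.W_W (h : Valid Φ x u b R j) {ν ν' : ℕ} (hν : ν < j) (hν' : ν' < j) {v : V}
    (hv : v ∈ R.W ν) (hv' : v ∈ R.W ν') : ν = ν' := by
  have h1 := (h.W_time hν hν'.le hv).1 (h.W_sub hν' hv')
  have h2 := (h.W_time hν' hν.le hv').1 (h.W_sub hν hv)
  omega

theorem Valid.F_F (h : Valid Φ x u b R j) {ν ν' : ℕ} (hν : ν < j) (hν' : ν' < j) {v : V}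
    (hv : v ∈ R.F ν) (hv' : v ∈ R.F ν') : ν = ν' := by
  have h1 := (h.F_time hν hν'.le hv).1 (mem_sdiff.1 (h.F_sub hν' hv')).1
  have h2 := (h.F_time hν' hν.le hv').1 (mem_sdiff.1 (h.F_sub hν hv)).1
  omega

theorem Valid.A_A (h : Valid Φ x u b R j) {ν ν' : ℕ} (hν : ν < j) (hν' : ν' < j) {v : V}
    (hv : v ∈ R.A ν) (hv' : v ∈ R.A ν') : ν = ν' :=
  h.F_F hν hν' (h.A_sub hν hv) (h.A_sub hν' hv')

theorem Valid.W_F (h : Valid Φ x u b R j) {ν ν' : ℕ} (hν : ν < j) (hν' : ν' < j) {v : V}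
    (hv : v ∈ R.W ν) (hv' : v ∈ R.F ν') : False := by
  have h1 := (h.W_time hν hν'.le hv).1 (mem_sdiff.1 (h.F_sub hν' hv')).1
  have h2 := (h.F_time hν' hν.le hv').1 (h.W_sub hν hv)
  obtain rfl : ν = ν' := by omega
  exact (mem_sdiff.1 (h.F_sub hν' hv')).2 hv

theorem Valid.W_A (h : Valid Φ x u b R j) {ν ν' : ℕ} (hν : ν < j) (hν' : ν' < j) {v : V}
    (hv : v ∈ R.W ν) (hv' : v ∈ R.A ν') : False :=
  h.W_F hν hν' hv (h.A_sub hν' hv')

theorem Valid.UJ_sub (h : Valid Φ x u b R j) {a c : ℕ} (hc : c ≤ j) : U R.J a c ⊆ U R.W a c := by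
  intro v; simp only [mem_U]; rintro ⟨ν, h1, h2, h3⟩; exact ⟨ν, h1, h2, h.J_sub (by omega) h3⟩

theorem Valid.UW_sub (h : Valid Φ x u b R j) {a c : ℕ} (hc : c ≤ j) (hac : a ≤ c) :
    U R.W a c ⊆ R.T a \ R.T c := by
  intro v; simp only [mem_U, mem_sdiff]; rintro ⟨ν, h1, h2, h3⟩
  rw [h.W_time (by omega) (by omega) h3, h.W_time (by omega) hc h3]; omega

theorem Valid.UA_sub (h : Valid Φ x u b R j) {a c : ℕ} (hc : c ≤ j) (hac : a ≤ c) :
    U R.A a c ⊆ R.T a \ R.T c := by
  intro v; simp only [mem_U, mem_sdiff]; rintro ⟨ν, h1, h2, h3⟩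
  rw [h.A_time (by omega) (by omega) h3, h.A_time (by omega) hc h3]; omega

theorem Valid.UW_UA (h : Valid Φ x u b R j) {a c a' c' : ℕ} (hc : c ≤ j) (hc' : c' ≤ j) :
    Disjoint (U R.W a c) (U R.A a' c') := by
  rw [disjoint_left]; intro v; simp only [mem_U]
  rintro ⟨ν, -, h2, h3⟩ ⟨ν', -, h5, h6⟩
  exact h.W_A (by omega) (by omega) h3 h6

/-- The `E` bound for the whole round. -/
theorem Valid.E_bound (h : Valid Φ x u b R j) :
    (U R.E 0 j).card * u ≤ b * (U R.W 0 j).card := by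
  rw [card_U_eq R.W 0 j]
  · refine (Nat.mul_le_mul_right u (card_U_le _ _ _)).trans ?_
    rw [sum_mul, mul_sum]
    refine sum_le_sum fun μ hμ => ?_
    have hμ' : μ < j := (mem_Ico.1 hμ).2
    exact (h μ hμ').chain.E_bound (empty_subset _) (U_self _ _) (U_self _ _) (U_self _ _)
      (by simp)
  · intro ν ν' _ h2 h3
    rw [disjoint_left]; intro v hv hv'
    have := h.W_W (by omega) h3 hv hv'
    omega

theorem inX_ctx_iff {μ : ℕ} {c : Pat V} :
    InX (R.ctx Φ u b μ) x (R.W μ) (R.J μ) c ↔ c ∈ Φ ∧ ∃ m, m ≤ μ ∧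
      Fals c (flip x (U R.J m (μ + 1))) ∧ Disjoint (vars c) (U R.A m μ) ∧
      (vars c ∩ U R.W m (μ + 1)).card ≤ u := by
  unfold InX
  refine and_congr Iff.rfl (exists_congr fun m => and_congr_right fun hm => ?_)
  have hm' : m ≤ μ := hm
  rw [U_succ _ hm', U_succ _ hm']
  rfl

/-- No small interval clause avoiding the hitting sets is falsified. -/
theorem Valid.hit (h : Valid Φ x u b R j) (hs : Sat Φ x) {m₁ m₂ : ℕ} (hm : m₂ ≤ j) {c : Pat V}
    (hc : c ∈ Φ) (hf : Fals c (flip x (U R.J m₁ m₂))) (hA : Disjoint (vars c) (U R.A m₁ m₂))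
    (hW : (vars c ∩ U R.W m₁ m₂).card ≤ u) : False := by
  by_cases h12 : m₂ ≤ m₁
  · rw [U_of_le _ h12, flip_empty] at hf
    exact hs c hc hf
  · obtain ⟨μ, rfl⟩ : ∃ μ, m₂ = μ + 1 := ⟨m₂ - 1, by omega⟩
    have hX : InX (R.ctx Φ u b μ) x (R.W μ) (R.J μ) c :=
      inX_ctx_iff.2 ⟨hc, m₁, by omega, hf, hA.mono_right (U_mono _ le_rfl (by omega)), hW⟩
    exact (h μ (by omega)).hit.2.1 c hX (hA.mono_right (subset_U _ (by omega) (by omega)))

/-- Invariant `I` for a chain started at time `μ` when the first `μ` mini-rounds are valid. -/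
theorem Valid.inv_of_chain (h : Valid Φ x u b R j) (hs : Sat Φ x) {W J E : Finset V}
    (hc : Chain (R.ctx Φ u b j) x ∅ ∅ ∅ W J E) (c : Pat V)
    (hX : InX (R.ctx Φ u b j) x W J c) : (vars c ∩ (R.T j \ W)).Nonempty := by
  refine hc.inv (empty_subset _) (empty_subset _) ?_ ?_ c hX
  · intro m
    by_cases hm : m ≤ j
    · rw [disjoint_left]; intro v hv hT
      exact (mem_sdiff.1 (h.UW_sub le_rfl hm (h.UJ_sub le_rfl hv))).2 hT
    · show Disjoint (U R.J m j) _
      rw [U_of_le _ (by omega)]; simp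
  · rintro d ⟨hd, m, -, hf, hA, hW⟩
    simp only [union_empty] at hf hW
    exact (h.hit hs le_rfl hd hf hA hW).elim

theorem Valid.inv (h : Valid Φ x u b R j) (hs : Sat Φ x) {μ : ℕ} (hμ : μ < j) (c : Pat V)
    (hX : InX (R.ctx Φ u b μ) x (R.W μ) (R.J μ) c) : (vars c ∩ (R.T μ \ R.W μ)).Nonempty :=
  (h.mono hμ.le).inv_of_chain hs (h μ hμ).chain c hX

/-- The private witness of an element of `A μ`. -/
theorem Valid.priv (h : Valid Φ x u b R j) {μ : ℕ} (hμ : μ < j) {e : V} (he : e ∈ R.A μ) :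
    ∃ c ∈ Φ, ∃ m, m ≤ μ ∧ Fals c (flip x (U R.J m (μ + 1))) ∧ Disjoint (vars c) (U R.A m μ) ∧
      (vars c ∩ U R.W m (μ + 1)).card ≤ u ∧ vars c ∩ R.A μ = {e} ∧
      Disjoint (vars c) (R.T (μ + 1)) := by
  obtain ⟨c, hX, h1, h2⟩ := (h μ hμ).hit.priv he
  obtain ⟨hc, m, hm, h3, h4, h5⟩ := inX_ctx_iff.1 hX
  refine ⟨c, hc, m, hm, h3, h4, h5, h1, ?_⟩
  rw [h.T_succ hμ, disjoint_left]
  intro v hv
  have := h2 hv
  grind

theorem Valid.sat_next (h : Valid Φ x u b R b) (hs : Sat Φ x) :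
    Sat (nextF Φ x u b R.W R.J R.A) x := by
  intro d hd hf
  obtain ⟨c, hc, ⟨m₁, m₂, h1, h2, h3, h4⟩, rfl⟩ := mem_nextF.1 hd
  refine h.hit hs h1 hc (fun v => ?_) h3 h4
  have := hf v
  have := h2 v
  have := @h.UJ_sub _ _ _ _ _ _ _ _ _ m₁ m₂ h1 v
  have := @U_mono _ _ R.W m₁ m₂ 0 b (Nat.zero_le _) h1 v
  grind

theorem wid_next {k : ℕ} (hk : ∀ c ∈ Φ, (vars c).card ≤ k) (W J A : ℕ → Finset V) :
    ∀ d ∈ nextF Φ x u b W J A, (vars d).card ≤ k := by
  intro d hd
  obtain ⟨c, hc, -, rfl⟩ := mem_nextF.1 hd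
  rw [vars_erase]
  exact (card_le_card sdiff_subset).trans (hk c hc)

/-- `nextF` only depends on the record below `b` and on `x` on the `W`-elements. -/
theorem nextF_congr {x' : V → Bool} {W J A W' J' A' : ℕ → Finset V}
    (hW : ∀ ν < b, W ν = W' ν) (hJ : ∀ ν < b, J ν = J' ν) (hA : ∀ ν < b, A ν = A' ν)
    (hx : ∀ v ∈ U W 0 b, x v = x' v) : nextF Φ x u b W J A = nextF Φ x' u b W' J' A' := by
  have e1 : U W 0 b = U W' 0 b := U_congr fun ν _ h => hW ν h
  have key : ∀ c m₁ m₂, Der x u b W J A c m₁ m₂ ↔ Der x' u b W' J' A' c m₁ m₂ := by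
    intro c m₁ m₂
    unfold Der
    refine and_congr_right fun hm => ?_
    rw [U_congr (W := W) (W' := W') (a := m₁) (b := m₂) fun ν _ h => hW ν (by omega),
      U_congr (W := J) (W' := J') (a := m₁) (b := m₂) fun ν _ h => hJ ν (by omega),
      U_congr (W := A) (W' := A') (a := m₁) (b := m₂) fun ν _ h => hA ν (by omega), ← e1]
    refine and_congr_left fun _ => forall₂_congr fun v hv => ?_
    have := hx v hv
    grind
  ext d
  simp only [mem_nextF, key, e1]

/-- **Object lemma.** A clause falsified by the decoder's current assignment, avoiding `Wc` and the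
hitting sets of times `≥ μ`, and uncapped, is a candidate or dominates a derived clause falsified
by the future. -/
theorem Valid.obj (h : Valid Φ x u b R b) {μ : ℕ} (hμ : μ < b) {Wc Jc Jfut : Finset V}
    (hWc : Wc ⊆ R.W μ) (hJc : Jc ⊆ Wc) (hJ : ∀ v ∈ Wc, v ∈ R.J μ ↔ v ∈ Jc)
    (hfut : Jfut ⊆ R.T b) {c : Pat V} (hc : c ∈ Φ)
    (hf : Fals c (flip x (U R.J μ b ∪ Jfut))) (h1 : Disjoint (vars c) Wc)
    (h2 : Disjoint (vars c) (U R.A μ b)) (h3 : (vars c ∩ U R.A 0 μ).card ≤ b) :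
    Cand (R.ctx Φ u b μ) x Wc Jc c ∨
      ∃ d ∈ nextF Φ x u b R.W R.J R.A, Fals d (flip x Jfut) ∧ vars d ∩ R.T b ⊆ vars c := by
  have hTb := h.T_anti hμ.le le_rfl
  have hJW := h.UJ_sub (a := μ) le_rfl
  have hWT := h.UW_sub le_rfl hμ.le
  by_cases hw : ∃ c' m, Wit (R.ctx Φ u b μ) x Wc Jc c c' m
  · right
    obtain ⟨c', m, hm, hc', w1, w2, w3, w4⟩ := hw
    have hm' : m ≤ μ := hm
    simp only [Rec.ctx] at w1 w2 w3 w4 hc'
    have sW := U_split R.W hm' hμ.le
    have sJ := U_split R.J hm' hμ.le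
    have sA := U_split R.A hm' hμ.le
    have s0 := U_split R.W (Nat.zero_le μ) hμ.le
    have hJW' := h.UJ_sub (a := m) hμ.le
    have hWT' := h.UW_sub hμ.le hm'
    have hW0 := h.UW_sub hμ.le (Nat.zero_le μ)
    have hAT := h.UA_sub le_rfl hμ.le
    have hWA := disjoint_left.1 (h.UW_UA (a := μ) (a' := μ) le_rfl le_rfl)
    have hWμ := subset_U R.W (le_refl μ) hμ
    have hJμ := subset_U R.J (le_refl μ) hμ
    have hmono := U_mono R.W (Nat.zero_le m) (le_refl μ)
    have hJc' : ∀ v ∈ Wc, v ∈ U R.J μ b ↔ v ∈ Jc := by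
      intro v hv
      rw [← hJ v hv]
      refine ⟨fun hv' => ?_, fun hv' => hJμ hv'⟩
      obtain ⟨ν, h4, h5, h6⟩ := mem_U.1 hv'
      obtain rfl := h.W_W hμ h5 (hWc hv) (h.J_sub h5 h6)
      exact h6
    refine ⟨erase c' (U R.W 0 b), mem_nextF.2 ⟨c', hc', ⟨m, b, le_rfl, ?_, ?_, ?_⟩, rfl⟩, ?_, ?_⟩
    · intro v hv
      have := w1 v; have := w2 v; have := hf v; have := @hJW v; have := @hWT v
      have := @hJW' v; have := @hWT' v; have := @hW0 v; have := @hfut v; have := @hJc v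
      have := hJc' v; have := @hWc v; have := @hWμ v
      rw [sJ]; rw [s0] at hv
      grind
    · rw [sA, disjoint_left]
      intro v hv
      have := w2 v; have := dj w3 v; have := dj h2 v
      have := @hAT v; have := @hWA v; have := @hWc v; have := @hWμ v
      grind
    · refine le_trans (card_le_card ?_) w4
      rw [sW]
      intro v hv
      have := @hWT v
      grind
    · intro v
      have := w1 v; have := w2 v; have := hf v; have := @hJW v; have := @hJW' v
      have := @hfut v; have := @hJc v; have := @hWc v; have := @hWμ v; have := @hmono v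
      have := @hTb v
      rw [s0]
      grind
    · intro v hv
      have := w2 v; have := @hTb v; have := @hWc v; have := @hWμ v; have := @hWT v
      grind
  · left
    refine ⟨hc, fun v hv => ?_, h1, h3, fun c' m hh => hw ⟨c', m, hh⟩⟩
    have := hf v; have := @hJW v; have := @hWT v; have := @hfut v; have := @hTb v
    simp only [Rec.ctx] at hv
    grind

/-- **Member lemma.** The next member is an object for both decoders. -/
theorem Valid.member (h : Valid Φ x u b R b) {μ : ℕ} (hμ : μ < b) {Wc Jc Ec Jfut : Finset V}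
    (hJc : Jc ⊆ Wc) (hfut : Jfut ⊆ R.T b) {c : Pat V} (hc : Cand (R.ctx Φ u b μ) x Wc Jc c)
    (hch : Chain (R.ctx Φ u b μ) x (Wc ∪ vars c ∩ R.T μ) (Jc ∪ dis c x)
      (Ec ∪ vars c ∩ U R.A 0 μ) (R.W μ) (R.J μ) (R.E μ)) :
    c ∈ Φ ∧ Fals c (flip x (U R.J μ b ∪ Jfut)) ∧ Disjoint (vars c) Wc ∧
      vars c ∩ R.T μ ⊆ R.W μ ∧ vars c ∩ U R.A 0 μ ⊆ R.E μ ∧ (vars c ∩ U R.A 0 μ).card ≤ b ∧
      u < (vars c ∩ R.T μ).card ∧ dis c x ⊆ vars c ∩ R.T μ := by
  have hsub : vars c ∩ R.T μ ⊆ R.W μ := subset_union_right.trans hch.W_sub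
  have hds := hc.dis_subset
  refine ⟨hc.1, fun v => ?_, hc.2.2.1, hsub, subset_union_right.trans hch.E_sub, hc.2.2.2.1,
    hc.big hJc (U_self _ _) (U_self _ _) (U_self _ _), hds.trans sdiff_subset⟩
  have hTb := h.T_anti hμ.le le_rfl
  have hJW := h.UJ_sub (a := μ) le_rfl
  have hWT := h.UW_sub le_rfl hμ.le
  have hWμ := subset_U R.W (le_refl μ) hμ
  by_cases hv : v ∈ vars c ∩ R.T μ
  · have e1 := hch.J_iff (mem_union_right Wc hv)
    have e2 : v ∈ U R.J μ b ↔ v ∈ R.J μ := by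
      refine ⟨fun hv' => ?_, fun hv' => subset_U R.J (le_refl μ) hμ hv'⟩
      obtain ⟨ν, h4, h5, h6⟩ := mem_U.1 hv'
      obtain rfl := h.W_W hμ h5 (hsub hv) (h.J_sub h5 h6)
      exact h6
    have := @hJc v; have := dj hc.2.2.1 v; have := @hsub v
    have := @hWμ v; have := @hWT v; have := @hfut v
    cases hx : x v <;> rcases hc' : c v with _ | _ | _ <;> grind
  · have := hc.2.1 v; have := @hJW v; have := @hWT v; have := @hfut v; have := @hTb v
    simp only [Rec.ctx] at *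
    grind

/-- **Lineage** through one round. -/
theorem Valid.lineage (h : Valid Φ x u b R b) {c : Pat V} (hc : c ∈ Φ)
    (ha : ∀ v, v ∉ R.T b → Ag c x v) (hw : (vars c ∩ R.T 0).card ≤ u + b) :
    ∃ d ∈ nextF Φ x u b R.W R.J R.A, (∀ v, v ∉ R.T b → Ag d x v) ∧
      (∀ v ∈ R.T b, d v = none ∨ d v = c v) ∧ (vars d ∩ R.T b).card ≤ u := by
  have hW0 := h.UW_sub le_rfl (Nat.zero_le b)
  by_cases hsm : (vars c ∩ R.T b).card ≤ u
  · refine ⟨erase c (U R.W 0 b), mem_nextF.2 ⟨c, hc, ⟨0, 0, Nat.zero_le _, ?_, by simp, by simp⟩,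
      rfl⟩, ?_, ?_, le_trans (card_le_card ?_) hsm⟩
    · intro v hv
      have := ha v; have := @hW0 v
      simp only [U_self, flip_empty]
      grind
    · intro v hv; have := ha v; grind
    · intro v hv; grind
    · intro v hv; grind
  · -- fewer than `b` variables were revealed
    have hT0 := h.T_anti (Nat.zero_le b) le_rfl
    have hlt : (vars c ∩ (R.T 0 \ R.T b)).card < b := by
      have : vars c ∩ R.T 0 = (vars c ∩ R.T b) ∪ (vars c ∩ (R.T 0 \ R.T b)) := by
        ext v; have := @hT0 v; grind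
      rw [this, card_union_of_disjoint (by rw [disjoint_left]; intro v; grind)] at hw
      omega
    obtain ⟨μ, hμ, hd⟩ : ∃ μ < b, Disjoint (vars c) (R.W μ ∪ R.A μ) := by
      by_contra hcon
      push Not at hcon
      have : Nonempty V := ⟨(not_disjoint_iff.1 (hcon 0 (by omega))).choose⟩
      choose! f hf using fun μ hμ => not_disjoint_iff.1 (hcon μ hμ)
      have : (range b).card ≤ (vars c ∩ (R.T 0 \ R.T b)).card := by
        apply card_le_card_of_injOn f
        · intro μ hμ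
          have hμ' : μ < b := by simpa using hμ
          obtain ⟨h1, h2⟩ := hf μ hμ'
          have h3 : f μ ∈ R.W μ ∨ f μ ∈ R.F μ :=
            (mem_union.1 h2).imp id fun h4 => h.A_sub hμ' h4
          simp only [coe_inter, coe_sdiff, Set.mem_inter_iff, mem_coe, Set.mem_sdiff]
          rw [h.mem_T_iff hμ' (Nat.zero_le _) h3, h.mem_T_iff hμ' le_rfl h3]
          exact ⟨h1, Nat.zero_le _, by omega⟩
        · intro μ hμ ν hν heq
          have hμ' : μ < b := by simpa using hμ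
          have hν' : ν < b := by simpa using hν
          have h3 : f μ ∈ R.W μ ∨ f μ ∈ R.F μ :=
            (mem_union.1 (hf μ hμ').2).imp id fun h4 => h.A_sub hμ' h4
          have h4 : f μ ∈ R.W ν ∨ f μ ∈ R.F ν :=
            heq ▸ (mem_union.1 (hf ν hν').2).imp id fun h4 => h.A_sub hν' h4
          have e1 := h.mem_T_iff hμ' hν'.le h3
          have e2 := h.mem_T_iff hν' hν'.le h4
          have e3 := h.mem_T_iff hμ' hμ'.le h3
          have e4 := h.mem_T_iff hν' hμ'.le h4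
          have := e1.1 (e2.2 le_rfl)
          have := e4.1 (e3.2 le_rfl)
          omega
      simp at this
      omega
    have hTb := h.T_anti hμ.le le_rfl
    have hTb1 := h.T_anti (show μ + 1 ≤ b from hμ) le_rfl
    have hnc := (h μ hμ).chain.noCand c
    have hwit : ∃ c' m, Wit (R.ctx Φ u b μ) x (R.W μ) (R.J μ) c c' m := by
      by_contra hno
      refine hnc ⟨hc, fun v hv => ha v fun hv' => hv (hTb hv'), hd.mono_right subset_union_left,
        le_trans (card_le_card ?_) hlt.le, fun c' m hh => hno ⟨c', m, hh⟩⟩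
      intro v hv
      have := @h.UA_sub _ _ _ _ _ _ _ _ _ 0 μ hμ.le (Nat.zero_le _) v
      have := @hTb v
      simp only [Rec.ctx] at hv
      grind
    obtain ⟨c', m, hm, hc', w1, w2, w3, w4⟩ := hwit
    have hm' : m ≤ μ := hm
    simp only [Rec.ctx] at w1 w2 w3 w4 hc'
    have hJW' := h.UJ_sub (a := m) hμ.le
    have hWT' := h.UW_sub hμ.le hm'
    have hJμ := h.J_sub hμ
    have hWμ := h.W_sub hμ
    have hAμ := (h.A_sub hμ).trans (h.F_sub hμ)
    have hmono := U_mono R.W (Nat.zero_le m) hμ.le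
    have hWμ' := subset_U R.W (Nat.zero_le μ) hμ
    refine ⟨erase c' (U R.W 0 b), mem_nextF.2 ⟨c', hc', ⟨m, μ + 1, hμ, ?_, ?_, ?_⟩, rfl⟩, ?_, ?_,
      le_trans (card_le_card ?_) w4⟩
    · intro v hv
      rw [U_succ _ hm']
      have := w1 v; have := w2 v; have := ha v; have := @hW0 v; have := @hJW' v
      have := @hWT' v; have := @hJμ v
      grind
    · rw [U_succ _ hm', disjoint_left]
      intro v hv
      have := w2 v; have := dj w3 v; have := dj hd v
      have := @hAμ v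
      grind
    · refine le_trans (card_le_card ?_) w4
      rw [U_succ _ hm']
      intro v hv
      have := @hWμ v
      grind
    · intro v hv
      have := w1 v; have := w2 v; have := ha v; have := @hJW' v; have := @hJμ v
      have := @hmono v; have := @hWμ' v
      grind
    · intro v hv
      have := w2 v; have := @hTb v; have := @hW0 v; have := @hWμ' v
      grind
    · intro v hv
      have := @hTb v
      grind

end valid

end Crest.Agent.R291
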