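import Crest.Agent.R291.Basic
import Crest.Agent.R291.Lang

/-!
# Row 291: a good seed exists
-/

set_option autoImplicit false

namespace Crest.Agent.R291

open Finset

/-- A bit as an element of `ZMod 2`. -/
def sb (b : Bool) : ZMod 2 := (b.toNat : ZMod 2)

theorem sb_xor (a b : Bool) : sb (xor a b) = sb a + sb b := by
  cases a <;> cases b <;> decide

theorem sb_inj {a b : Bool} (h : sb a = sb b) : a = b := by
  revert h; cases a <;> cases b <;> decide

theorem sb_decide (x : ZMod 2) : sb (decide (x = 1)) = x := by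
  revert x; decide

theorem seed_add_self (x : ZMod 2) : x + x = 0 := by
  revert x; decide

theorem seed_mod_two (x : ℕ) : x % 2 = 0 ↔ (x : ZMod 2) = 0 := by
  rw [ZMod.natCast_eq_zero_iff, Nat.dvd_iff_mod_eq_zero]

/-- Row `j` of the Toeplitz matrix applied to `y`. -/
def toep {n : ℕ} (s : ℕ → Bool) (j : ℕ) (y : Fin n → Bool) : ZMod 2 :=
  ∑ l : Fin n, sb (s (j + l)) * sb (y l)

/-- Pointwise `xor`. -/
def xr {n : ℕ} (y y' : Fin n → Bool) : Fin n → Bool := fun l => xor (y l) (y' l)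

theorem toep_xr {n : ℕ} (s : ℕ → Bool) (j : ℕ) (y y' : Fin n → Bool) :
    toep s j (xr y y') = toep s j y + toep s j y' := by
  simp only [toep, xr, sb_xor, mul_add, sum_add_distrib]

theorem toep_iff {n : ℕ} (s : ℕ → Bool) (j : ℕ) (y : Fin n → Bool) :
    (∑ l : Fin n, (s (j + l)).toNat * (y l).toNat) % 2 = 0 ↔ toep s j y = 0 := by
  rw [seed_mod_two]; simp only [toep, sb]; push_cast; rfl

/-- The syndrome. -/
def syn (n : ℕ) (s : ℕ → Bool) (h : ℕ → ℕ → Bool) (y : Fin n → Bool) (i : ℕ) : ZMod 2 :=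
  ∑ j ∈ range (nQ n), sb (h i j) * toep s j y

theorem syn_xr (n : ℕ) (s : ℕ → Bool) (h : ℕ → ℕ → Bool) (y y' : Fin n → Bool) (i : ℕ) :
    syn n s h (xr y y') i = syn n s h y i + syn n s h y' i := by
  simp only [syn, toep_xr, mul_add, sum_add_distrib]

theorem hashOK_iff (n : ℕ) (s : ℕ → Bool) (h : ℕ → ℕ → Bool) (y : Fin n → Bool) :
    HashOK n s h y ↔ ∀ i < nA n, syn n s h y i = 0 := by
  refine forall₂_congr (fun i _ => ?_)
  rw [seed_mod_two]; simp only [syn, toep, sb]; push_cast; rfl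

theorem xr_left_injective {n : ℕ} (y₀ : Fin n → Bool) :
    Function.Injective (fun y => xr y y₀) := by
  intro y y' h
  funext l
  have := congrFun h l
  simp only [xr] at this
  revert this
  cases y l <;> cases y' l <;> cases y₀ l <;> decide

/-- The number of subsets of size at most `d`. -/
theorem card_small_subsets {α : Type} [DecidableEq α] (s : Finset α) (d : ℕ) :
    (s.powerset.filter fun t => t.card ≤ d).card ≤ (s.card + 1) ^ d := by
  induction d with
  | zero =>
    rw [pow_zero, card_le_one]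
    intro a ha b hb
    simp only [mem_filter, nonpos_iff_eq_zero, card_eq_zero] at ha hb
    rw [ha.2, hb.2]
  | succ d ih =>
    have h1 : (s.powerset.filter fun t => t.card ≤ d + 1) ⊆
        (s.powerset.filter fun t => t.card ≤ d) ∪
          (s ×ˢ (s.powerset.filter fun t => t.card ≤ d)).image (fun p => insert p.1 p.2) := by
      intro t ht
      simp only [mem_filter, mem_powerset, mem_union, mem_image, mem_product] at ht ⊢
      rcases t.eq_empty_or_nonempty with rfl | ⟨a, ha⟩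
      · exact Or.inl ⟨ht.1, by simp⟩
      · refine Or.inr ⟨(a, t.erase a), ⟨ht.1 ha, (erase_subset _ _).trans ht.1, ?_⟩,
          insert_erase ha⟩
        rw [card_erase_of_mem ha]; omega
    have h2 := (card_le_card h1).trans (card_union_le _ _)
    have h3 := card_image_le (s := s ×ˢ (s.powerset.filter fun t => t.card ≤ d))
      (f := fun p => insert p.1 p.2)
    rw [card_product] at h3
    rw [pow_succ]
    nlinarith

/-- The accepted set is the kernel of a linear map `(ZMod 2)^n → (ZMod 2)^(nA n)`.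
RECIPE: pigeonhole on the syndrome map `y ↦ (i ↦ check_i(y) % 2)` (or rank–nullity): some fibre has
`≥ 2^n / 2^a` points, and `y ↦ y xor y₀` injects that fibre into the kernel. -/
theorem hash_density (n : ℕ) (s : ℕ → Bool) (h : ℕ → ℕ → Bool) :
    2 ^ n ≤ 2 ^ nA n * (univ.filter (HashOK n s h)).card := by
  have h1 := card_le_mul_card_image_of_maps_to (s := (univ : Finset (Fin n → Bool)))
    (t := (univ : Finset (Fin (nA n) → ZMod 2))) (f := fun y (i : Fin (nA n)) => syn n s h y i)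
    (fun _ _ => mem_univ _) (univ.filter (HashOK n s h)).card (by
      intro b _
      rcases (univ.filter fun y : Fin n → Bool =>
        (fun i : Fin (nA n) => syn n s h y i) = b).eq_empty_or_nonempty with he | ⟨y₀, hy₀⟩
      · rw [he]; simp
      refine card_le_card_of_injOn (fun y => xr y y₀) (fun y hy => ?_)
        (xr_left_injective y₀).injOn
      simp only [coe_filter, mem_filter, mem_univ, true_and, Set.mem_ofPred_eq] at hy hy₀ ⊢
      rw [hashOK_iff]
      intro i hi
      rw [syn_xr, congrFun hy ⟨i, hi⟩, congrFun hy₀ ⟨i, hi⟩, seed_add_self])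
  simpa [mul_comm] using h1

/-- Extension of a finite seed by `false`. -/
def sext {N : ℕ} (s : Fin N → Bool) (t : ℕ) : Bool := if h : t < N then s ⟨t, h⟩ else false

theorem card_kill (n q : ℕ) (v : Fin n → Bool) (hv : v ≠ fun _ => false) :
    (univ.filter fun s : Fin (q + n) → Bool => ∀ j < q, toep (sext s) j v = 0).card ≤ 2 ^ n := by
  have hne : (univ.filter fun l => v l = true).Nonempty := by
    by_contra hc
    refine hv (funext fun l => ?_)
    by_contra hl
    exact hc ⟨l, by simpa using hl⟩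
  obtain ⟨l₀, h0, h1⟩ := exists_max_image _ (fun l : Fin n => (l : ℕ)) hne
  simp only [mem_filter, mem_univ, true_and] at h0 h1
  have hc : 2 ^ n = (univ : Finset (Fin n → Bool)).card := by simp
  rw [hc]
  refine card_le_card_of_injOn
    (fun s (l : Fin n) => if (l : ℕ) < l₀ then sext s l else sext s (q + l))
    (fun _ _ => mem_univ _) (fun s hs s' hs' hss => ?_)
  simp only [coe_filter, mem_univ, true_and, Set.mem_ofPred_eq] at hs hs'
  have key : ∀ t, sext s t = sext s' t := by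
    intro t
    induction t using Nat.strong_induction_on with
    | _ t ih =>
      by_cases a1 : t < l₀
      · simpa [a1] using congrFun hss ⟨t, a1.trans l₀.2⟩
      by_cases a2 : q + n ≤ t
      · simp [sext, not_lt.2 a2]
      by_cases a3 : q + l₀ ≤ t
      · have := congrFun hss ⟨t - q, by omega⟩
        simp only [if_neg (show ¬ t - q < l₀ by omega), show q + (t - q) = t by omega] at this
        exact this
      have b1 := (hs (t - l₀) (by omega)).trans (hs' (t - l₀) (by omega)).symm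
      unfold toep at b1
      rw [← add_sum_erase _ _ (mem_univ l₀), ← add_sum_erase _ _ (mem_univ l₀),
        sum_congr rfl (g := fun l : Fin n => sb (sext s' (t - l₀ + l)) * sb (v l)),
        add_left_inj, h0, show t - l₀ + l₀ = t by omega] at b1
      · exact sb_inj (by simpa [sb] using b1)
      · intro l hl
        by_cases hvl : v l = true
        · have c1 := h1 l hvl
          have c2 : (l : ℕ) ≠ l₀ := fun hc => (mem_erase.1 hl).1 (Fin.ext hc)
          rw [ih _ (by omega)]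
        · simp [sb, hvl]
  funext t
  simpa [sext] using key t

/-- A Toeplitz seed injective on sparse vectors.
RECIPE: for a fixed `v ≠ 0` with last nonzero index `l₀`, a seed `s ∈ {0,1}^(q+n)` with
`∀ j<q, ∑_l s(j+l) v_l ≡ 0` is determined by its values outside `{j + l₀ : j < q}` (induction on
`j`), so at most `2^n` of the `2^(q+n)` seeds kill `v`.  There are at most `(n+1)^d` vectors with
support of size `≤ d`.  Union bound. -/
theorem exists_toeplitz (n q d : ℕ) (hd : (n + 1) ^ d < 2 ^ q) :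
    ∃ s : ℕ → Bool, ∀ v : Fin n → Bool, (univ.filter fun l => v l = true).card ≤ d →
      (∀ j < q, (∑ l : Fin n, (s (j + l)).toNat * (v l).toNat) % 2 = 0) → v = fun _ => false := by
  set A : Finset (Fin n → Bool) :=
    univ.filter fun v => (univ.filter fun l => v l = true).card ≤ d ∧ v ≠ fun _ => false with hA
  have h1 : A.card ≤ (n + 1) ^ d := by
    have := card_small_subsets (univ : Finset (Fin n)) d
    rw [card_univ, Fintype.card_fin] at this
    refine le_trans (card_le_card_of_injOn (fun v => univ.filter fun l => v l = true)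
      (fun v hv => ?_) (fun v _ v' _ hvv => ?_)) this
    · simp only [hA, coe_filter, mem_univ, true_and, Set.mem_ofPred_eq] at hv
      simpa using hv.1
    · funext l
      have := Finset.ext_iff.1 hvv l
      simpa using this
  have h2 : (A.biUnion fun v => univ.filter fun s : Fin (q + n) → Bool =>
      ∀ j < q, toep (sext s) j v = 0).card < (univ : Finset (Fin (q + n) → Bool)).card := by
    refine (card_biUnion_le_card_mul _ _ (2 ^ n)
      (fun v hv => card_kill n q v (mem_filter.1 hv).2.2)).trans_lt ?_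
    simp only [card_univ, Fintype.card_fun, Fintype.card_bool, Fintype.card_fin, pow_add]
    exact Nat.mul_lt_mul_of_pos_right (h1.trans_lt hd) (by positivity)
  obtain ⟨s, -, hs⟩ := exists_mem_notMem_of_card_lt_card h2
  refine ⟨sext s, fun v hv h0 => ?_⟩
  by_contra hne
  refine hs (mem_biUnion.2 ⟨v, mem_filter.2 ⟨mem_univ _, hv, hne⟩, mem_filter.2 ⟨mem_univ _, ?_⟩⟩)
  exact fun j hj => (toep_iff _ _ _).1 (h0 j hj)

theorem card_orth (q m : ℕ) (Z : Finset (Fin q → ZMod 2)) (hZ : 2 ^ m ≤ Z.card) :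
    (univ.filter fun r : Fin q → ZMod 2 => ∀ z ∈ Z, ∑ j, r j * z j = 0).card * 2 ^ m ≤ 2 ^ q := by
  classical
  let M : Matrix Z (Fin q) (ZMod 2) := Matrix.of fun z j => (z : Fin q → ZMod 2) j
  have h1 : M.rank + Module.finrank (ZMod 2) (LinearMap.ker M.mulVecLin) = q := by
    have := LinearMap.finrank_range_add_finrank_ker M.mulVecLin
    rwa [Module.finrank_fin_fun] at this
  have h2 : Z.card ≤ 2 ^ M.rank := by
    rw [Matrix.rank_eq_finrank_span_row]
    have := Module.natCard_eq_pow_finrank (K := ZMod 2)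
      (V := Submodule.span (ZMod 2) (Set.range M.row))
    rw [Nat.card_zmod] at this
    rw [← this, ← Nat.card_eq_finsetCard Z]
    refine Nat.card_le_card_of_injective
      (fun z => ⟨z, Submodule.subset_span ⟨z, rfl⟩⟩) (fun z z' h => ?_)
    exact Subtype.ext (Subtype.mk.inj h)
  have h3 : (univ.filter fun r : Fin q → ZMod 2 => ∀ z ∈ Z, ∑ j, r j * z j = 0).card =
      2 ^ Module.finrank (ZMod 2) (LinearMap.ker M.mulVecLin) := by
    have := Module.natCard_eq_pow_finrank (K := ZMod 2) (V := LinearMap.ker M.mulVecLin)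
    rw [Nat.card_zmod] at this
    rw [← this, ← Nat.card_eq_finsetCard]
    refine Nat.card_congr (Equiv.subtypeEquivRight (fun r => ?_))
    simp [M, LinearMap.mem_ker, funext_iff, Matrix.mulVec, dotProduct, mul_comm]
  rw [h3]
  calc _ ≤ 2 ^ Module.finrank (ZMod 2) (LinearMap.ker M.mulVecLin) * 2 ^ M.rank :=
        Nat.mul_le_mul_left _ (hZ.trans h2)
    _ = 2 ^ q := by rw [← pow_add, add_comm, h1]

/-- A small matrix that kills none of a family of big vector sets.
RECIPE: for a set `Z ⊆ (ZMod 2)^q` with `|Z| ≥ 2^m`, the number of rows `r` orthogonal to all of `Z`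
is `2^(q - rank)` with `2^m ≤ |Z| ≤ |span Z| = 2^rank` (`Matrix.rank`, `rank_eq_finrank_span_row`,
`LinearMap.finrank_range_add_finrank_ker`, `Module.card_eq_pow_finrank`); so at most
`2^(a(q-m))` of the `2^(a q)` matrices kill `Z`.  Union bound over the family. -/
theorem exists_matrix (a q m : ℕ) {ι : Type} (I : Finset ι) (Z : ι → Finset (Fin q → ZMod 2))
    (hZ : ∀ i ∈ I, 2 ^ m ≤ (Z i).card) (hI : I.card < 2 ^ (a * m)) :
    ∃ h : Fin a → Fin q → ZMod 2, ∀ i ∈ I, ∃ z ∈ Z i, ∃ r : Fin a, ∑ j, h r j * z j ≠ 0 := by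
  classical
  set B : ι → Finset (Fin a → Fin q → ZMod 2) := fun i => Fintype.piFinset fun _ =>
    univ.filter fun r : Fin q → ZMod 2 => ∀ z ∈ Z i, ∑ j, r j * z j = 0 with hB
  have h1 : ∀ i ∈ I, (B i).card * 2 ^ (a * m) ≤ 2 ^ (a * q) := by
    intro i hi
    rw [hB, Fintype.card_piFinset, prod_const, card_univ, Fintype.card_fin, pow_mul', pow_mul',
      ← mul_pow]
    exact Nat.pow_le_pow_left (card_orth q m _ (hZ i hi)) _
  have h2 : (I.biUnion B).card < (univ : Finset (Fin a → Fin q → ZMod 2)).card := by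
    have e : (univ : Finset (Fin a → Fin q → ZMod 2)).card = 2 ^ (a * q) := by
      simp [pow_mul']
    rw [e]
    refine lt_of_mul_lt_mul_right (a := 2 ^ (a * m)) ?_ (Nat.zero_le _)
    calc _ ≤ (∑ i ∈ I, (B i).card) * 2 ^ (a * m) := Nat.mul_le_mul_right _ card_biUnion_le
      _ = ∑ i ∈ I, (B i).card * 2 ^ (a * m) := sum_mul _ _ _
      _ ≤ I.card * 2 ^ (a * q) := by simpa using sum_le_card_nsmul I _ _ h1
      _ < 2 ^ (a * m) * 2 ^ (a * q) := Nat.mul_lt_mul_of_pos_right hI (by positivity)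
      _ = _ := mul_comm _ _
  obtain ⟨h, -, hh⟩ := exists_mem_notMem_of_card_lt_card h2
  refine ⟨h, fun i hi => ?_⟩
  by_contra hc
  push Not at hc
  refine hh (mem_biUnion.2 ⟨i, hi, Fintype.mem_piFinset.2 fun r => ?_⟩)
  exact mem_filter.2 ⟨mem_univ _, fun z hz => hc z hz r⟩

theorem exists_matrix' (a q m : ℕ) {ι : Type} (I : Finset ι) (Z : ι → Finset (Fin q → ZMod 2))
    (hI : I.card < 2 ^ (a * m)) : ∃ h : Fin a → Fin q → ZMod 2, ∀ i ∈ I, 2 ^ m ≤ (Z i).card →
      ∃ z ∈ Z i, ∃ r : Fin a, ∑ j, h r j * z j ≠ 0 := by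
  obtain ⟨h, hh⟩ := exists_matrix a q m (I.filter fun i => 2 ^ m ≤ (Z i).card) Z
    (fun i hi => (mem_filter.1 hi).2) ((card_filter_le _ _).trans_lt hI)
  exact ⟨h, fun i hi hZ => hh i (mem_filter.2 ⟨hi, hZ⟩)⟩

/-- Change the context off `T`. -/
def chg {n : ℕ} (T : Finset (Fin n)) (ρ y : Fin n → Bool) : Fin n → Bool :=
  fun v => if v ∈ T then y v else ρ v

theorem chg_mem {n : ℕ} {T : Finset (Fin n)} {ρ y : Fin n → Bool}
    {G : Finset (Finset (Fin n × Bool))} (hG : ∀ c ∈ G, ∀ l ∈ c, l.1 ∈ T) (ρ' : Fin n → Bool)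
    (hy : y ∈ fib T ρ G) : chg T ρ' y ∈ fib T ρ' G := by
  rw [mem_fib] at hy ⊢
  refine ⟨fun v hv => if_neg hv, fun c hc => ?_⟩
  obtain ⟨l, hl, h⟩ := hy.2 c hc
  exact ⟨l, hl, (if_pos (hG c hc l hl)).trans h⟩

theorem chg_xr {n : ℕ} {T : Finset (Fin n)} {ρ y y' : Fin n → Bool}
    {G : Finset (Finset (Fin n × Bool))} (ρ' : Fin n → Bool)
    (hy : y ∈ fib T ρ G) (hy' : y' ∈ fib T ρ G) : xr (chg T ρ' y) (chg T ρ' y') = xr y y' := by
  rw [mem_fib] at hy hy'
  funext v
  by_cases hv : v ∈ T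
  · simp [xr, chg, hv]
  · simp [xr, chg, hv, hy.1 v hv, hy'.1 v hv]

/-- The Toeplitz images of the differences of points of a fibre. -/
def diffs {n : ℕ} (s : ℕ → Bool) (T : Finset (Fin n)) (ρ : Fin n → Bool)
    (G : Finset (Finset (Fin n × Bool))) : Finset (Fin (nQ n) → ZMod 2) :=
  (fib T ρ G ×ˢ fib T ρ G).image fun p j => toep s j (xr p.1 p.2)

theorem diffs_subset {n : ℕ} (s : ℕ → Bool) {T : Finset (Fin n)} (ρ ρ' : Fin n → Bool)
    {G : Finset (Finset (Fin n × Bool))} (hG : ∀ c ∈ G, ∀ l ∈ c, l.1 ∈ T) :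
    diffs s T ρ G ⊆ diffs s T ρ' G := by
  intro z hz
  obtain ⟨p, hp, rfl⟩ := mem_image.1 hz
  rw [mem_product] at hp
  exact mem_image.2 ⟨(chg T ρ' p.1, chg T ρ' p.2),
    mem_product.2 ⟨chg_mem hG ρ' hp.1, chg_mem hG ρ' hp.2⟩, by simp only [chg_xr ρ' hp.1 hp.2]⟩

theorem card_fib_le {n d : ℕ} {s : ℕ → Bool}
    (hs : ∀ v : Fin n → Bool, (univ.filter fun l => v l = true).card ≤ d →
      (∀ j < nQ n, (∑ l : Fin n, (s (j + l)).toNat * (v l).toNat) % 2 = 0) → v = fun _ => false)
    {T : Finset (Fin n)} (hT : T.card ≤ d) (ρ : Fin n → Bool)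
    (G : Finset (Finset (Fin n × Bool))) : (fib T ρ G).card ≤ (diffs s T ρ G).card := by
  rcases (fib T ρ G).eq_empty_or_nonempty with he | ⟨y₀, hy₀⟩
  · rw [he]; simp
  refine card_le_card_of_injOn (fun y j => toep s j (xr y y₀))
    (fun y hy => mem_image.2 ⟨(y, y₀), mem_product.2 ⟨hy, hy₀⟩, rfl⟩) (fun y hy y' hy' e => ?_)
  have c1 := hs (xr y y') (le_trans (card_le_card fun v hv => ?_) hT) (fun j hj => ?_)
  · funext v
    have := congrFun c1 v
    simpa [xr] using this
  · by_contra hvT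
    simp [xr, (mem_fib.1 hy).1 v hvT, (mem_fib.1 hy').1 v hvT] at hv
  · have := congrFun e ⟨j, hj⟩
    simp only [toep_xr, add_left_inj] at this
    rw [toep_iff, toep_xr, this, seed_add_self]

/-- All pairs `(T, G)` of bounded size. -/
def fam (n d e w : ℕ) : Finset (Finset (Fin n) × Finset (Finset (Fin n × Bool))) :=
  (univ.powerset.filter fun T => T.card ≤ d) ×ˢ
    ((univ.powerset.filter fun c => c.card ≤ w).powerset.filter fun G => G.card ≤ e)

theorem mem_fam {n d e w : ℕ} {T : Finset (Fin n)} {G : Finset (Finset (Fin n × Bool))}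
    (hT : T.card ≤ d) (hG : G.card ≤ e) (hc : ∀ c ∈ G, c.card ≤ w) : (T, G) ∈ fam n d e w :=
  mem_product.2 ⟨mem_filter.2 ⟨mem_powerset.2 (subset_univ _), hT⟩,
    mem_filter.2 ⟨mem_powerset.2 fun c hcG =>
      mem_filter.2 ⟨mem_powerset.2 (subset_univ _), hc c hcG⟩, hG⟩⟩

theorem card_fam (n d e w : ℕ) :
    (fam n d e w).card ≤ (n + 1) ^ d * ((2 * n + 1) ^ w + 1) ^ e := by
  have a1 := card_small_subsets (univ : Finset (Fin n)) d
  have a2 := card_small_subsets (univ : Finset (Fin n × Bool)) w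
  have a3 := card_small_subsets
    ((univ : Finset (Fin n × Bool)).powerset.filter fun c => c.card ≤ w) e
  rw [card_univ, Fintype.card_fin] at a1
  rw [card_univ, Fintype.card_prod, Fintype.card_fin, Fintype.card_bool, mul_comm n 2] at a2
  rw [fam, card_product]
  exact Nat.mul_le_mul a1 (a3.trans (Nat.pow_le_pow_left (Nat.add_le_add_right a2 1) _))

theorem seed_arith (D L w n : ℕ) (p1 : D + (2 * w + 1) * L + 1 ≤ ell n) (hm : 0 < Nat.sqrt n) :
    (n + 1) ^ (D * Nat.sqrt n) < 2 ^ nQ n ∧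
      (n + 1) ^ (D * Nat.sqrt n) * ((2 * n + 1) ^ w + 1) ^ (L * Nat.sqrt n) <
        2 ^ (nA n * Nat.sqrt n) := by
  have hn1 : n + 1 ≤ 2 ^ ell n := Nat.lt_pow_succ_log_self (by norm_num) n
  rw [nQ, nA]
  generalize ell n = l at *
  generalize Nat.sqrt n = m at *
  have hl : 0 < l := by omega
  have q1 : (n + 1) ^ (D * m) ≤ 2 ^ (l * D * m) := by
    rw [mul_assoc, pow_mul 2]; exact Nat.pow_le_pow_left hn1 _
  have q2 : ((2 * n + 1) ^ w + 1) ^ (L * m) ≤ 2 ^ (l * ((2 * w + 1) * L) * m) := by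
    rw [show l * ((2 * w + 1) * L) * m = l * (2 * w + 1) * (L * m) by ring, pow_mul 2]
    refine Nat.pow_le_pow_left ?_ _
    have a4 : 2 ≤ 2 ^ l := Nat.le_self_pow hl.ne' 2
    have a1 : 2 * n + 1 ≤ 2 ^ (l * 2) := by
      rw [pow_mul]; nlinarith
    have a2 := Nat.pow_le_pow_left a1 w
    have a3 : 0 < (2 ^ (l * 2)) ^ w := by positivity
    rw [show l * (2 * w + 1) = l * 2 * w + l by ring, pow_add, pow_mul]
    nlinarith
  constructor
  · refine q1.trans_lt (Nat.pow_lt_pow_right (by norm_num) ?_)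
    rw [mul_comm m, sq]
    exact Nat.mul_lt_mul_of_pos_right (Nat.mul_lt_mul_of_pos_left (by omega) hl) hm
  · refine (Nat.mul_le_mul q1 q2).trans_lt ?_
    rw [← pow_add, ← add_mul, ← mul_add, sq]
    exact Nat.pow_lt_pow_right (by norm_num)
      (Nat.mul_lt_mul_of_pos_right (Nat.mul_lt_mul_of_pos_left (by omega) hl) hm)

/-- A matrix over `ZMod 2` as a bit table. -/
def hext {a q : ℕ} (h : Fin a → Fin q → ZMod 2) (i j : ℕ) : Bool :=
  if hij : i < a ∧ j < q then decide (h ⟨i, hij.1⟩ ⟨j, hij.2⟩ = 1) else false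

/-- The good seed.
RECIPE: `m = √n`, `ℓ = ell n`, `params_eventually`.  `exists_toeplitz` with `d = D m`,
`q = nQ n = m ℓ²` (`(n+1)^(Dm) ≤ 2^(ℓ D m)`, `n + 1 ≤ 2^ℓ`).  Family `I` = pairs `(T, G)` with
`|T| ≤ D m`, `|G| ≤ L m`, clauses of card `≤ w`, such that
`Z (T,G) := {Toep (y xor y') : y, y' ∈ fib T 0 G}` (`0` the all-false context) has `≥ 2^m`
elements; `|I| ≤ (n+1)^(Dm) * ((2n+1)^w + 1)^(Lm) < 2^(ℓ² m)` for `ℓ` large.  Given `T ρ G` as in
the statement, `y ↦ (y on T, false off T)` is a bijection `fib T ρ G ≃ fib T 0 G` (clauses only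
mention `T`) that preserves differences; `y ↦ Toep (y xor y₀)` is injective on `fib` (differences
are supported on `T`); if all of `fib T ρ G` passed `HashOK`, every element of `Z` would be killed by
`h` (linearity over `ZMod 2`). -/
theorem exists_seed (D L w : ℕ) : ∃ n₀, ∀ n ≥ n₀, ∃ (s : ℕ → Bool) (h : ℕ → ℕ → Bool),
    ∀ (T : Finset (Fin n)) (ρ : Fin n → Bool) (G : Finset (Finset (Fin n × Bool))),
      T.card ≤ D * Nat.sqrt n → G.card ≤ L * Nat.sqrt n →
      (∀ c ∈ G, c.card ≤ w ∧ ∀ l ∈ c, l.1 ∈ T) → 2 ^ Nat.sqrt n ≤ (fib T ρ G).card →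
      ∃ y ∈ fib T ρ G, ¬ HashOK n s h y := by
  obtain ⟨n₀, hn₀⟩ := params_eventually (D + (2 * w + 1) * L + 1)
  refine ⟨n₀, fun n hn => ?_⟩
  obtain ⟨p1, -, p2⟩ := hn₀ n hn
  obtain ⟨q1, q2⟩ := seed_arith D L w n p1 (by omega)
  obtain ⟨s, hs⟩ := exists_toeplitz n (nQ n) (D * Nat.sqrt n) q1
  obtain ⟨h, hh⟩ := exists_matrix' (nA n) (nQ n) (Nat.sqrt n)
    (fam n (D * Nat.sqrt n) (L * Nat.sqrt n) w) (fun p => diffs s p.1 (fun _ => false) p.2)
    ((card_fam _ _ _ _).trans_lt q2)
  refine ⟨s, hext h, fun T ρ G hT hG hc hf => ?_⟩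
  have hc' : ∀ c ∈ G, ∀ l ∈ c, l.1 ∈ T := fun c hcG => (hc c hcG).2
  have e1 : 2 ^ Nat.sqrt n ≤ (diffs s T (fun _ => false) G).card :=
    hf.trans ((card_fib_le hs hT ρ G).trans (card_le_card (diffs_subset s _ _ hc')))
  obtain ⟨z, hz, r, hr⟩ := hh (T, G) (mem_fam hT hG (fun c hcG => (hc c hcG).1)) e1
  have e3 : z ∈ diffs s T ρ G := diffs_subset s _ ρ hc' hz
  rw [diffs, mem_image] at e3
  obtain ⟨p, hp, rfl⟩ := e3
  rw [mem_product] at hp
  by_contra hall
  push Not at hall
  have d1 := (hashOK_iff _ _ _ _).1 (hall _ hp.1) r r.2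
  have d2 := (hashOK_iff _ _ _ _).1 (hall _ hp.2) r r.2
  have d3 := syn_xr n s (hext h) p.1 p.2 r
  rw [d1, d2, add_zero, syn, sum_range] at d3
  refine hr (Eq.trans (sum_congr rfl fun j _ => ?_) d3)
  rw [hext, dif_pos ⟨r.2, j.2⟩, sb_decide]

end Crest.Agent.R291
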